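import Mathlib
import Vale.Agent.P219.Six.Defs

/-!
# Kernels in the squared distance and the far cosine: definitions

At a pole `a` with inward unit vector `e` (read in the normal chart at `a`) put `ψ = psi Log a`,
`L x = ⟪e, Log a x⟫`, `q = 2 ψ + ε`. The deformation field is `F q L • ∇ψ`; an affine profile has
`F q L = A q - L * B q`. In terms of
`ρ = 2 ψ`, `u = dψ N`, `L` and `m = dL N` its first variation integrands are `thetaF` and `etaF * u`.
Lengths are multiplied by the scale `l`, after which the mean curvature is `n - 1`.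
-/

open MeasureTheory
open scoped ENNReal ContDiff RealInnerProductSpace

namespace Vale.Agent.P219.Aff

open Vale.Agent.P219 Vale.Agent.P219.Univ

noncomputable section

variable {n : ℕ}

/-- A profile: two functions of the squared distance and their derivatives. -/
structure Profile where
  A : ℝ → ℝ
  A1 : ℝ → ℝ
  B : ℝ → ℝ
  B1 : ℝ → ℝ

/-- A multiplier `F q L` with its two derivatives and an upper bound `D` for the first one. -/
structure Kern where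
  F : ℝ → ℝ → ℝ
  F1 : ℝ → ℝ → ℝ
  F2 : ℝ → ℝ → ℝ
  D : ℝ

/-- The multiplier of an affine profile. -/
def Profile.kern (P : Profile) : Kern where
  F q L := P.A q - L * P.B q
  F1 q L := P.A1 q - L * P.B1 q
  F2 q _ := -P.B q
  D := 0

/-- The multiplier of `∇ψ`. -/
def etaF (P : Kern) (ε ρ L : ℝ) : ℝ := P.F (ρ + ε) L

/-- The first variation integrand of area, when `Hess ψ ≥ g` is equality. -/
def thetaF (k : ℝ) (P : Kern) (ε ρ u L m : ℝ) : ℝ :=
  2 * P.F1 (ρ + ε) L * (ρ - u ^ 2) + P.F2 (ρ + ε) L * (L - u * m) + k * etaF P ε ρ L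

/-- The kernel at scale one, with room for the regularisation. -/
def kerF (k : ℝ) (P : Kern) (ε ρ u L m : ℝ) : ℝ :=
  1 + 2 * P.D * ε + thetaF k P ε ρ u L m - k * (etaF P ε ρ L * u)

/-- A lower bound for `u * m / s`. -/
def worst (w v : ℝ) : ℝ := w ^ 2 * v - |w| * (2 - v ^ 2 - w ^ 2) / 2

/-- The lower bound for the kernel at distance `s`, near cosine `w` and far cosine `v`. -/
def kerMin (k : ℝ) (P : Profile) (s w v : ℝ) : ℝ :=
  1 + 2 * (P.A1 (s ^ 2) - s * v * P.B1 (s ^ 2)) * (s ^ 2 * (1 - w ^ 2)) +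
    s * P.B (s ^ 2) * (worst w v - v) + k * (P.A (s ^ 2) - s * v * P.B (s ^ 2)) * (1 - s * w)

/-- `kerMin` for a general multiplier. -/
def kerLow (k : ℝ) (P : Kern) (s w v : ℝ) : ℝ :=
  1 + 2 * P.F1 (s ^ 2) (s * v) * (s ^ 2 * (1 - w ^ 2)) + P.F2 (s ^ 2) (s * v) * (s * v * (1 - w ^ 2)) -
    |P.F2 (s ^ 2) (s * v)| * (s * |w| * (2 - v ^ 2 - w ^ 2) / 2) +
    k * P.F (s ^ 2) (s * v) * (1 - s * w)

/-- `kerLow` with the exact bound for the mixed term. -/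
def kerSharp (k : ℝ) (P : Kern) (s w v : ℝ) : ℝ :=
  1 + 2 * P.F1 (s ^ 2) (s * v) * (s ^ 2 * (1 - w ^ 2)) + P.F2 (s ^ 2) (s * v) * (s * v * (1 - w ^ 2)) -
    |P.F2 (s ^ 2) (s * v)| * (s * |w| * Real.sqrt ((1 - w ^ 2) * (1 - v ^ 2))) +
    k * P.F (s ^ 2) (s * v) * (1 - s * w)

theorem kerLow_le_kerSharp {k : ℝ} {P : Kern} {s w v : ℝ} (hs : 0 ≤ s) (hw : |w| ≤ 1) (hv : |v| ≤ 1) :
    kerLow k P s w v ≤ kerSharp k P s w v := by
  have hw' : w ^ 2 ≤ 1 := (sq_le_one_iff_abs_le_one w).2 hw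
  have hv' : v ^ 2 ≤ 1 := (sq_le_one_iff_abs_le_one v).2 hv
  have h : Real.sqrt ((1 - w ^ 2) * (1 - v ^ 2)) ≤ (2 - v ^ 2 - w ^ 2) / 2 :=
    Real.sqrt_le_iff.2 ⟨by linarith, by nlinarith [sq_nonneg (w ^ 2 - v ^ 2)]⟩
  have h2 := mul_le_mul_of_nonneg_left (mul_le_mul_of_nonneg_left h
    (show 0 ≤ s * |w| by positivity)) (abs_nonneg (P.F2 (s ^ 2) (s * v)))
  simp only [kerLow, kerSharp]
  linarith

/-- The volume of the unit ball. -/
def omega (n : ℕ) : ℝ := (volume : Measure (Space n)).real (Metric.ball 0 1)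

/-- Everything needed in dimension `n`. `G` is the half-sphere moment of the boundary weight. -/
structure Cert (n : ℕ) (P : Profile) (α G : ℝ) (gF : ℝ → ℝ) : Prop where
  smoothA : ContDiffOn ℝ ∞ P.A (Set.Ioi 0)
  smoothB : ContDiffOn ℝ ∞ P.B (Set.Ioi 0)
  derivA : ∀ q, 0 < q → HasDerivAt P.A (P.A1 q) q
  derivB : ∀ q, 0 < q → HasDerivAt P.B (P.B1 q) q
  B_nonneg : ∀ q, 0 < q → 0 ≤ P.B q
  eta_nonneg : ∀ q, 0 < q → Real.sqrt q * P.B q ≤ P.A q
  decreasing : ∀ q, 0 < q → P.A1 q + Real.sqrt q * |P.B1 q| ≤ 0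
  ker_nonneg : ∀ s w v : ℝ, 0 < s → |w| ≤ 1 → |v| ≤ 1 →
    0 ≤ kerMin ((n : ℝ) - 1) P s w v + kerMin ((n : ℝ) - 1) P s v w
  chord : ∀ s c d : ℝ, 0 < s → 0 < c → c ≤ 1 → 0 < d → d ≤ 1 →
    s ≤ α * s ^ (n - 1) * (kerMin ((n : ℝ) - 1) P s c d + kerMin ((n : ℝ) - 1) P s d c) /
      (2 * (c * d)) + gF c + gF d
  alpha_pos : 0 < α
  g_cont : ContinuousOn gF (Set.Icc 0 1)
  g_nonneg : ∀ t ∈ Set.Icc (0 : ℝ) 1, 0 ≤ gF t
  g_mono : MonotoneOn gF (Set.Icc 0 1)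
  G_nonneg : 0 ≤ G
  moment : ∀ e : Space n, ‖e‖ = 1 →
    ∫⁻ v, ENNReal.ofReal
      (if 0 < inner ℝ (v : Space n) e then gF (inner ℝ (v : Space n) e) * inner ℝ (v : Space n) e
        else 0) ∂Six.dirs n ≤ ENNReal.ofReal G
  balance : α * ((n : ℝ) * omega n) + 2 * G = omega n

/-- `Cert` for a general multiplier. -/
structure CertK (n : ℕ) (P : Kern) (α G : ℝ) (gF : ℝ → ℝ) : Prop where
  smooth : ContDiffOn ℝ ∞ (fun p : ℝ × ℝ => P.F p.1 p.2) (Set.Ioi 0 ×ˢ Set.univ)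
  deriv : ∀ p : ℝ × ℝ, 0 < p.1 → HasFDerivAt (fun p : ℝ × ℝ => P.F p.1 p.2)
    (P.F1 p.1 p.2 • ContinuousLinearMap.fst ℝ ℝ ℝ + P.F2 p.1 p.2 • ContinuousLinearMap.snd ℝ ℝ ℝ) p
  eta_nonneg : ∀ q L, 0 < q → L ^ 2 ≤ q → 0 ≤ P.F q L
  D_nonneg : 0 ≤ P.D
  F1_le : ∀ q L, 0 < q → L ^ 2 ≤ q → P.F1 q L ≤ P.D
  ker_nonneg : ∀ s w v : ℝ, 0 < s → |w| ≤ 1 → |v| ≤ 1 →
    0 ≤ kerSharp ((n : ℝ) - 1) P s w v + kerSharp ((n : ℝ) - 1) P s v w
  chord : ∀ s c d : ℝ, 0 < s → 0 < c → c ≤ 1 → 0 < d → d ≤ 1 →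
    s ≤ α * s ^ (n - 1) * (kerSharp ((n : ℝ) - 1) P s c d + kerSharp ((n : ℝ) - 1) P s d c) /
      (2 * (c * d)) + gF c + gF d
  alpha_pos : 0 < α
  g_cont : ContinuousOn gF (Set.Icc 0 1)
  g_nonneg : ∀ t ∈ Set.Icc (0 : ℝ) 1, 0 ≤ gF t
  g_mono : MonotoneOn gF (Set.Icc 0 1)
  G_nonneg : 0 ≤ G
  moment : ∀ e : Space n, ‖e‖ = 1 →
    ∫⁻ v, ENNReal.ofReal
      (if 0 < inner ℝ (v : Space n) e then gF (inner ℝ (v : Space n) e) * inner ℝ (v : Space n) e
        else 0) ∂Six.dirs n ≤ ENNReal.ofReal G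
  balance : α * ((n : ℝ) * omega n) + 2 * G = omega n

/-- A chord inequality for `kerLow` gives one for `kerSharp`. -/
theorem chord_of_kerLow {k α s c d : ℝ} {N : ℕ} {P : Kern} {gF : ℝ → ℝ} (hα : 0 ≤ α) (hs : 0 < s)
    (hc : 0 < c) (hc1 : c ≤ 1) (hd : 0 < d) (hd1 : d ≤ 1)
    (h : s ≤ α * s ^ N * (kerLow k P s c d + kerLow k P s d c) / (2 * (c * d)) + gF c + gF d) :
    s ≤ α * s ^ N * (kerSharp k P s c d + kerSharp k P s d c) / (2 * (c * d)) + gF c + gF d := by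
  have hc' : |c| ≤ 1 := by rwa [abs_of_pos hc]
  have hd' : |d| ≤ 1 := by rwa [abs_of_pos hd]
  refine h.trans (add_le_add (add_le_add (div_le_div_of_nonneg_right
    (mul_le_mul_of_nonneg_left (add_le_add (kerLow_le_kerSharp hs.le hc' hd')
      (kerLow_le_kerSharp hs.le hd' hc')) ?_) ?_) le_rfl) le_rfl) <;> positivity

/-- The two derivatives of the multiplier are smooth. -/
theorem contDiffOn_F12 {P : Kern} {α G : ℝ} {gF : ℝ → ℝ} (hC : CertK n P α G gF) :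
    ContDiffOn ℝ ∞ (fun p : ℝ × ℝ => P.F1 p.1 p.2) (Set.Ioi 0 ×ˢ Set.univ) ∧
      ContDiffOn ℝ ∞ (fun p : ℝ × ℝ => P.F2 p.1 p.2) (Set.Ioi 0 ×ˢ Set.univ) := by
  have h := hC.smooth.fderiv_of_isOpen (isOpen_Ioi.prod isOpen_univ) (m := ∞) (by simp)
  constructor
  · refine (h.clm_apply (contDiffOn_const (c := ((1 : ℝ), (0 : ℝ))))).congr fun p hp => ?_
    rw [(hC.deriv p hp.1).fderiv]; simp
  · refine (h.clm_apply (contDiffOn_const (c := ((0 : ℝ), (1 : ℝ))))).congr fun p hp => ?_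
    rw [(hC.deriv p hp.1).fderiv]; simp

/-- The far cosine times the distance, as a function of the second point. -/
def farL (Log : Space n → Space n → Space n) (a e x : Space n) : ℝ := inner ℝ e (Log a x)

/-- The inward unit vector of `φ` at `a`, in the chart at `a`. -/
def inDir (g : MetricField n) (Log : Space n → Space n → Space n) (φ : Space n → ℝ) (a : Space n) :
    Space n :=
  -fderiv ℝ (Log a) a (Six.unitN g φ a)

/-- The first variation integrand of area for the pole `a` and the vector `e`. -/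
def areaKer (P : Kern) (Log : Space n → Space n → Space n) (g : MetricField n)
    (φ : Space n → ℝ) (l ε : ℝ) (a e z : Space n) : ℝ :=
  thetaF ((n : ℝ) - 1) P (l ^ 2 * ε) (l ^ 2 * (2 * Six.psi Log a z))
    (l * fderiv ℝ (Six.psi Log a) z (Six.unitN g φ z)) (l * farL Log a e z)
    (fderiv ℝ (farL Log a e) z (Six.unitN g φ z))

/-- The first variation integrand of volume. -/
def volKer (P : Kern) (Log : Space n → Space n → Space n) (g : MetricField n)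
    (φ : Space n → ℝ) (l ε : ℝ) (a e z : Space n) : ℝ :=
  etaF P (l ^ 2 * ε) (l ^ 2 * (2 * Six.psi Log a z)) (l * farL Log a e z) *
    fderiv ℝ (Six.psi Log a) z (Six.unitN g φ z)

/-- The kernel between two points of a hypersurface, at scale `l`. -/
def kernel (P : Kern) (g : MetricField n) (Log : Space n → Space n → Space n)
    (φ : Space n → ℝ) (l ε : ℝ) (a z : Space n) : ℝ :=
  kerF ((n : ℝ) - 1) P (l ^ 2 * ε) (l ^ 2 * (2 * Six.psi Log a z))
    (l * fderiv ℝ (Six.psi Log a) z (Six.unitN g φ z)) (l * farL Log a (inDir g Log φ a) z)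
    (fderiv ℝ (farL Log a (inDir g Log φ a)) z (Six.unitN g φ z))

end

end Vale.Agent.P219.Aff
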