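import Mathlib
import Vale.Agent.P219.Aff.Defs

/-!
# An affine certificate is a general one
-/

open MeasureTheory Set
open scoped ENNReal ContDiff

namespace Vale.Agent.P219.Aff

noncomputable section

variable {n : ℕ} {P : Profile} {α G : ℝ} {gF : ℝ → ℝ}

theorem kerLow_affine {k s w v : ℝ} (hB : 0 ≤ P.B (s ^ 2)) :
    kerLow k P.kern s w v = kerMin k P s w v := by
  simp only [kerLow, kerMin, Profile.kern, worst, abs_neg, abs_of_nonneg hB]
  ring

theorem Cert.toK (hC : Cert n P α G gF) : CertK n P.kern α G gF where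
  smooth := by
    have hA : ContDiffOn ℝ ∞ (fun p : ℝ × ℝ => P.A p.1) (Ioi 0 ×ˢ univ) :=
      hC.smoothA.comp contDiffOn_fst fun p hp => hp.1
    have hB : ContDiffOn ℝ ∞ (fun p : ℝ × ℝ => P.B p.1) (Ioi 0 ×ˢ univ) :=
      hC.smoothB.comp contDiffOn_fst fun p hp => hp.1
    exact hA.sub (contDiffOn_snd.mul hB)
  deriv p hp := by
    have h1 := (hC.derivA p.1 hp).comp_hasFDerivAt p (hasFDerivAt_fst (𝕜 := ℝ) (p := p))
    have h2 := (hC.derivB p.1 hp).comp_hasFDerivAt p (hasFDerivAt_fst (𝕜 := ℝ) (p := p))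
    refine (h1.sub ((hasFDerivAt_snd (𝕜 := ℝ) (p := p)).mul h2)).congr_fderiv ?_
    ext <;> simp [Profile.kern, mul_comm]
  eta_nonneg q L hq hL := by
    have h1 := hC.eta_nonneg q hq
    have h2 := mul_le_mul_of_nonneg_right ((le_abs_self L).trans (Real.abs_le_sqrt hL))
      (hC.B_nonneg q hq)
    simp only [Profile.kern]
    linarith
  D_nonneg := le_rfl
  F1_le q L hq hL := by
    have h1 := hC.decreasing q hq
    have h2 : -(L * P.B1 q) ≤ Real.sqrt q * |P.B1 q| := by
      refine (neg_le_abs _).trans ?_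
      rw [abs_mul]
      exact mul_le_mul_of_nonneg_right (Real.abs_le_sqrt hL) (abs_nonneg _)
    simp only [Profile.kern]
    linarith
  ker_nonneg s w v hs hw hv := by
    refine le_trans ?_ (add_le_add (kerLow_le_kerSharp hs.le hw hv) (kerLow_le_kerSharp hs.le hv hw))
    simp only [kerLow_affine (hC.B_nonneg _ (by positivity : (0 : ℝ) < s ^ 2))]
    exact hC.ker_nonneg s w v hs hw hv
  chord s c d hs hc hc1 hd hd1 := by
    refine chord_of_kerLow hC.alpha_pos.le hs hc hc1 hd hd1 ?_
    simp only [kerLow_affine (hC.B_nonneg _ (by positivity : (0 : ℝ) < s ^ 2))]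
    exact hC.chord s c d hs hc hc1 hd hd1
  alpha_pos := hC.alpha_pos
  g_cont := hC.g_cont
  g_nonneg := hC.g_nonneg
  g_mono := hC.g_mono
  G_nonneg := hC.G_nonneg
  moment := hC.moment
  balance := hC.balance

end

end Vale.Agent.P219.Aff
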