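import Mathlib
import Vale.Agent.P219.Aff.Defs

/-!
# Profiles given in terms of the distance
-/

open scoped ContDiff

namespace Vale.Agent.P219.Aff

noncomputable section

/-- The profile whose values at `q` are `a √q` and `b √q`. -/
def ofRadial (a a' b b' : ℝ → ℝ) : Profile where
  A q := a (Real.sqrt q)
  A1 q := a' (Real.sqrt q) / (2 * Real.sqrt q)
  B q := b (Real.sqrt q)
  B1 q := b' (Real.sqrt q) / (2 * Real.sqrt q)

theorem contDiffOn_radial {a : ℝ → ℝ} (ha : ∀ r, 0 < r → ContDiffAt ℝ ∞ a r) :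
    ContDiffOn ℝ ∞ (fun q => a (Real.sqrt q)) (Set.Ioi 0) := fun q hq =>
  (ContDiffAt.comp q (ha _ (Real.sqrt_pos.2 hq))
    (Real.contDiffAt_sqrt (ne_of_gt hq))).contDiffWithinAt

theorem hasDerivAt_radial {a a' : ℝ → ℝ} (ha : ∀ r, 0 < r → HasDerivAt a (a' r) r) {q : ℝ}
    (hq : 0 < q) :
    HasDerivAt (fun q => a (Real.sqrt q)) (a' (Real.sqrt q) / (2 * Real.sqrt q)) q := by
  refine ((ha _ (Real.sqrt_pos.2 hq)).comp q (Real.hasDerivAt_sqrt hq.ne')).congr_deriv ?_
  ring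

/-- The decrease condition in terms of the distance. -/
theorem decreasing_radial {a' b' : ℝ → ℝ} (h : ∀ r, 0 < r → a' r + r * |b' r| ≤ 0) {q : ℝ}
    (hq : 0 < q) :
    a' (Real.sqrt q) / (2 * Real.sqrt q) +
      Real.sqrt q * |b' (Real.sqrt q) / (2 * Real.sqrt q)| ≤ 0 := by
  have hr := Real.sqrt_pos.2 hq
  have h2 : 0 < 2 * Real.sqrt q := by linarith
  rw [abs_div, abs_of_pos h2, mul_div_assoc', ← add_div]
  exact div_nonpos_of_nonpos_of_nonneg (h _ hr) h2.le

/-- `kerMin` in terms of the distance. -/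
theorem kerMin_radial {k : ℝ} {a a' b b' : ℝ → ℝ} {s : ℝ} (hs : 0 < s) (w v : ℝ) :
    kerMin k (ofRadial a a' b b') s w v = 1 + (a' s - s * v * b' s) * (s * (1 - w ^ 2)) +
      s * b s * (worst w v - v) + k * (a s - s * v * b s) * (1 - s * w) := by
  simp only [kerMin, ofRadial, Real.sqrt_sq hs.le]
  field_simp

end

end Vale.Agent.P219.Aff
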