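import Mathlib
import Vale.Agent.P219.Aff.Defs

/-!
# Slicing the sphere of directions
-/

open MeasureTheory Set Real Filter
open scoped ENNReal RealInnerProductSpace Pointwise

namespace Vale.Agent.P219.Aff

open Vale.Agent.P219 Vale.Agent.P219.Univ

noncomputable section

theorem omega_nonneg (n : ℕ) : 0 ≤ omega n := measureReal_nonneg

/-- Polar coordinates. -/
theorem lintegral_polar {k : ℕ} [NeZero k] {F : Space k → ℝ≥0∞} (hF : Measurable F) :
    ∫⁻ x, F x = ∫⁻ v, (∫⁻ a in Ioi (0 : ℝ),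
      ENNReal.ofReal (a ^ (k - 1)) * F (a • (v : Space k))) ∂Six.dirs k := by
  set μ := (volume : Measure (Space k))
  set G := fun z : Metric.sphere (0 : Space k) 1 × Ioi (0 : ℝ) => F ((z.2 : ℝ) • (z.1 : Space k))
  have hGm : Measurable G := hF.comp
    ((measurable_subtype_coe.comp measurable_snd).smul (measurable_subtype_coe.comp measurable_fst))
  have hG : ∀ u : ({0}ᶜ : Set (Space k)), G (homeomorphUnitSphereProd (Space k) u) = F u := by
    intro u
    have hu : ‖(u : Space k)‖ ≠ 0 := norm_ne_zero_iff.2 u.2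
    simp [G, smul_smul, hu]
  have hmp := μ.measurePreserving_homeomorphUnitSphereProd
  calc ∫⁻ x, F x = ∫⁻ x : ({0}ᶜ : Set (Space k)), F x ∂(μ.comap (↑)) := by
        rw [lintegral_subtype_comap (measurableSet_singleton _).compl F, restrict_compl_singleton]
    _ = ∫⁻ z, G z ∂(μ.toSphere.prod (Measure.volumeIoiPow (Module.finrank ℝ (Space k) - 1))) := by
        rw [← hmp.lintegral_comp hGm]
        exact lintegral_congr fun u => (hG u).symm
    _ = _ := by
        rw [lintegral_prod _ hGm.aemeasurable, finrank_euclideanSpace_fin]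
        refine lintegral_congr fun v => ?_
        rw [Measure.volumeIoiPow, lintegral_withDensity_eq_lintegral_mul _
          ((measurable_subtype_coe.pow_const _).ennreal_ofReal) (by fun_prop)]
        simp only [Pi.mul_apply, G]
        rw [lintegral_subtype_comap measurableSet_Ioi (fun a : ℝ =>
          ENNReal.ofReal (a ^ (k - 1)) * F (a • (v : Space k)))]

theorem dirs_univ_eq (k : ℕ) [NeZero k] :
    Six.dirs k univ = ENNReal.ofReal ((k : ℝ) * omega k) := by
  rw [Six.dirs, Measure.toSphere_apply_univ, finrank_euclideanSpace_fin,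
    ENNReal.ofReal_mul (Nat.cast_nonneg k), ENNReal.ofReal_natCast, omega,
    ofReal_measureReal measure_ball_lt_top.ne]

/-- Integrals of radial functions. -/
theorem lintegral_radial {k : ℕ} [NeZero k] {f : ℝ → ℝ≥0∞} (hf : Measurable f) :
    ∫⁻ x : Space k, f ‖x‖ =
      ENNReal.ofReal ((k : ℝ) * omega k) * ∫⁻ a in Ioi (0 : ℝ), ENNReal.ofReal (a ^ (k - 1)) * f a := by
  rw [lintegral_polar (F := fun x => f ‖x‖) (hf.comp measurable_norm)]
  have h : ∀ v : Metric.sphere (0 : Space k) 1, (∫⁻ a in Ioi (0 : ℝ),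
      ENNReal.ofReal (a ^ (k - 1)) * f ‖a • (v : Space k)‖) =
      ∫⁻ a in Ioi (0 : ℝ), ENNReal.ofReal (a ^ (k - 1)) * f a := fun v =>
    setLIntegral_congr_fun measurableSet_Ioi fun a (ha : 0 < a) => by
      simp [norm_smul, abs_of_pos ha]
  simp only [h, lintegral_const, dirs_univ_eq, mul_comm]

theorem lintegral_pow_below (k : ℕ) {t : ℝ} (ht : 0 ≤ t) :
    ∫⁻ s in Ioi (0 : ℝ), (if s < t then ENNReal.ofReal (s ^ k) else 0) =
      ENNReal.ofReal (t ^ (k + 1) / ((k : ℝ) + 1)) := by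
  have e : (fun s => if s < t then ENNReal.ofReal (s ^ k) else 0) =
      (Iio t).indicator fun s => ENNReal.ofReal (s ^ k) := by
    funext s; simp [indicator, mem_Iio]
  rw [e, setLIntegral_indicator measurableSet_Iio, inter_comm, Ioi_inter_Iio,
    setLIntegral_congr Ioo_ae_eq_Ioc,
    ← ofReal_integral_eq_lintegral_ofReal (continuous_pow k).integrableOn_Ioc
      ((ae_restrict_iff' measurableSet_Ioc).2 (ae_of_all _ fun s hs => pow_nonneg hs.1.le _)),
    ← intervalIntegral.integral_of_le ht, integral_pow]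
  simp

/-- The tangent of the angle. -/
def tanAng (t : ℝ) : ℝ := √(1 - t ^ 2) / t

theorem tanAng_deriv {t : ℝ} (h0 : 0 < t) (h1 : t < 1) :
    HasDerivAt tanAng (-(1 / (t ^ 2 * √(1 - t ^ 2)))) t := by
  have hp : 0 < 1 - t ^ 2 := by nlinarith
  have hs := (((hasDerivAt_id t).pow 2).const_sub 1).sqrt (by simpa using hp.ne')
  refine (hs.div (hasDerivAt_id t) h0.ne').congr_deriv ?_
  simp only [id, Pi.pow_apply]
  have hr := Real.sqrt_pos.2 hp
  field_simp
  rw [Real.sq_sqrt hp.le]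
  ring

theorem tanAng_sqrt {s t : ℝ} (hs : 0 < s) (h0 : 0 < t) (h1 : t < 1) :
    √(s ^ 2 + (s * tanAng t) ^ 2) = s / t := by
  have hp : 0 < 1 - t ^ 2 := by nlinarith
  rw [tanAng, mul_pow, div_pow, Real.sq_sqrt hp.le,
    show s ^ 2 + s ^ 2 * ((1 - t ^ 2) / t ^ 2) = (s / t) ^ 2 by field_simp; ring,
    Real.sqrt_sq (by positivity)]

theorem tanAng_image {s : ℝ} (hs : 0 < s) :
    (fun t => s * tanAng t) '' Ioo 0 1 = Ioi 0 := by
  ext r
  constructor
  · rintro ⟨t, ⟨h0, h1⟩, rfl⟩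
    have hp : 0 < 1 - t ^ 2 := by nlinarith
    exact mul_pos hs (div_pos (Real.sqrt_pos.2 hp) h0)
  · intro (hr : 0 < r)
    set w := √(s ^ 2 + r ^ 2) with hw
    have hw0 : 0 < w := Real.sqrt_pos.2 (by positivity)
    have hw2 : w ^ 2 = s ^ 2 + r ^ 2 := Real.sq_sqrt (by positivity)
    refine ⟨s / w, ⟨div_pos hs hw0, (div_lt_one hw0).2 (by nlinarith)⟩, ?_⟩
    have e : 1 - (s / w) ^ 2 = (r / w) ^ 2 := by field_simp; linarith
    dsimp only
    rw [tanAng, e, Real.sqrt_sq (by positivity)]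
    field_simp

theorem tanAng_injOn {s : ℝ} (hs : 0 < s) : InjOn (fun t => s * tanAng t) (Ioo 0 1) := by
  intro a ha b hb h
  have e : s / a = s / b := by
    rw [← tanAng_sqrt hs ha.1 ha.2, ← tanAng_sqrt hs hb.1 hb.2]
    simp only at h
    rw [h]
  rwa [div_eq_div_iff ha.1.ne' hb.1.ne', mul_right_inj' hs.ne', eq_comm] at e

/-- The substitution `ρ = s tan θ`. -/
theorem inner_subst {m : ℕ} (hm : 2 ≤ m) {H : ℝ → ℝ≥0∞} {s : ℝ} (hs : 0 < s) :
    ∫⁻ ρ in Ioi (0 : ℝ), ENNReal.ofReal (ρ ^ (m - 1)) *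
        (if √(s ^ 2 + ρ ^ 2) < 1 then H (s / √(s ^ 2 + ρ ^ 2)) else 0) =
      ∫⁻ t in Ioo (0 : ℝ) 1, ENNReal.ofReal (√(1 - t ^ 2) ^ (m - 2) / t ^ (m + 1)) * H t *
        (if s < t then ENNReal.ofReal (s ^ m) else 0) := by
  conv_lhs => rw [← tanAng_image hs]
  rw [lintegral_image_eq_lintegral_abs_deriv_mul measurableSet_Ioo
    (fun t ht => ((tanAng_deriv ht.1 ht.2).const_mul s).hasDerivWithinAt) (tanAng_injOn hs)]
  refine setLIntegral_congr_fun measurableSet_Ioo fun t ht => ?_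
  obtain ⟨h0, h1⟩ := ht
  have hp : 0 < 1 - t ^ 2 := by nlinarith
  have hr := Real.sqrt_pos.2 hp
  rw [tanAng_sqrt hs h0 h1, div_div_cancel₀ hs.ne']
  rcases lt_or_ge s t with h | h
  · rw [if_pos h, if_pos ((div_lt_one h0).2 h), ← mul_assoc, ← ENNReal.ofReal_mul (abs_nonneg _),
      mul_right_comm, ← ENNReal.ofReal_mul (by positivity)]
    congr 2
    rw [mul_neg, abs_neg, abs_of_pos (by positivity), tanAng]
    obtain ⟨j, rfl⟩ : ∃ j, m = j + 2 := ⟨m - 2, by omega⟩
    rw [show j + 2 - 1 = j + 1 from rfl, show j + 2 - 2 = j from rfl]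
    generalize √(1 - t ^ 2) = q at hr
    simp only [mul_pow, div_pow, pow_add]
    have := pow_ne_zero j h0.ne'
    field_simp
  · rw [if_neg (not_lt.2 h), if_neg (not_lt.2 ((one_le_div h0).2 h))]
    simp

/-- Coordinates along `e` and across. -/
theorem exists_coords {m : ℕ} {e : Space (m + 1)} (he : ‖e‖ = 1) :
    ∃ Φ : WithLp 2 (ℝ × Space m) ≃ₗᵢ[ℝ] Space (m + 1), ∀ z, ⟪Φ z, e⟫ = z.fst := by
  have hd : Module.finrank ℝ (WithLp 2 (ℝ × Space m)) = m + 1 := by
    rw [(WithLp.linearEquiv 2 ℝ (ℝ × Space m)).finrank_eq, Module.finrank_prod,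
      Module.finrank_self, finrank_euclideanSpace_fin, add_comm]
  let Φ₀ : WithLp 2 (ℝ × Space m) ≃ₗᵢ[ℝ] Space (m + 1) :=
    ((stdOrthonormalBasis ℝ (WithLp 2 (ℝ × Space m))).reindex (finCongr hd)).repr
  set u : WithLp 2 (ℝ × Space m) := WithLp.toLp 2 ((1 : ℝ), (0 : Space m)) with hu
  have hn : ‖u‖ = 1 := by simp [hu]
  set R := Submodule.reflection ((ℝ ∙ (Φ₀ u - e))ᗮ)
  have hR : R (Φ₀ u) = e := Submodule.reflection_sub (by rw [Φ₀.norm_map, hn, he])
  refine ⟨Φ₀.trans R, fun z => ?_⟩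
  rw [← hR, LinearIsometryEquiv.trans_apply, LinearIsometryEquiv.inner_map_map,
    LinearIsometryEquiv.inner_map_map, hu, WithLp.prod_inner_apply]
  simp

/-- The measure of directions, sliced by the cosine with `e`. -/
theorem lintegral_slice {m : ℕ} (hm : 2 ≤ m) {H : ℝ → ℝ≥0∞} (hH : Measurable H)
    (hH0 : ∀ t, t ≤ 0 → H t = 0) {e : Space (m + 1)} (he : ‖e‖ = 1) :
    ∫⁻ v, H ⟪(v : Space (m + 1)), e⟫ ∂Six.dirs (m + 1) =
      ENNReal.ofReal ((m : ℝ) * omega m) *
        ∫⁻ t in Ioo (0 : ℝ) 1, H t * ENNReal.ofReal (√(1 - t ^ 2) ^ (m - 2)) := by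
  have : NeZero m := ⟨by omega⟩
  set F : Space (m + 1) → ℝ≥0∞ := fun x => if ‖x‖ < 1 then H (⟪x, e⟫ / ‖x‖) else 0 with hFdef
  have hF : Measurable F :=
    Measurable.ite (measurableSet_lt measurable_norm measurable_const) (by fun_prop) measurable_const
  set c := ENNReal.ofReal ((1 : ℝ) / ((m : ℝ) + 1)) with hc
  -- the ball in polar coordinates
  have hA : ∫⁻ x, F x = c * ∫⁻ v, H ⟪(v : Space (m + 1)), e⟫ ∂Six.dirs (m + 1) := by
    rw [lintegral_polar hF, ← lintegral_const_mul _ (by fun_prop)]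
    refine lintegral_congr fun v => ?_
    have h := lintegral_pow_below m (zero_le_one (α := ℝ))
    rw [one_pow] at h
    have hm' : Measurable fun a : ℝ => if a < 1 then ENNReal.ofReal (a ^ m) else 0 :=
      Measurable.ite measurableSet_Iio (by fun_prop) measurable_const
    rw [hc, ← h, ← lintegral_mul_const _ hm']
    refine setLIntegral_congr_fun measurableSet_Ioi fun a (ha : 0 < a) => ?_
    simp [hFdef, norm_smul, abs_of_pos ha, real_inner_smul_left, ha.ne', ite_mul]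
  -- the ball in coordinates along `e`
  obtain ⟨Φ, hΦ⟩ := exists_coords he
  set g : ℝ → ℝ → ℝ≥0∞ := fun s ρ =>
    if √(s ^ 2 + ρ ^ 2) < 1 then H (s / √(s ^ 2 + ρ ^ 2)) else 0 with hgdef
  have hg : Measurable fun p : ℝ × ℝ => g p.1 p.2 :=
    Measurable.ite (measurableSet_lt (by fun_prop) measurable_const) (by fun_prop) measurable_const
  have hB : ∫⁻ x, F x = ∫⁻ p : ℝ × Space m, g p.1 ‖p.2‖ := by
    rw [← Φ.measurePreserving.lintegral_comp hF,
      ← (WithLp.volume_preserving_toLp ℝ (Space m)).lintegral_comp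
        (f := fun z => F (Φ z)) (hF.comp Φ.continuous.measurable)]
    refine lintegral_congr fun p => ?_
    simp only [hFdef, hgdef, Φ.norm_map, hΦ, WithLp.prod_norm_eq_of_L2,
      WithLp.toLp_fst, WithLp.toLp_snd, Real.norm_eq_abs, sq_abs]
  set W := fun t : ℝ => ENNReal.ofReal (√(1 - t ^ 2) ^ (m - 2) / t ^ (m + 1)) * H t
  have hW : Measurable W := by fun_prop
  set Q := fun s t : ℝ => W t * (if s < t then ENNReal.ofReal (s ^ m) else 0)
  have hQ : Measurable fun p : ℝ × ℝ => Q p.1 p.2 :=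
    (hW.comp measurable_snd).mul
      (Measurable.ite (measurableSet_lt measurable_fst measurable_snd) (by fun_prop)
        measurable_const)
  have hC : ∫⁻ p : ℝ × Space m, g p.1 ‖p.2‖ = ENNReal.ofReal ((m : ℝ) * omega m) *
      (c * ∫⁻ t in Ioo (0 : ℝ) 1, H t * ENNReal.ofReal (√(1 - t ^ 2) ^ (m - 2))) := by
    have hgm : Measurable fun p : ℝ × Space m => g p.1 ‖p.2‖ :=
      hg.comp (measurable_fst.prodMk measurable_snd.norm)
    rw [Measure.volume_eq_prod, lintegral_prod _ hgm.aemeasurable]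
    have h1 : ∀ s : ℝ, (∫⁻ y : Space m, g s ‖y‖) = ENNReal.ofReal ((m : ℝ) * omega m) *
        (Ioi (0 : ℝ)).indicator (fun s => ∫⁻ t in Ioo (0 : ℝ) 1, Q s t) s := by
      intro s
      rw [lintegral_radial (f := g s) (hg.comp (measurable_const.prodMk measurable_id))]
      congr 1
      rcases le_or_gt s 0 with h | h
      · rw [indicator_of_notMem (notMem_Ioi.2 h)]
        refine (setLIntegral_congr_fun measurableSet_Ioi fun ρ _ => ?_).trans lintegral_zero
        simp [hgdef, hH0 _ (div_nonpos_of_nonpos_of_nonneg h (Real.sqrt_nonneg _))]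
      · rw [indicator_of_mem (mem_Ioi.2 h)]
        exact inner_subst hm h
    simp only [h1]
    rw [lintegral_const_mul' _ _ ENNReal.ofReal_ne_top, lintegral_indicator measurableSet_Ioi,
      lintegral_lintegral_swap hQ.aemeasurable]
    congr 1
    rw [← lintegral_const_mul c (by fun_prop)]
    refine setLIntegral_congr_fun measurableSet_Ioo fun t ht => ?_
    dsimp only [Q, W]
    rw [lintegral_const_mul _ (Measurable.ite measurableSet_Iio (by fun_prop) measurable_const),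
      lintegral_pow_below m ht.1.le, hc, mul_right_comm, ← ENNReal.ofReal_mul
      (div_nonneg (pow_nonneg (Real.sqrt_nonneg _) _) (pow_nonneg ht.1.le _))]
    rw [mul_comm (H t), ← mul_assoc, ← ENNReal.ofReal_mul (by positivity)]
    congr 2
    have := pow_ne_zero (m + 1) ht.1.ne'
    field_simp
  have h := hA.symm.trans (hB.trans hC)
  rw [mul_left_comm] at h
  exact (ENNReal.mul_right_inj (by positivity) ENNReal.ofReal_ne_top).1 h

/-- The integral over a half sphere of a function of the cosine with `e`. -/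
theorem half_sphere {n : ℕ} (hn : 3 ≤ n) {h : ℝ → ℝ} (hc : ContinuousOn h (Icc 0 1))
    (h0 : ∀ t ∈ Icc (0 : ℝ) 1, 0 ≤ h t) (e : Space n) (he : ‖e‖ = 1) :
    ∫⁻ v, ENNReal.ofReal
        (if 0 < inner ℝ (v : Space n) e then h (inner ℝ (v : Space n) e) else 0) ∂Six.dirs n ≤
      ENNReal.ofReal (((n : ℝ) - 1) * omega (n - 1) *
        ∫ t in (0 : ℝ)..1, h t * √(1 - t ^ 2) ^ (n - 3)) := by
  obtain ⟨m, rfl⟩ : ∃ m, n = m + 1 := ⟨n - 1, by omega⟩
  set h' := IccExtend (zero_le_one (α := ℝ)) ((Icc (0 : ℝ) 1).domRestrict h) with hh'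
  have hc' : Continuous h' := hc.domRestrict.Icc_extend'
  have heq : ∀ t ∈ Icc (0 : ℝ) 1, h' t = h t := fun t ht => IccExtend_of_mem _ _ ht
  set H := fun t : ℝ => ENNReal.ofReal (if 0 < t then h' t else 0) with hHdef
  have hH : Measurable H :=
    (Measurable.ite measurableSet_Ioi hc'.measurable measurable_const).ennreal_ofReal
  have e1 : ∀ v : Metric.sphere (0 : Space (m + 1)) 1,
      ENNReal.ofReal (if 0 < ⟪(v : Space (m + 1)), e⟫ then h ⟪(v : Space (m + 1)), e⟫ else 0) =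
        H ⟪(v : Space (m + 1)), e⟫ := by
    intro v
    dsimp only [H]
    split_ifs with hv
    · rw [heq _ ⟨hv.le, by
        simpa [he] using real_inner_le_norm (v : Space (m + 1)) e⟩]
    · rfl
  simp only [e1]
  rw [lintegral_slice (by omega) hH (fun t ht => by simp [hHdef, not_lt.2 ht]) he,
    Nat.cast_add_one, add_sub_cancel_right, Nat.add_sub_cancel,
    show m + 1 - 3 = m - 2 by omega,
    ENNReal.ofReal_mul (mul_nonneg (Nat.cast_nonneg m) (omega_nonneg m))]
  gcongr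
  have hci : ContinuousOn (fun t => h t * √(1 - t ^ 2) ^ (m - 2)) (Icc 0 1) :=
    hc.mul (by fun_prop)
  rw [intervalIntegral.integral_of_le zero_le_one,
    ofReal_integral_eq_lintegral_ofReal
      (hci.integrableOn_Icc.mono_set Ioc_subset_Icc_self)
      ((ae_restrict_iff' measurableSet_Ioc).2 (ae_of_all _ fun t ht =>
        mul_nonneg (h0 t (Ioc_subset_Icc_self ht)) (pow_nonneg (Real.sqrt_nonneg _) _))),
    ← setLIntegral_congr Ioo_ae_eq_Ioc]
  refine le_of_eq (setLIntegral_congr_fun measurableSet_Ioo fun t ht => ?_)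
  rw [ENNReal.ofReal_mul (h0 t (Ioo_subset_Icc_self ht))]
  simp [hHdef, ht.1, heq t (Ioo_subset_Icc_self ht)]

theorem omega_eq (n : ℕ) [NeZero n] :
    omega n = √π ^ n / Real.Gamma ((n : ℝ) / 2 + 1) := by
  rw [omega, measureReal_def, EuclideanSpace.volume_ball, ENNReal.ofReal_one, one_pow, one_mul,
    Fintype.card_fin, ENNReal.toReal_ofReal]
  exact div_nonneg (pow_nonneg (Real.sqrt_nonneg _) _) (Real.Gamma_nonneg_of_nonneg (by positivity))

theorem omega_four : omega 4 = π ^ 2 / 2 := by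
  rw [omega_eq, show ((4 : ℕ) : ℝ) / 2 + 1 = ((2 : ℕ) : ℝ) + 1 by norm_num,
    Real.Gamma_nat_eq_factorial, show √π ^ 4 = (√π ^ 2) ^ 2 by ring, Real.sq_sqrt Real.pi_pos.le]
  norm_num [Nat.factorial]

theorem omega_five : omega 5 = 8 * π ^ 2 / 15 := by
  rw [omega_eq, show ((5 : ℕ) : ℝ) / 2 + 1 = ((1 / 2 + 1) + 1) + 1 by norm_num,
    Real.Gamma_add_one (by norm_num), Real.Gamma_add_one (by norm_num),
    Real.Gamma_add_one (by norm_num), Real.Gamma_one_half_eq,
    show √π ^ 5 = (√π ^ 2) ^ 2 * √π by ring, Real.sq_sqrt Real.pi_pos.le]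
  have := Real.sqrt_pos.2 Real.pi_pos
  field_simp
  norm_num

theorem omega_six : omega 6 = π ^ 3 / 6 := by
  rw [omega_eq, show ((6 : ℕ) : ℝ) / 2 + 1 = ((3 : ℕ) : ℝ) + 1 by norm_num,
    Real.Gamma_nat_eq_factorial, show √π ^ 6 = (√π ^ 2) ^ 3 by ring, Real.sq_sqrt Real.pi_pos.le]
  norm_num [Nat.factorial]

theorem omega_seven : omega 7 = 16 * π ^ 3 / 105 := by
  rw [omega_eq, show ((7 : ℕ) : ℝ) / 2 + 1 = (((1 / 2 + 1) + 1) + 1) + 1 by norm_num,
    Real.Gamma_add_one (by norm_num), Real.Gamma_add_one (by norm_num),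
    Real.Gamma_add_one (by norm_num), Real.Gamma_add_one (by norm_num), Real.Gamma_one_half_eq,
    show √π ^ 7 = (√π ^ 2) ^ 3 * √π by ring, Real.sq_sqrt Real.pi_pos.le]
  have := Real.sqrt_pos.2 Real.pi_pos
  field_simp
  norm_num

end

end Vale.Agent.P219.Aff
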