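import Mathlib
import Vale.Agent.P219.Aff.Radial
import Vale.Agent.P219.Aff.Slicing

/-!
# The exact inequalities in eight dimensions

Here only the kernel plus its transpose is nonnegative. After bounding the mixed term both it and
the chord deficit are functions of the sum `S` and the product `p` of the cosines, affine or concave
in `p`, so they reduce to equal cosines and to a cosine equal to one or zero.
-/

open MeasureTheory Set Real
open scoped ENNReal ContDiff RealInnerProductSpace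

namespace Vale.Agent.P219.Aff

open Vale.Agent.P219 Vale.Agent.P219.Univ

noncomputable section

namespace Eight

/-- The radial factor of the profile. -/
def a (r : ℝ) : ℝ := (70 + 50 * r ^ 2) / (79 * r ^ 4)

/-- The derivative of `a`. -/
def a' (r : ℝ) : ℝ := -(280 + 100 * r ^ 2) / (79 * r ^ 5)

/-- The coefficient of the far cosine. -/
def b (r : ℝ) : ℝ := 48 / (79 * r ^ 4)

/-- The derivative of `b`. -/
def b' (r : ℝ) : ℝ := -192 / (79 * r ^ 5)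

/-- The boundary weight. -/
def g (t : ℝ) : ℝ := (210 * t + 90 * t ^ 3 - 8 * t ^ 5) / 315

theorem hasDerivAt_a {r : ℝ} (hr : 0 < r) : HasDerivAt a (a' r) r := by
  have hn : HasDerivAt (fun x : ℝ => 70 + 50 * x ^ 2) (50 * (2 * r)) r :=
    (((hasDerivAt_pow 2 r).const_mul 50).const_add 70).congr_deriv (by norm_num)
  have hd : HasDerivAt (fun x : ℝ => 79 * x ^ 4) (79 * (4 * r ^ 3)) r :=
    ((hasDerivAt_pow 4 r).const_mul 79).congr_deriv (by norm_num)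
  refine (hn.div hd (by positivity)).congr_deriv ?_
  unfold a'
  field_simp
  ring

theorem hasDerivAt_b {r : ℝ} (hr : 0 < r) : HasDerivAt b (b' r) r := by
  have hd : HasDerivAt (fun x : ℝ => 79 * x ^ 4) (79 * (4 * r ^ 3)) r :=
    ((hasDerivAt_pow 4 r).const_mul 79).congr_deriv (by norm_num)
  refine ((hasDerivAt_const r (48 : ℝ)).div hd (by positivity)).congr_deriv ?_
  unfold b'
  field_simp
  ring

theorem b_nonneg {r : ℝ} (hr : 0 < r) : 0 ≤ b r := by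
  unfold b; positivity

theorem eta {r : ℝ} (hr : 0 < r) : r * b r ≤ a r := by
  unfold a b
  rw [mul_div_assoc']
  exact div_le_div_of_nonneg_right (by nlinarith [sq_nonneg (r - 1)]) (by positivity)

theorem decrease {r : ℝ} (hr : 0 < r) : a' r + r * |b' r| ≤ 0 := by
  unfold a' b'
  rw [abs_div, abs_of_pos (show (0 : ℝ) < 79 * r ^ 5 by positivity), mul_div_assoc', ← add_div,
    abs_neg, abs_of_pos (show (0 : ℝ) < 192 by norm_num)]
  exact div_nonpos_of_nonpos_of_nonneg (by nlinarith [sq_nonneg (r - 1)]) (by positivity)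

/-- The symmetrised kernel times `79 r ^ 4`, with the mixed term bounded by `cf`, in the sum `S`
and the product `p` of the cosines. -/
def ker (cf r S p : ℝ) : ℝ :=
  158 * r ^ 4 + 2 * (490 + 350 * r ^ 2) - (280 + 100 * r ^ 2 + cf * r) * (2 - S ^ 2 + 2 * p) +
    144 * r * S * (1 - p) - (826 + 350 * r ^ 2) * r * S + 672 * r ^ 2 * p

theorem kerMin_sum {r : ℝ} (hr : 0 < r) (w v : ℝ) :
    kerMin 7 (ofRadial a a' b b') r w v + kerMin 7 (ofRadial a a' b b') r v w =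
      ker (24 * (|w| + |v|)) r (w + v) (w * v) / (79 * r ^ 4) := by
  rw [kerMin_radial hr, kerMin_radial hr, worst, worst]
  unfold a a' b b' ker
  field_simp
  ring

theorem ker_diag {r t : ℝ} (hr : 0 ≤ r) (ht : -1 ≤ t) (ht' : t ≤ 1) :
    0 ≤ ker 48 r (2 * t) (t * t) := by
  unfold ker
  nlinarith [mul_nonneg (mul_nonneg hr (sub_nonneg.2 ht')) (sq_nonneg (t + 1)),
    mul_nonneg (sub_nonneg.2 ht') (sub_nonneg.2 ht), sq_nonneg (r - 5 / 3), sq_nonneg (r - t),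
    mul_nonneg hr (sq_nonneg (r - 5 / 3)), mul_nonneg (pow_nonneg hr 2) (sq_nonneg (r - 5 / 3)),
    mul_nonneg hr (sub_nonneg.2 ht'), mul_nonneg (pow_nonneg hr 3) (sub_nonneg.2 ht'),
    mul_nonneg (pow_nonneg hr 2) (sq_nonneg (1 - t))]

theorem ker_edge {r v : ℝ} (hr : 0 ≤ r) (hv : -1 ≤ v) (hv' : v ≤ 1) :
    0 ≤ ker 48 r (1 + v) v := by
  unfold ker
  nlinarith [mul_nonneg (sub_nonneg.2 hv') (sub_nonneg.2 hv), sq_nonneg (r - 5 / 3),
    mul_nonneg hr (sq_nonneg (r - 5 / 3)), mul_nonneg (pow_nonneg hr 2) (sq_nonneg (r - 5 / 3)),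
    mul_nonneg hr (sub_nonneg.2 hv'), mul_nonneg (pow_nonneg hr 3) (sub_nonneg.2 hv'),
    mul_nonneg (pow_nonneg hr 2) (sq_nonneg (1 - v)), mul_nonneg hr (sq_nonneg (1 - v))]

theorem ker_edge_neg {r v : ℝ} (hr : 0 ≤ r) (hv : -1 ≤ v) (hv' : v ≤ 1) :
    0 ≤ ker 48 r (-1 + v) (-v) := by
  unfold ker
  nlinarith [mul_nonneg (sub_nonneg.2 hv') (sub_nonneg.2 hv), mul_nonneg hr (sub_nonneg.2 hv'),
    mul_nonneg (pow_nonneg hr 3) (sub_nonneg.2 hv'),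
    mul_nonneg (pow_nonneg hr 2) (sub_nonneg.2 hv'),
    mul_nonneg (pow_nonneg hr 2) (sq_nonneg v), mul_nonneg hr (sq_nonneg v), sq_nonneg (r - 1)]

/-- The lower bound of the symmetrised kernel is nonnegative. -/
theorem ker_nonneg {r w v : ℝ} (hr : 0 ≤ r) (hw : |w| ≤ 1) (hv : |v| ≤ 1) :
    0 ≤ ker 48 r (w + v) (w * v) := by
  obtain ⟨w1, w2⟩ := abs_le.1 hw
  obtain ⟨v1, v2⟩ := abs_le.1 hv
  set S := w + v with hS
  set p := w * v with hp
  set k := 672 * r ^ 2 - 2 * (280 + 100 * r ^ 2 + 48 * r) - 144 * r * S with hk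
  have aff : ∀ p', ker 48 r S p = ker 48 r S p' + (p - p') * k := fun p' => by
    rw [hk]; unfold ker; ring
  rcases le_total k 0 with h | h
  · rw [aff (S / 2 * (S / 2))]
    have h1 := ker_diag hr (show -1 ≤ S / 2 by linarith) (show S / 2 ≤ 1 by linarith)
    rw [show 2 * (S / 2) = S by ring] at h1
    have h2 : p ≤ S / 2 * (S / 2) := by rw [hS, hp]; nlinarith [sq_nonneg (w - v)]
    have := mul_nonneg_of_nonpos_of_nonpos (sub_nonpos.2 h2) h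
    linarith
  · rcases le_total 0 S with h0 | h0
    · rw [aff (S - 1)]
      have h1 := ker_edge hr (show -1 ≤ S - 1 by linarith) (show S - 1 ≤ 1 by linarith)
      rw [show 1 + (S - 1) = S by ring] at h1
      have h2 : S - 1 ≤ p := by
        rw [hS, hp]; nlinarith [mul_nonneg (sub_nonneg.2 w2) (sub_nonneg.2 v2)]
      have := mul_nonneg (sub_nonneg.2 h2) h
      linarith
    · rw [aff (-(S + 1))]
      have h1 := ker_edge_neg hr (show -1 ≤ S + 1 by linarith) (show S + 1 ≤ 1 by linarith)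
      rw [show -1 + (S + 1) = S by ring] at h1
      have h2 : -(S + 1) ≤ p := by
        rw [hS, hp]; nlinarith [mul_nonneg (sub_nonneg.2 w1) (sub_nonneg.2 v1)]
      have := mul_nonneg (sub_nonneg.2 h2) h
      linarith

/-- The kernel plus its transpose is nonnegative. -/
theorem sym_nonneg {r w v : ℝ} (hr : 0 < r) (hw : |w| ≤ 1) (hv : |v| ≤ 1) :
    0 ≤ kerMin 7 (ofRadial a a' b b') r w v + kerMin 7 (ofRadial a a' b b') r v w := by
  rw [kerMin_sum hr]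
  refine div_nonneg ((ker_nonneg hr.le hw hv).trans ?_) (by positivity)
  have h2 : 0 ≤ 2 - w ^ 2 - v ^ 2 := by
    linarith [(sq_le_one_iff_abs_le_one w).2 hw, (sq_le_one_iff_abs_le_one v).2 hv]
  have := mul_nonneg (mul_nonneg (show 0 ≤ 2 - |w| - |v| by linarith) hr.le) h2
  unfold ker
  linarith

/-- The chord deficit times `5040 c d`, in the sum and the product of the end cosines. -/
def Phi (r S p : ℝ) : ℝ :=
  r ^ 3 * ker (24 * S) r S p + 16 * p *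
    (210 * S + 90 * (S ^ 3 - 3 * p * S) - 8 * (S ^ 5 - 5 * S ^ 3 * p + 5 * S * p ^ 2)) -
    5040 * r * p

theorem Phi_concave {r S a p b : ℝ} (hS : 0 ≤ S) (hS2 : S ≤ 2) (h1 : a ≤ p) (h2 : p ≤ b)
    (hb : 4 * b ≤ S ^ 2) (ha : 0 ≤ a) (fa : 0 ≤ Phi r S a) (fb : 0 ≤ Phi r S b) :
    0 ≤ Phi r S p := by
  rcases h1.eq_or_lt with h | h
  · exact h ▸ fa
  have hab : 0 < b - a := by linarith
  refine nonneg_of_mul_nonneg_right ?_ hab
  have e : (b - a) * Phi r S p = (b - p) * Phi r S a + (p - a) * Phi r S b +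
      (b - a) * (p - a) * (b - p) *
        (16 * S * (270 - 40 * S ^ 2 + 40 * (a + p + b))) := by
    unfold Phi ker; ring
  rw [e]
  have hS4 : S ^ 2 ≤ 4 := by nlinarith
  have t1 := mul_nonneg (sub_nonneg.2 h2) fa
  have t2 := mul_nonneg (sub_nonneg.2 h1) fb
  have t3 : 0 ≤ (b - a) * (p - a) * (b - p) * (16 * S * (270 - 40 * S ^ 2 + 40 * (a + p + b))) :=
    mul_nonneg (mul_nonneg (mul_nonneg hab.le (sub_nonneg.2 h1)) (sub_nonneg.2 h2))
      (mul_nonneg (by positivity) (by linarith))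
  linarith

theorem Phi_diag {r t : ℝ} (hr : 0 ≤ r) (ht : 0 ≤ t) (ht' : t ≤ 1) :
    0 ≤ Phi r (2 * t) (t * t) := by
  have e : Phi r (2 * t) (t * t) = (r - 2 * t) ^ 2 * (1680*t + 720*t^3 - 64*t^5 + 420*r + 720*r*t^2 - 64*r*t^4
      + 540*r^2*t - 48*r^2*t^3 + 500*r^3 - 32*r^3*t^2 - 68*r^4*t + 158*r^5) := by
    unfold Phi ker; ring
  have t2 : t ^ 2 ≤ 1 := pow_le_one₀ ht ht'
  have s0 := mul_nonneg (mul_nonneg ht (sq_nonneg t)) (sub_nonneg.2 t2)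
  have s1 := mul_nonneg (mul_nonneg hr (sq_nonneg t)) (sub_nonneg.2 t2)
  have s2 := mul_nonneg (mul_nonneg (pow_nonneg hr 2) ht) (sub_nonneg.2 t2)
  have s3 := mul_nonneg (pow_nonneg hr 3) (sub_nonneg.2 t2)
  have s4 := mul_nonneg (mul_nonneg (pow_nonneg hr 3) (sq_nonneg (r - 1))) ht
  have s5 := mul_nonneg (pow_nonneg hr 3) (sub_nonneg.2 ht')
  have s6 := mul_nonneg (pow_nonneg hr 3) (sq_nonneg (r - t))
  rw [e]
  refine mul_nonneg (sq_nonneg _) ?_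
  nlinarith [pow_nonneg hr 3, mul_nonneg (pow_nonneg hr 3) (sq_nonneg t), mul_nonneg hr (sq_nonneg t),
    mul_nonneg ht (sq_nonneg t), mul_nonneg (pow_nonneg hr 2) ht]

theorem low0 {r : ℝ} (hr : 0 ≤ r) :
    0 ≤ (700*r^3 - 706*r^4 + 600*r^5 - 350*r^6 + 158*r^7) := by
  nlinarith [mul_nonneg (pow_nonneg hr 0) (sq_nonneg (r - 0)),
    mul_nonneg (pow_nonneg hr 1) (sq_nonneg (r - 0)),
    mul_nonneg (pow_nonneg hr 2) (sq_nonneg (r - 0)),
    mul_nonneg (pow_nonneg hr 3) (sq_nonneg (r - 0)),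
    mul_nonneg (pow_nonneg hr 4) (sq_nonneg (r - 0)),
    mul_nonneg (pow_nonneg hr 5) (sq_nonneg (r - 0)),
    mul_nonneg (pow_nonneg hr 0) (sq_nonneg (r - 1 / 4)),
    mul_nonneg (pow_nonneg hr 1) (sq_nonneg (r - 1 / 4)),
    mul_nonneg (pow_nonneg hr 2) (sq_nonneg (r - 1 / 4)),
    mul_nonneg (pow_nonneg hr 3) (sq_nonneg (r - 1 / 4)),
    mul_nonneg (pow_nonneg hr 4) (sq_nonneg (r - 1 / 4)),
    mul_nonneg (pow_nonneg hr 5) (sq_nonneg (r - 1 / 4)),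
    pow_nonneg hr 1,
    pow_nonneg hr 2,
    pow_nonneg hr 3,
    pow_nonneg hr 4,
    pow_nonneg hr 5,
    pow_nonneg hr 6,
    pow_nonneg hr 7]

theorem low1 {r : ℝ} (hr : 0 ≤ r) :
    0 ≤ (2336 - 2520*r + 4200*r^3 - 4661*r^4 + 3936*r^5 - 2275*r^6
      + 948*r^7) := by
  nlinarith [mul_nonneg (pow_nonneg hr 0) (sq_nonneg (r - 1)),
    mul_nonneg (pow_nonneg hr 1) (sq_nonneg (r - 1)),
    mul_nonneg (pow_nonneg hr 2) (sq_nonneg (r - 1)),
    mul_nonneg (pow_nonneg hr 3) (sq_nonneg (r - 1)),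
    mul_nonneg (pow_nonneg hr 4) (sq_nonneg (r - 1)),
    mul_nonneg (pow_nonneg hr 5) (sq_nonneg (r - 1)),
    mul_nonneg (pow_nonneg hr 0) (sq_nonneg (r - 5 / 4)),
    mul_nonneg (pow_nonneg hr 1) (sq_nonneg (r - 5 / 4)),
    mul_nonneg (pow_nonneg hr 2) (sq_nonneg (r - 5 / 4)),
    mul_nonneg (pow_nonneg hr 3) (sq_nonneg (r - 5 / 4)),
    mul_nonneg (pow_nonneg hr 4) (sq_nonneg (r - 5 / 4)),
    mul_nonneg (pow_nonneg hr 5) (sq_nonneg (r - 5 / 4)),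
    mul_nonneg (pow_nonneg hr 0) (sq_nonneg (r - 3 / 2)),
    mul_nonneg (pow_nonneg hr 1) (sq_nonneg (r - 3 / 2)),
    mul_nonneg (pow_nonneg hr 2) (sq_nonneg (r - 3 / 2)),
    mul_nonneg (pow_nonneg hr 3) (sq_nonneg (r - 3 / 2)),
    mul_nonneg (pow_nonneg hr 4) (sq_nonneg (r - 3 / 2)),
    mul_nonneg (pow_nonneg hr 5) (sq_nonneg (r - 3 / 2)),
    pow_nonneg hr 1,
    pow_nonneg hr 2,
    pow_nonneg hr 3,
    pow_nonneg hr 4,
    pow_nonneg hr 5,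
    pow_nonneg hr 6,
    pow_nonneg hr 7]

theorem low2 {r : ℝ} (hr : 0 ≤ r) :
    0 ≤ (12520 - 12600*r + 10570*r^3 - 12745*r^4 + 10705*r^5 - 6125*r^6
      + 2370*r^7) := by
  nlinarith [mul_nonneg (pow_nonneg hr 0) (sq_nonneg (r - 1)),
    mul_nonneg (pow_nonneg hr 1) (sq_nonneg (r - 1)),
    mul_nonneg (pow_nonneg hr 2) (sq_nonneg (r - 1)),
    mul_nonneg (pow_nonneg hr 3) (sq_nonneg (r - 1)),
    mul_nonneg (pow_nonneg hr 4) (sq_nonneg (r - 1)),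
    mul_nonneg (pow_nonneg hr 5) (sq_nonneg (r - 1)),
    mul_nonneg (pow_nonneg hr 0) (sq_nonneg (r - 5 / 4)),
    mul_nonneg (pow_nonneg hr 1) (sq_nonneg (r - 5 / 4)),
    mul_nonneg (pow_nonneg hr 2) (sq_nonneg (r - 5 / 4)),
    mul_nonneg (pow_nonneg hr 3) (sq_nonneg (r - 5 / 4)),
    mul_nonneg (pow_nonneg hr 4) (sq_nonneg (r - 5 / 4)),
    mul_nonneg (pow_nonneg hr 5) (sq_nonneg (r - 5 / 4)),
    mul_nonneg (pow_nonneg hr 0) (sq_nonneg (r - 3 / 2)),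
    mul_nonneg (pow_nonneg hr 1) (sq_nonneg (r - 3 / 2)),
    mul_nonneg (pow_nonneg hr 2) (sq_nonneg (r - 3 / 2)),
    mul_nonneg (pow_nonneg hr 3) (sq_nonneg (r - 3 / 2)),
    mul_nonneg (pow_nonneg hr 4) (sq_nonneg (r - 3 / 2)),
    mul_nonneg (pow_nonneg hr 5) (sq_nonneg (r - 3 / 2)),
    pow_nonneg hr 1,
    pow_nonneg hr 2,
    pow_nonneg hr 3,
    pow_nonneg hr 4,
    pow_nonneg hr 5,
    pow_nonneg hr 6,
    pow_nonneg hr 7]

theorem low3 {r : ℝ} (hr : 0 ≤ r) :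
    0 ≤ (26720 - 25200*r + 14280*r^3 - 18487*r^4 + 15460*r^5 - 8750*r^6
      + 3160*r^7) := by
  nlinarith [mul_nonneg (pow_nonneg hr 0) (sq_nonneg (r - 1)),
    mul_nonneg (pow_nonneg hr 1) (sq_nonneg (r - 1)),
    mul_nonneg (pow_nonneg hr 2) (sq_nonneg (r - 1)),
    mul_nonneg (pow_nonneg hr 3) (sq_nonneg (r - 1)),
    mul_nonneg (pow_nonneg hr 4) (sq_nonneg (r - 1)),
    mul_nonneg (pow_nonneg hr 5) (sq_nonneg (r - 1)),
    mul_nonneg (pow_nonneg hr 0) (sq_nonneg (r - 5 / 4)),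
    mul_nonneg (pow_nonneg hr 1) (sq_nonneg (r - 5 / 4)),
    mul_nonneg (pow_nonneg hr 2) (sq_nonneg (r - 5 / 4)),
    mul_nonneg (pow_nonneg hr 3) (sq_nonneg (r - 5 / 4)),
    mul_nonneg (pow_nonneg hr 4) (sq_nonneg (r - 5 / 4)),
    mul_nonneg (pow_nonneg hr 5) (sq_nonneg (r - 5 / 4)),
    mul_nonneg (pow_nonneg hr 0) (sq_nonneg (r - 3 / 2)),
    mul_nonneg (pow_nonneg hr 1) (sq_nonneg (r - 3 / 2)),
    mul_nonneg (pow_nonneg hr 2) (sq_nonneg (r - 3 / 2)),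
    mul_nonneg (pow_nonneg hr 3) (sq_nonneg (r - 3 / 2)),
    mul_nonneg (pow_nonneg hr 4) (sq_nonneg (r - 3 / 2)),
    mul_nonneg (pow_nonneg hr 5) (sq_nonneg (r - 3 / 2)),
    pow_nonneg hr 1,
    pow_nonneg hr 2,
    pow_nonneg hr 3,
    pow_nonneg hr 4,
    pow_nonneg hr 5,
    pow_nonneg hr 6,
    pow_nonneg hr 7]

theorem low4 {r : ℝ} (hr : 0 ≤ r) :
    0 ≤ (28490 - 25200*r + 10920*r^3 - 15011*r^4 + 12510*r^5 - 7000*r^6
      + 2370*r^7) := by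
  nlinarith [mul_nonneg (pow_nonneg hr 0) (sq_nonneg (r - 5 / 4)),
    mul_nonneg (pow_nonneg hr 1) (sq_nonneg (r - 5 / 4)),
    mul_nonneg (pow_nonneg hr 2) (sq_nonneg (r - 5 / 4)),
    mul_nonneg (pow_nonneg hr 3) (sq_nonneg (r - 5 / 4)),
    mul_nonneg (pow_nonneg hr 4) (sq_nonneg (r - 5 / 4)),
    mul_nonneg (pow_nonneg hr 5) (sq_nonneg (r - 5 / 4)),
    mul_nonneg (pow_nonneg hr 0) (sq_nonneg (r - 3 / 2)),
    mul_nonneg (pow_nonneg hr 1) (sq_nonneg (r - 3 / 2)),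
    mul_nonneg (pow_nonneg hr 2) (sq_nonneg (r - 3 / 2)),
    mul_nonneg (pow_nonneg hr 3) (sq_nonneg (r - 3 / 2)),
    mul_nonneg (pow_nonneg hr 4) (sq_nonneg (r - 3 / 2)),
    mul_nonneg (pow_nonneg hr 5) (sq_nonneg (r - 3 / 2)),
    mul_nonneg (pow_nonneg hr 0) (sq_nonneg (r - 7 / 4)),
    mul_nonneg (pow_nonneg hr 1) (sq_nonneg (r - 7 / 4)),
    mul_nonneg (pow_nonneg hr 2) (sq_nonneg (r - 7 / 4)),
    mul_nonneg (pow_nonneg hr 3) (sq_nonneg (r - 7 / 4)),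
    mul_nonneg (pow_nonneg hr 4) (sq_nonneg (r - 7 / 4)),
    mul_nonneg (pow_nonneg hr 5) (sq_nonneg (r - 7 / 4)),
    pow_nonneg hr 1,
    pow_nonneg hr 2,
    pow_nonneg hr 3,
    pow_nonneg hr 4,
    pow_nonneg hr 5,
    pow_nonneg hr 6,
    pow_nonneg hr 7]

theorem low5 {r : ℝ} (hr : 0 ≤ r) :
    0 ≤ (15220 - 12600*r + 4480*r^3 - 6472*r^4 + 5380*r^5 - 2975*r^6
      + 948*r^7) := by
  nlinarith [mul_nonneg (pow_nonneg hr 0) (sq_nonneg (r - 5 / 4)),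
    mul_nonneg (pow_nonneg hr 1) (sq_nonneg (r - 5 / 4)),
    mul_nonneg (pow_nonneg hr 2) (sq_nonneg (r - 5 / 4)),
    mul_nonneg (pow_nonneg hr 3) (sq_nonneg (r - 5 / 4)),
    mul_nonneg (pow_nonneg hr 4) (sq_nonneg (r - 5 / 4)),
    mul_nonneg (pow_nonneg hr 5) (sq_nonneg (r - 5 / 4)),
    mul_nonneg (pow_nonneg hr 0) (sq_nonneg (r - 3 / 2)),
    mul_nonneg (pow_nonneg hr 1) (sq_nonneg (r - 3 / 2)),
    mul_nonneg (pow_nonneg hr 2) (sq_nonneg (r - 3 / 2)),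
    mul_nonneg (pow_nonneg hr 3) (sq_nonneg (r - 3 / 2)),
    mul_nonneg (pow_nonneg hr 4) (sq_nonneg (r - 3 / 2)),
    mul_nonneg (pow_nonneg hr 5) (sq_nonneg (r - 3 / 2)),
    mul_nonneg (pow_nonneg hr 0) (sq_nonneg (r - 7 / 4)),
    mul_nonneg (pow_nonneg hr 1) (sq_nonneg (r - 7 / 4)),
    mul_nonneg (pow_nonneg hr 2) (sq_nonneg (r - 7 / 4)),
    mul_nonneg (pow_nonneg hr 3) (sq_nonneg (r - 7 / 4)),
    mul_nonneg (pow_nonneg hr 4) (sq_nonneg (r - 7 / 4)),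
    mul_nonneg (pow_nonneg hr 5) (sq_nonneg (r - 7 / 4)),
    pow_nonneg hr 1,
    pow_nonneg hr 2,
    pow_nonneg hr 3,
    pow_nonneg hr 4,
    pow_nonneg hr 5,
    pow_nonneg hr 6,
    pow_nonneg hr 7]

theorem low6 {r : ℝ} (hr : 0 ≤ r) :
    0 ≤ (3264 - 2520*r + 770*r^3 - 1158*r^4 + 961*r^5 - 525*r^6 + 158*r^7) := by
  nlinarith [mul_nonneg (pow_nonneg hr 0) (sq_nonneg (r - 5 / 4)),
    mul_nonneg (pow_nonneg hr 1) (sq_nonneg (r - 5 / 4)),
    mul_nonneg (pow_nonneg hr 2) (sq_nonneg (r - 5 / 4)),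
    mul_nonneg (pow_nonneg hr 3) (sq_nonneg (r - 5 / 4)),
    mul_nonneg (pow_nonneg hr 4) (sq_nonneg (r - 5 / 4)),
    mul_nonneg (pow_nonneg hr 5) (sq_nonneg (r - 5 / 4)),
    mul_nonneg (pow_nonneg hr 0) (sq_nonneg (r - 3 / 2)),
    mul_nonneg (pow_nonneg hr 1) (sq_nonneg (r - 3 / 2)),
    mul_nonneg (pow_nonneg hr 2) (sq_nonneg (r - 3 / 2)),
    mul_nonneg (pow_nonneg hr 3) (sq_nonneg (r - 3 / 2)),
    mul_nonneg (pow_nonneg hr 4) (sq_nonneg (r - 3 / 2)),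
    mul_nonneg (pow_nonneg hr 5) (sq_nonneg (r - 3 / 2)),
    mul_nonneg (pow_nonneg hr 0) (sq_nonneg (r - 7 / 4)),
    mul_nonneg (pow_nonneg hr 1) (sq_nonneg (r - 7 / 4)),
    mul_nonneg (pow_nonneg hr 2) (sq_nonneg (r - 7 / 4)),
    mul_nonneg (pow_nonneg hr 3) (sq_nonneg (r - 7 / 4)),
    mul_nonneg (pow_nonneg hr 4) (sq_nonneg (r - 7 / 4)),
    mul_nonneg (pow_nonneg hr 5) (sq_nonneg (r - 7 / 4)),
    pow_nonneg hr 1,
    pow_nonneg hr 2,
    pow_nonneg hr 3,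
    pow_nonneg hr 4,
    pow_nonneg hr 5,
    pow_nonneg hr 6,
    pow_nonneg hr 7]

theorem one_low {r d : ℝ} (hr : 0 ≤ r) (hd : 0 ≤ d) (hd1 : d ≤ 1 / 2) :
    0 ≤ (4672*d + 3360*d^2 + 1440*d^4 - 128*d^6 - 5040*r*d + 700*r^3
      + 280*r^3*d^2 - 706*r^4 - 850*r^4*d - 120*r^4*d^2 + 24*r^4*d^3 + 600*r^5
      + 672*r^5*d + 100*r^5*d^2 - 350*r^6 - 350*r^6*d + 158*r^7) := by
  have hu : 0 ≤ 1 - 2 * d := by linarith
  have hv : 0 ≤ 2 * d := by linarith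
  have h0 : 0 ≤ (700*r^3 - 706*r^4 + 600*r^5 - 350*r^6 + 158*r^7) := low0 hr
  have h1 : 0 ≤ (2336 - 2520*r + 4200*r^3 - 4661*r^4 + 3936*r^5 - 2275*r^6
        + 948*r^7) := low1 hr
  have h2 : 0 ≤ (12520 - 12600*r + 10570*r^3 - 12745*r^4 + 10705*r^5 - 6125*r^6
        + 2370*r^7) := low2 hr
  have h3 : 0 ≤ (26720 - 25200*r + 14280*r^3 - 18487*r^4 + 15460*r^5 - 8750*r^6
        + 3160*r^7) := low3 hr
  have h4 : 0 ≤ (28490 - 25200*r + 10920*r^3 - 15011*r^4 + 12510*r^5 - 7000*r^6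
        + 2370*r^7) := low4 hr
  have h5 : 0 ≤ (15220 - 12600*r + 4480*r^3 - 6472*r^4 + 5380*r^5 - 2975*r^6
        + 948*r^7) := low5 hr
  have h6 : 0 ≤ (3264 - 2520*r + 770*r^3 - 1158*r^4 + 961*r^5 - 525*r^6 + 158*r^7) := low6 hr
  linear_combination (mul_nonneg (mul_nonneg (pow_nonneg hv 0) (pow_nonneg hu 6)) h0 +
    mul_nonneg (mul_nonneg (pow_nonneg hv 1) (pow_nonneg hu 5)) h1 +
    mul_nonneg (mul_nonneg (pow_nonneg hv 2) (pow_nonneg hu 4)) h2 +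
    mul_nonneg (mul_nonneg (pow_nonneg hv 3) (pow_nonneg hu 3)) h3 +
    mul_nonneg (mul_nonneg (pow_nonneg hv 4) (pow_nonneg hu 2)) h4 +
    mul_nonneg (mul_nonneg (pow_nonneg hv 5) (pow_nonneg hu 1)) h5 +
    mul_nonneg (mul_nonneg (pow_nonneg hv 6) (pow_nonneg hu 0)) h6) / 1

theorem high_disc {e : ℝ} (he : 0 ≤ e) (he1 : e ≤ 1 / 2) :
    0 < (5456896 + 21864960*e - 87395728*e^2 + 136176512*e^3
      - 142416896*e^4 + 104743680*e^5 - 54718480*e^6 + 20823104*e^7 - 5631616*e^8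
      + 937728*e^9 - 68644*e^10) := by
  have hu : 0 ≤ 1 - 2 * e := by linarith
  have key : (256 : ℝ) * (5456896 + 21864960*e - 87395728*e^2 + 136176512*e^3
      - 142416896*e^4 + 104743680*e^5 - 54718480*e^6 + 20823104*e^7 - 5631616*e^8
      + 937728*e^9 - 68644*e^10) =
    1396965376 * (2 * e) ^ 0 * (1 - 2 * e) ^ 10 +
    16768368640 * (2 * e) ^ 1 * (1 - 2 * e) ^ 9 +
    82458549248 * (2 * e) ^ 2 * (1 - 2 * e) ^ 8 +
    228000616448 * (2 * e) ^ 3 * (1 - 2 * e) ^ 7 +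
    400066502656 * (2 * e) ^ 4 * (1 - 2 * e) ^ 6 +
    470123603968 * (2 * e) ^ 5 * (1 - 2 * e) ^ 5 +
    376776454080 * (2 * e) ^ 6 * (1 - 2 * e) ^ 4 +
    203991537536 * (2 * e) ^ 7 * (1 - 2 * e) ^ 3 +
    71520151936 * (2 * e) ^ 8 * (1 - 2 * e) ^ 2 +
    14671387392 * (2 * e) ^ 9 * (1 - 2 * e) ^ 1 +
    1336873527 * (2 * e) ^ 10 * (1 - 2 * e) ^ 0 := by ring
  have hpos : (0 : ℝ) < 1396965376 * (2 * e) ^ 0 * (1 - 2 * e) ^ 10 +
    16768368640 * (2 * e) ^ 1 * (1 - 2 * e) ^ 9 +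
    82458549248 * (2 * e) ^ 2 * (1 - 2 * e) ^ 8 +
    228000616448 * (2 * e) ^ 3 * (1 - 2 * e) ^ 7 +
    400066502656 * (2 * e) ^ 4 * (1 - 2 * e) ^ 6 +
    470123603968 * (2 * e) ^ 5 * (1 - 2 * e) ^ 5 +
    376776454080 * (2 * e) ^ 6 * (1 - 2 * e) ^ 4 +
    203991537536 * (2 * e) ^ 7 * (1 - 2 * e) ^ 3 +
    71520151936 * (2 * e) ^ 8 * (1 - 2 * e) ^ 2 +
    14671387392 * (2 * e) ^ 9 * (1 - 2 * e) ^ 1 +
    1336873527 * (2 * e) ^ 10 * (1 - 2 * e) ^ 0 := by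
    rcases hu.eq_or_lt with h | h
    · obtain rfl : e = 1 / 2 := by linarith
      norm_num
    · positivity
  rw [← key] at hpos
  exact pos_of_mul_pos_right hpos (by norm_num)

theorem high_lead {e : ℝ} (he : 0 ≤ e) (he1 : e ≤ 1 / 2) :
    0 < (2336 - 1760*e - 1684*e^2 + 3646*e^3 - 1988*e^4 + 330*e^5) := by
  have hu : 0 ≤ 1 - 2 * e := by linarith
  have key : (16 : ℝ) * (2336 - 1760*e - 1684*e^2 + 3646*e^3 - 1988*e^4 + 330*e^5) =
    37376 * (2 * e) ^ 0 * (1 - 2 * e) ^ 5 +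
    172800 * (2 * e) ^ 1 * (1 - 2 * e) ^ 4 +
    310704 * (2 * e) ^ 2 * (1 - 2 * e) ^ 3 +
    276364 * (2 * e) ^ 3 * (1 - 2 * e) ^ 2 +
    122948 * (2 * e) ^ 4 * (1 - 2 * e) ^ 1 +
    22029 * (2 * e) ^ 5 * (1 - 2 * e) ^ 0 := by ring
  have hpos : (0 : ℝ) < 37376 * (2 * e) ^ 0 * (1 - 2 * e) ^ 5 +
    172800 * (2 * e) ^ 1 * (1 - 2 * e) ^ 4 +
    310704 * (2 * e) ^ 2 * (1 - 2 * e) ^ 3 +
    276364 * (2 * e) ^ 3 * (1 - 2 * e) ^ 2 +
    122948 * (2 * e) ^ 4 * (1 - 2 * e) ^ 1 +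
    22029 * (2 * e) ^ 5 * (1 - 2 * e) ^ 0 := by
    rcases hu.eq_or_lt with h | h
    · obtain rfl : e = 1 / 2 := by linarith
      norm_num
    · positivity
  rw [← key] at hpos
  exact pos_of_mul_pos_right hpos (by norm_num)

theorem one_high {r d : ℝ} (hr : 0 ≤ r) (hd : 1 / 2 ≤ d) (hd1 : d ≤ 1) :
    0 ≤ (4672*d + 3360*d^2 + 1440*d^4 - 128*d^6 - 5040*r*d + 700*r^3
      + 280*r^3*d^2 - 706*r^4 - 850*r^4*d - 120*r^4*d^2 + 24*r^4*d^3 + 600*r^5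
      + 672*r^5*d + 100*r^5*d^2 - 350*r^6 - 350*r^6*d + 158*r^7) := by
  have hd0 : 0 ≤ d := by linarith
  have h0 : (0 : ℝ) ≤ (478 + 64*d + 812*d^2 - 16*d^3 - 262*d^4) := by
    nlinarith [pow_le_one₀ (n := 2) hd0 hd1, pow_le_one₀ (n := 3) hd0 hd1,
      pow_le_one₀ (n := 4) hd0 hd1, mul_nonneg (sq_nonneg d) (sub_nonneg.2 hd1)]
  have h1 : (0 : ℝ) ≤ (76 + 440*d + 170*d^2 - 194*d^3) := by
    nlinarith [pow_le_one₀ (n := 3) hd0 hd1]
  have h2 : (0 : ℝ) ≤ r ^ 2 * ((374 + 220*d - 126*d^2) + r * (-34 - 34*d) + 158 * r ^ 2) :=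
    mul_nonneg (sq_nonneg r) (by nlinarith [sq_nonneg (r - 1 / 4), mul_nonneg hr (sub_nonneg.2 hd1)])
  have hR : 0 ≤ r * (478 + 64*d + 812*d^2 - 16*d^3 - 262*d^4 + 76*r + 440*r*d
      + 170*r*d^2 - 194*r*d^3 + 374*r^2 + 220*r^2*d - 126*r^2*d^2 - 34*r^3 - 34*r^3*d
      + 158*r^4) := by
    refine mul_nonneg hr ?_
    linear_combination h0 + mul_nonneg hr h1 + h2
  obtain ⟨e, he, he1, rfl⟩ : ∃ e : ℝ, 0 ≤ e ∧ e ≤ 1 / 2 ∧ d = 1 - e :=
    ⟨1 - d, by linarith, by linarith, by ring⟩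
  have hS := high_disc he he1
  have hL := high_lead he he1
  set R := (2336 - 1760*e - 1684*e^2 + 3646*e^3 - 1988*e^4 + 330*e^5) with hRdef
  set P := (-3428*e^2 + 11056*e^3 - 9132*e^4 + 3184*e^5 - 398*e^6) with hPdef
  set Q := (584*e^2 + 2780*e^3 - 5580*e^4 + 3350*e^5 - 800*e^6 + 68*e^7) with hQdef
  have h1 : 0 ≤ (r - 1 - (1 - e)) ^ 2 * R + (r - 1 - (1 - e)) * P + Q := by
    refine nonneg_of_mul_nonneg_right ?_ hL
    have t := mul_nonneg (sq_nonneg e) hS.le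
    simp only [hRdef, hPdef, hQdef]
    linear_combination sq_nonneg ((r - 1 - (1 - e)) * R + P / 2) + t / 4
  have h2 := mul_nonneg hR (sq_nonneg (r - 1 - (1 - e)))
  simp only [hRdef, hPdef, hQdef] at h1
  linear_combination h1 + h2

theorem Phi_one {r d : ℝ} (hr : 0 ≤ r) (hd : 0 ≤ d) (hd1 : d ≤ 1) : 0 ≤ Phi r (1 + d) d := by
  have e : Phi r (1 + d) d = (4672*d + 3360*d^2 + 1440*d^4 - 128*d^6 - 5040*r*d + 700*r^3
      + 280*r^3*d^2 - 706*r^4 - 850*r^4*d - 120*r^4*d^2 + 24*r^4*d^3 + 600*r^5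
      + 672*r^5*d + 100*r^5*d^2 - 350*r^6 - 350*r^6*d + 158*r^7) := by
    unfold Phi ker; ring
  rw [e]
  rcases le_total d (1 / 2) with h | h
  · exact one_low hr hd h
  · exact one_high hr h hd1

theorem Phi_nonneg {r c d : ℝ} (hr : 0 ≤ r) (hc : 0 ≤ c) (hc1 : c ≤ 1) (hd : 0 ≤ d) (hd1 : d ≤ 1) :
    0 ≤ Phi r (c + d) (c * d) := by
  have hs : 0 ≤ c + d := by linarith
  have hq : c * d ≤ (c + d) / 2 * ((c + d) / 2) := by nlinarith [sq_nonneg (c - d)]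
  have top : 0 ≤ Phi r (c + d) ((c + d) / 2 * ((c + d) / 2)) := by
    have := Phi_diag hr (show 0 ≤ (c + d) / 2 by linarith) (show (c + d) / 2 ≤ 1 by linarith)
    rwa [show 2 * ((c + d) / 2) = c + d by ring] at this
  rcases le_total (c + d) 1 with h | h
  · refine Phi_concave hs (by linarith) (mul_nonneg hc hd) hq (le_of_eq (by ring)) le_rfl ?_ top
    have h1 : 0 ≤ ker (24 * (c + d)) r (c + d) 0 := by
      have h1 := ker_nonneg (w := c + d) (v := 0) hr (abs_le.2 ⟨by linarith, h⟩) (by norm_num)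
      have h2 : 0 ≤ 2 - (c + d) ^ 2 := by nlinarith
      have h3 := mul_nonneg (mul_nonneg (show 0 ≤ 2 - (c + d) by linarith) hr) h2
      rw [add_zero, mul_zero] at h1
      unfold ker at h1 ⊢
      linarith
    have := mul_nonneg (pow_nonneg hr 3) h1
    unfold Phi
    linarith
  · refine Phi_concave hs (by linarith) ?_ hq (le_of_eq (by ring)) (show 0 ≤ c + d - 1 by linarith)
      ?_ top
    · nlinarith [mul_nonneg (sub_nonneg.2 hc1) (sub_nonneg.2 hd1)]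
    · have := Phi_one hr (show 0 ≤ c + d - 1 by linarith) (by linarith)
      rwa [show 1 + (c + d - 1) = c + d by ring] at this

/-- The chord inequality. -/
theorem chord {r c d : ℝ} (hr : 0 < r) (hc : 0 < c) (hc1 : c ≤ 1) (hd : 0 < d) (hd1 : d ≤ 1) :
    r ≤ 79 / 2520 * r ^ 7 * (kerMin 7 (ofRadial a a' b b') r c d +
        kerMin 7 (ofRadial a a' b b') r d c) / (2 * (c * d)) + g c + g d := by
  have e : 79 / 2520 * r ^ 7 * (kerMin 7 (ofRadial a a' b b') r c d +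
        kerMin 7 (ofRadial a a' b b') r d c) / (2 * (c * d)) + g c + g d - r =
      Phi r (c + d) (c * d) / (5040 * (c * d)) := by
    rw [kerMin_sum hr, abs_of_pos hc, abs_of_pos hd]
    unfold Phi ker g
    field_simp
    ring
  have := div_nonneg (Phi_nonneg hr.le hc.le hc1 hd.le hd1)
    (show 0 ≤ 5040 * (c * d) by positivity)
  linarith

theorem g_nonneg {t : ℝ} (ht : t ∈ Icc (0 : ℝ) 1) : 0 ≤ g t := by
  have h2 : t ^ 2 ≤ 1 := pow_le_one₀ ht.1 ht.2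
  have := mul_nonneg (pow_nonneg ht.1 3) (sub_nonneg.2 h2)
  unfold g
  linarith [pow_nonneg ht.1 3, ht.1]

theorem g_mono : MonotoneOn g (Icc 0 1) := by
  intro x hx y hy hxy
  have p3 := pow_le_pow_left₀ hx.1 hxy 3
  have key : y ^ 5 - x ^ 5 ≤ 5 * (y - x) := by
    have h1 : y ^ 4 + y ^ 3 * x + y ^ 2 * x ^ 2 + y * x ^ 3 + x ^ 4 ≤ 5 := by
      have := pow_le_one₀ (n := 4) hy.1 hy.2
      have := pow_le_one₀ (n := 4) hx.1 hx.2
      have := mul_le_one₀ (pow_le_one₀ (n := 3) hy.1 hy.2) hx.1 hx.2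
      have := mul_le_one₀ (pow_le_one₀ (n := 2) hy.1 hy.2) (sq_nonneg x)
        (pow_le_one₀ (n := 2) hx.1 hx.2)
      have := mul_le_one₀ hy.2 (pow_nonneg hx.1 3) (pow_le_one₀ (n := 3) hx.1 hx.2)
      linarith
    linear_combination mul_le_mul_of_nonneg_left h1 (sub_nonneg.2 hxy)
  unfold g
  linarith

theorem g_cont : ContinuousOn g (Icc 0 1) := by
  unfold g; fun_prop

theorem g_integral :
    ∫ t in (0 : ℝ)..1, g t * t * Real.sqrt (1 - t ^ 2) ^ 5 = 59 * π / 4032 := by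
  rw [intervalIntegral.integral_eq_sub_of_hasDerivAt_of_le zero_le_one (f := fun x : ℝ =>
    ((-59 / 2016 : ℝ) * x ^ 1 +
      (613 / 3024 : ℝ) * x ^ 3 +
      (-683 / 3780 : ℝ) * x ^ 5 +
      (1 / 210 : ℝ) * x ^ 7 +
      (32 / 945 : ℝ) * x ^ 9 +
      (-2 / 945 : ℝ) * x ^ 11) * Real.sqrt (1 - x ^ 2) +
      59 / 2016 * Real.arcsin x)]
  · simp only [Real.arcsin_one, Real.arcsin_zero]
    norm_num
    ring
  · fun_prop
  · intro x hx
    have hx1 : 0 < 1 - x ^ 2 := by nlinarith [hx.1, hx.2]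
    have hp : HasDerivAt (fun x : ℝ =>
        (-59 / 2016 : ℝ) * x ^ 1 +
      (613 / 3024 : ℝ) * x ^ 3 +
      (-683 / 3780 : ℝ) * x ^ 5 +
      (1 / 210 : ℝ) * x ^ 7 +
      (32 / 945 : ℝ) * x ^ 9 +
      (-2 / 945 : ℝ) * x ^ 11)
        ((-59 / 2016 : ℝ) * (1 * x ^ 0) +
        (613 / 3024 : ℝ) * (3 * x ^ 2) +
        (-683 / 3780 : ℝ) * (5 * x ^ 4) +
        (1 / 210 : ℝ) * (7 * x ^ 6) +
        (32 / 945 : ℝ) * (9 * x ^ 8) +
        (-2 / 945 : ℝ) * (11 * x ^ 10)) x :=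
      (((((((hasDerivAt_pow 1 x).const_mul (-59 / 2016 : ℝ)).add
        ((hasDerivAt_pow 3 x).const_mul (613 / 3024 : ℝ))).add
        ((hasDerivAt_pow 5 x).const_mul (-683 / 3780 : ℝ))).add
        ((hasDerivAt_pow 7 x).const_mul (1 / 210 : ℝ))).add
        ((hasDerivAt_pow 9 x).const_mul (32 / 945 : ℝ))).add
        ((hasDerivAt_pow 11 x).const_mul (-2 / 945 : ℝ))).congr_deriv (by push_cast; ring)
    have hsq : HasDerivAt (fun x : ℝ => Real.sqrt (1 - x ^ 2))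
        (-(2 * x) / (2 * Real.sqrt (1 - x ^ 2))) x :=
      (((hasDerivAt_pow 2 x).const_sub 1).sqrt hx1.ne').congr_deriv (by norm_num)
    have hasn := (Real.hasDerivAt_arcsin (x := x) (by linarith [hx.1]) (by linarith [hx.2])).const_mul
      (59 / 2016 : ℝ)
    refine ((hp.mul hsq).add hasn).congr_deriv ?_
    have hz : 0 < Real.sqrt (1 - x ^ 2) := Real.sqrt_pos.2 hx1
    have h5 : Real.sqrt (1 - x ^ 2) ^ 5 = (1 - x ^ 2) ^ 2 * Real.sqrt (1 - x ^ 2) := by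
      rw [show (5 : ℕ) = 2 * 2 + 1 from rfl, pow_succ, pow_mul, Real.sq_sqrt hx1.le]
    rw [h5]
    unfold g
    field_simp
    rw [Real.sq_sqrt hx1.le]
    ring
  · exact (Continuous.intervalIntegrable (by unfold g; fun_prop) _ _)

theorem omega_eight : omega 8 = π ^ 4 / 24 := by
  rw [omega_eq, show ((8 : ℕ) : ℝ) / 2 + 1 = ((4 : ℕ) : ℝ) + 1 by norm_num,
    Real.Gamma_nat_eq_factorial, show √π ^ 8 = (√π ^ 2) ^ 4 by ring, Real.sq_sqrt Real.pi_pos.le]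
  norm_num [Nat.factorial]

/-- The half-sphere moment of the boundary weight in eight dimensions. -/
def G8 : ℝ := 7 * omega 7 * (59 * π / 4032)

theorem G8_nonneg : 0 ≤ G8 := by
  have := omega_nonneg 7
  unfold G8
  positivity

theorem balance8 : 79 / 2520 * (((8 : ℕ) : ℝ) * omega 8) + 2 * G8 = omega 8 := by
  unfold G8
  rw [omega_seven, omega_eight]
  push_cast
  ring

theorem moment8 (e : Space 8) (he : ‖e‖ = 1) :
    ∫⁻ v, ENNReal.ofReal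
      (if 0 < inner ℝ (v : Space 8) e then g (inner ℝ (v : Space 8) e) * inner ℝ (v : Space 8) e
        else 0) ∂Six.dirs 8 ≤ ENNReal.ofReal G8 := by
  have h := half_sphere (n := 8) (by norm_num) (h := fun t => g t * t) (g_cont.mul continuousOn_id)
    (fun t ht => mul_nonneg (g_nonneg ht) ht.1) e he
  rw [g_integral, show ((8 : ℕ) : ℝ) - 1 = 7 by norm_num] at h
  exact h

end Eight

/-- The profile in eight dimensions. -/
def P8 : Profile := ofRadial Eight.a Eight.a' Eight.b Eight.b'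

/-- All the data needed in eight dimensions. -/
theorem cert8 : Cert 8 P8 (79 / 2520) Eight.G8 Eight.g where
  smoothA := contDiffOn_radial (a := Eight.a) fun r hr => by
    unfold Eight.a
    fun_prop (disch := positivity)
  smoothB := contDiffOn_radial (a := Eight.b) fun r hr => by
    unfold Eight.b
    fun_prop (disch := positivity)
  derivA := fun _ hq => hasDerivAt_radial (fun _ hr => Eight.hasDerivAt_a hr) hq
  derivB := fun _ hq => hasDerivAt_radial (fun _ hr => Eight.hasDerivAt_b hr) hq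
  B_nonneg := fun _ hq => Eight.b_nonneg (Real.sqrt_pos.2 hq)
  eta_nonneg := fun _ hq => Eight.eta (Real.sqrt_pos.2 hq)
  decreasing := fun _ hq => decreasing_radial (fun _ hr => Eight.decrease hr) hq
  ker_nonneg := fun s w v hs hw hv => by
    rw [show ((8 : ℕ) : ℝ) - 1 = 7 by norm_num]
    exact Eight.sym_nonneg hs hw hv
  chord := fun s c d hs hc hc1 hd hd1 => by
    rw [show ((8 : ℕ) : ℝ) - 1 = 7 by norm_num]
    exact Eight.chord hs hc hc1 hd hd1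
  alpha_pos := by norm_num
  g_cont := Eight.g_cont
  g_nonneg := fun _ ht => Eight.g_nonneg ht
  g_mono := Eight.g_mono
  G_nonneg := Eight.G8_nonneg
  moment := Eight.moment8
  balance := Eight.balance8

end

end Vale.Agent.P219.Aff
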