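import Vale.Agent.P219.Aff.Nine.Chord
import Vale.Agent.P219.Aff.Radial
import Vale.Agent.P219.Aff.Cert8

/-!
# The certificate in dimension nine

The kernel, the profile and the weight are rational; every positivity needed is reduced to checked
nonnegativity of integer coefficient lists on boxes.
-/

open MeasureTheory Set Real
open scoped ENNReal ContDiff RealInnerProductSpace

namespace Vale.Agent.P219.Aff

open Vale.Agent.P219 Vale.Agent.P219.Univ

noncomputable section

namespace Nine

/-- The numerator of `a`. -/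
def numA (r : ℝ) : ℝ :=
  ((60/7) + (90/7)*r + (372/35)*r^2 + 27*r^3 + (81/14)*r^4
      + (4189/5600)*r^5 + (61681/78400)*r^6)

/-- The numerator of the derivative of `a`. -/
def numA' (r : ℝ) : ℝ :=
  (-(600/7) - (1200/7)*r - (5382/35)*r^2 - (6012/35)*r^3
      - (1026/7)*r^4 - (162/7)*r^5 - (1643/2450)*r^6 - (61681/39200)*r^7)

/-- The numerator of `b`. -/
def numB (r : ℝ) : ℝ :=
  ((8244/175) + (711/175)*r - (723/245)*r^2 + (851/784)*r^3)

/-- The numerator of the derivative of `b`. -/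
def numB' (r : ℝ) : ℝ :=
  (-(65952/175) - (61974/175)*r - (15402/1225)*r^2 + (4933/392)*r^3
      - (851/196)*r^4)

/-- The numerator of the boundary weight. -/
def numG (t : ℝ) : ℝ :=
  ((2/3)*t + 2*t^2 + (32/15)*t^3 + (1316/375)*t^4 + (1274/1125)*t^5
      - (34892/7875)*t^6 + (1751/5250)*t^7 + (62428/23625)*t^8 - (3269/6750)*t^9)

/-- The radial factor of the profile. -/
def a (r : ℝ) : ℝ := numA r / (r ^ 5 * (2 + r) ^ 3)

/-- The derivative of `a`. -/
def a' (r : ℝ) : ℝ := numA' r / (r ^ 6 * (2 + r) ^ 4)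

/-- The coefficient of the far cosine. -/
def b (r : ℝ) : ℝ := numB r / (r ^ 4 * (2 + r) ^ 3)

/-- The derivative of `b`. -/
def b' (r : ℝ) : ℝ := numB' r / (r ^ 5 * (2 + r) ^ 4)

/-- The boundary weight. -/
def g (t : ℝ) : ℝ := numG t / (1 + t) ^ 3

/-- The test on four intervals covering `[0, ∞)`. -/
def okR (l : List ℤ) : Bool :=
  (ok okZ (seg 0 1 1) l && ok okZ (seg 2 3 2) l) && (ok okZ (seg 3 4 2) l && ok okZ (tail 2) l)

theorem okR_nonneg {l : List ℤ} (h : okR l = true) {t : ℝ} (ht : 0 ≤ t) (e : List ℝ) :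
    0 ≤ Coef.val l (t :: e) := by
  simp only [okR, Bool.and_eq_true] at h
  obtain ⟨⟨h1, h2⟩, h3, h4⟩ := h
  have hz : ∀ y, okZ y = true → 0 ≤ Coef.val y e := fun y hy => okZ_nonneg hy e
  rcases le_total t 1 with g1 | g1
  · exact ok_seg h1 (by norm_num) one_pos hz (by simpa using ht) (by simpa using g1)
  · rcases le_total t (3 / 2) with g2 | g2
    · exact ok_seg h2 (by norm_num) two_pos hz (by norm_num; linarith) (by norm_num; linarith)
    · rcases le_total t 2 with g3 | g3
      · exact ok_seg h3 (by norm_num) two_pos hz (by norm_num; linarith) (by norm_num; linarith)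
      · exact ok_tail h4 hz (by simpa using g3)

/-- The test on `[-1, 1]` in the outer variable. -/
def okV (l : List (List ℤ)) : Bool :=
  ok okR (seg (-1) 0 1) l && (ok okR (seg 0 1 2) l && ok okR (seg 1 2 2) l)

theorem okV_nonneg {l : List (List ℤ)} (h : okV l = true) {v r : ℝ} (hv : -1 ≤ v) (hv' : v ≤ 1)
    (hr : 0 ≤ r) : 0 ≤ Coef.val l [v, r] := by
  simp only [okV, Bool.and_eq_true] at h
  obtain ⟨h1, h2, h3⟩ := h
  have hz : ∀ y, okR y = true → 0 ≤ Coef.val y [r] := fun y hy => okR_nonneg hy hr []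
  rcases le_total v 0 with g1 | g1
  · exact ok_seg h1 (by norm_num) one_pos hz (by norm_num; linarith) (by norm_num; linarith)
  · rcases le_total v (1 / 2) with g2 | g2
    · exact ok_seg h2 (by norm_num) two_pos hz (by norm_num; linarith) (by norm_num; linarith)
    · exact ok_seg h3 (by norm_num) two_pos hz (by norm_num; linarith) (by norm_num; linarith)

theorem decOne_nonneg {r : ℝ} (hr : 0 ≤ r) : 0 ≤ -(numA' r) - r * (r * numB' r) := by
  have h := okR_nonneg (l := [3360000, 6720000, 20801088, 20615616, 6238464, 413900, 196488, 61681])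
    (by decide +kernel) hr []
  have e : Coef.val ([3360000, 6720000, 20801088, 20615616, 6238464, 413900, 196488, 61681] : List ℤ) [r] = 39200 * (-(numA' r) - r * (r * numB' r)) := by
    simp only [ev, Coef.val, List.headD_cons, List.tail_cons, numA, numA', numB, numB']
    push_cast
    ring
  rw [e] at h
  exact nonneg_of_mul_nonneg_right h (by norm_num)

theorem decTwo_nonneg {r : ℝ} (hr : 0 ≤ r) : 0 ≤ -(numA' r) + r * (r * numB' r) := by
  have h := okR_nonneg (l := [3360000, 6720000, -8745408, -7148736, 5252736, 1400500, -143912, 61681])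
    (by decide +kernel) hr []
  have e : Coef.val ([3360000, 6720000, -8745408, -7148736, 5252736, 1400500, -143912, 61681] : List ℤ) [r] = 39200 * (-(numA' r) + r * (r * numB' r)) := by
    simp only [ev, Coef.val, List.headD_cons, List.tail_cons, numA, numA', numB, numB']
    push_cast
    ring
  rw [e] at h
  exact nonneg_of_mul_nonneg_right h (by norm_num)

theorem etaN_nonneg {r : ℝ} (hr : 0 ≤ r) : 0 ≤ numA r - r * r * numB r := by
  have h := okR_nonneg (l := [672000, 1008000, -2860032, 1798272, 684960, -26454, 61681])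
    (by decide +kernel) hr []
  have e : Coef.val ([672000, 1008000, -2860032, 1798272, 684960, -26454, 61681] : List ℤ) [r] = 78400 * (numA r - r * r * numB r) := by
    simp only [ev, Coef.val, List.headD_cons, List.tail_cons, numA, numA', numB, numB']
    push_cast
    ring
  rw [e] at h
  exact nonneg_of_mul_nonneg_right h (by norm_num)

theorem bN_nonneg {r : ℝ} (hr : 0 ≤ r) : 0 ≤ numB r := by
  have h := okR_nonneg (l := [923328, 79632, -57840, 21275])
    (by decide +kernel) hr []
  have e : Coef.val ([923328, 79632, -57840, 21275] : List ℤ) [r] = 19600 * (numB r) := by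
    simp only [ev, Coef.val, List.headD_cons, List.tail_cons, numA, numA', numB, numB']
    push_cast
    ring
  rw [e] at h
  exact nonneg_of_mul_nonneg_right h (by norm_num)

theorem gDer_nonneg {t : ℝ} (h0 : 0 ≤ t) (h1 : t ≤ 1) : 0 ≤ ((2/3) + (8/3)*t + (22/5)*t^2 + (5264/375)*t^3 + (10318/1125)*t^4
      - (191516/7875)*t^5 - (57527/5250)*t^6 + (530942/23625)*t^7 + (418333/47250)*t^8
      - (3269/1125)*t^9) := by
  have h := ok_seg (chk := okZ) (a := 0) (b := 1) (c := 1) (l := [31500, 126000, 207900, 663264, 433356, -1149096, -517743, 1061884, 418333, -137298])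
    (by decide +kernel) (by norm_num) one_pos (e := []) (fun y hy => okZ_nonneg hy [])
    (t := t) (by simpa using h0) (by simpa using h1)
  have e : Coef.val ([31500, 126000, 207900, 663264, 433356, -1149096, -517743, 1061884, 418333, -137298] : List ℤ) [t] = 47250 * (((2/3) + (8/3)*t + (22/5)*t^2 + (5264/375)*t^3 + (10318/1125)*t^4
      - (191516/7875)*t^5 - (57527/5250)*t^6 + (530942/23625)*t^7 + (418333/47250)*t^8
      - (3269/1125)*t^9)) := by
    simp only [ev, Coef.val, List.headD_cons, List.tail_cons, numG]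
    push_cast
    ring
  rw [e] at h
  exact nonneg_of_mul_nonneg_right h (by norm_num)

theorem numG_nonneg {t : ℝ} (h0 : 0 ≤ t) (h1 : t ≤ 1) : 0 ≤ numG t := by
  have h := ok_seg (chk := okZ) (a := 0) (b := 1) (c := 1) (l := [0, 31500, 94500, 100800, 165816, 53508, -209352, 15759, 124856, -22883])
    (by decide +kernel) (by norm_num) one_pos (e := []) (fun y hy => okZ_nonneg hy [])
    (t := t) (by simpa using h0) (by simpa using h1)
  have e : Coef.val ([0, 31500, 94500, 100800, 165816, 53508, -209352, 15759, 124856, -22883] : List ℤ) [t] = 47250 * (numG t) := by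
    simp only [ev, Coef.val, List.headD_cons, List.tail_cons, numG]
    push_cast
    ring
  rw [e] at h
  exact nonneg_of_mul_nonneg_right h (by norm_num)

/-- A boundary case of the symmetrised kernel. -/
def diagCoeffs : List (List ℤ) :=
  [[2016000, 4032000, 977088, 11368896, 6422496, 2034148, 1913594, 1125843, 313600, 39200],
    [0, -5376000, -29218560, -16302720, -19125792, -12314080, -2496318, -728032, -246724],
    [3360000, 6720000, 9721152, 38445120, 22994976, 299852, -175802, 402081],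
    [0, 0, -11079936, -11716992, -564960, 462720, -127650]]

theorem diag_nonneg {r v : ℝ} (hr : 0 ≤ r) (hv : -1 ≤ v) (hv' : v ≤ 1) :
    0 ≤ kerC 1 r (2 * v) (v * v) := by
  have h := okV_nonneg (l := diagCoeffs) (by decide +kernel) hv hv' hr
  have e : Coef.val diagCoeffs [v, r] = 19600 * kerC 1 r (2 * v) (v * v) := by
    simp only [diagCoeffs, ev, Coef.val, List.headD_cons, List.tail_cons, kerC]
    push_cast
    ring
  rw [e] at h
  exact nonneg_of_mul_nonneg_right h (by norm_num)

/-- A boundary case of the symmetrised kernel. -/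
def edgeCoeffs : List (List ℤ) :=
  [[7392000, 9408000, -17543232, 15333696, -607296, -7369164, 1399708, 1585335, 380476, 78400],
    [0, -5376000, -40298496, 31073280, 14952192, -13004896, -3113248, -47232, -246724],
    [3360000, 6720000, -1358784, -2818368, 5108544, 1339340, -58812, 61681]]

theorem edge_nonneg {r v : ℝ} (hr : 0 ≤ r) (hv : -1 ≤ v) (hv' : v ≤ 1) :
    0 ≤ kerC 1 r (1 + v) v := by
  have h := okV_nonneg (l := edgeCoeffs) (by decide +kernel) hv hv' hr
  have e : Coef.val edgeCoeffs [v, r] = 39200 * kerC 1 r (1 + v) v := by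
    simp only [edgeCoeffs, ev, Coef.val, List.headD_cons, List.tail_cons, kerC]
    push_cast
    ring
  rw [e] at h
  exact nonneg_of_mul_nonneg_right h (by norm_num)

/-- A boundary case of the symmetrised kernel. -/
def edgeNegCoeffs : List (List ℤ) :=
  [[7392000, 20160000, 40893888, 47939136, 37644288, 17258996, 6392344, 3041399, 873924, 78400],
    [0, -5376000, -40298496, -87112704, -54333696, -10697824, -2134688, -1408832, -246724],
    [3360000, 6720000, 20801088, 20615616, 6238464, 413900, 196488, 61681]]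

theorem edgeNeg_nonneg {r v : ℝ} (hr : 0 ≤ r) (hv : -1 ≤ v) (hv' : v ≤ 1) :
    0 ≤ kerC 1 r (-1 + v) (-v) := by
  have h := okV_nonneg (l := edgeNegCoeffs) (by decide +kernel) hv hv' hr
  have e : Coef.val edgeNegCoeffs [v, r] = 39200 * kerC 1 r (-1 + v) (-v) := by
    simp only [edgeNegCoeffs, ev, Coef.val, List.headD_cons, List.tail_cons, kerC]
    push_cast
    ring
  rw [e] at h
  exact nonneg_of_mul_nonneg_right h (by norm_num)

theorem hasDerivAt_numA (r : ℝ) : HasDerivAt numA ((90/7) + (744/35)*r + 81*r^2 + (162/7)*r^3 + (4189/1120)*r^4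
      + (185043/39200)*r^5) r := by
  have e : numA = fun x =>
        (60 / 7 : ℝ) +
        (90 / 7 : ℝ) * x ^ 1 +
        (372 / 35 : ℝ) * x ^ 2 +
        (27 / 1 : ℝ) * x ^ 3 +
        (81 / 14 : ℝ) * x ^ 4 +
        (4189 / 5600 : ℝ) * x ^ 5 +
        (61681 / 78400 : ℝ) * x ^ 6 := by
    funext x; unfold numA; ring
  rw [e]
  exact (((((((hasDerivAt_const r (60 / 7 : ℝ)).add
        ((hasDerivAt_pow 1 r).const_mul (90 / 7 : ℝ))).add
        ((hasDerivAt_pow 2 r).const_mul (372 / 35 : ℝ))).add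
        ((hasDerivAt_pow 3 r).const_mul (27 / 1 : ℝ))).add
        ((hasDerivAt_pow 4 r).const_mul (81 / 14 : ℝ))).add
        ((hasDerivAt_pow 5 r).const_mul (4189 / 5600 : ℝ))).add
        ((hasDerivAt_pow 6 r).const_mul (61681 / 78400 : ℝ))).congr_deriv (by push_cast; ring)

theorem hasDerivAt_numB (r : ℝ) : HasDerivAt numB ((711/175) - (1446/245)*r + (2553/784)*r^2) r := by
  have e : numB = fun x =>
        (8244 / 175 : ℝ) +
        (711 / 175 : ℝ) * x ^ 1 +
        (-723 / 245 : ℝ) * x ^ 2 +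
        (851 / 784 : ℝ) * x ^ 3 := by
    funext x; unfold numB; ring
  rw [e]
  exact ((((hasDerivAt_const r (8244 / 175 : ℝ)).add
        ((hasDerivAt_pow 1 r).const_mul (711 / 175 : ℝ))).add
        ((hasDerivAt_pow 2 r).const_mul (-723 / 245 : ℝ))).add
        ((hasDerivAt_pow 3 r).const_mul (851 / 784 : ℝ))).congr_deriv (by push_cast; ring)

theorem hasDerivAt_numG (r : ℝ) : HasDerivAt numG ((2/3) + 4*r + (32/5)*r^2 + (5264/375)*r^3 + (1274/225)*r^4
      - (69784/2625)*r^5 + (1751/750)*r^6 + (499424/23625)*r^7 - (3269/750)*r^8) r := by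
  have e : numG = fun x =>
        (2 / 3 : ℝ) * x ^ 1 +
        (2 / 1 : ℝ) * x ^ 2 +
        (32 / 15 : ℝ) * x ^ 3 +
        (1316 / 375 : ℝ) * x ^ 4 +
        (1274 / 1125 : ℝ) * x ^ 5 +
        (-34892 / 7875 : ℝ) * x ^ 6 +
        (1751 / 5250 : ℝ) * x ^ 7 +
        (62428 / 23625 : ℝ) * x ^ 8 +
        (-3269 / 6750 : ℝ) * x ^ 9 := by
    funext x; unfold numG; ring
  rw [e]
  exact ((((((((((hasDerivAt_pow 1 r).const_mul (2 / 3 : ℝ)).add
        ((hasDerivAt_pow 2 r).const_mul (2 / 1 : ℝ))).add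
        ((hasDerivAt_pow 3 r).const_mul (32 / 15 : ℝ))).add
        ((hasDerivAt_pow 4 r).const_mul (1316 / 375 : ℝ))).add
        ((hasDerivAt_pow 5 r).const_mul (1274 / 1125 : ℝ))).add
        ((hasDerivAt_pow 6 r).const_mul (-34892 / 7875 : ℝ))).add
        ((hasDerivAt_pow 7 r).const_mul (1751 / 5250 : ℝ))).add
        ((hasDerivAt_pow 8 r).const_mul (62428 / 23625 : ℝ))).add
        ((hasDerivAt_pow 9 r).const_mul (-3269 / 6750 : ℝ))).congr_deriv (by push_cast; ring)

theorem hasDerivAt_a {r : ℝ} (hr : 0 < r) : HasDerivAt a (a' r) r := by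
  have hd : HasDerivAt (fun x : ℝ => x ^ 5 * (2 + x) ^ 3)
      (5 * r ^ 4 * (2 + r) ^ 3 + r ^ 5 * (3 * (2 + r) ^ 2)) r :=
    ((hasDerivAt_pow 5 r).mul (((hasDerivAt_id r).const_add 2).pow 3)).congr_deriv (by norm_num)
  refine ((hasDerivAt_numA r).div hd (by positivity)).congr_deriv ?_
  have : (0 : ℝ) < 2 + r := by linarith
  unfold a' numA' numA
  field_simp
  ring

theorem hasDerivAt_b {r : ℝ} (hr : 0 < r) : HasDerivAt b (b' r) r := by
  have hd : HasDerivAt (fun x : ℝ => x ^ 4 * (2 + x) ^ 3)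
      (4 * r ^ 3 * (2 + r) ^ 3 + r ^ 4 * (3 * (2 + r) ^ 2)) r :=
    ((hasDerivAt_pow 4 r).mul (((hasDerivAt_id r).const_add 2).pow 3)).congr_deriv (by norm_num)
  refine ((hasDerivAt_numB r).div hd (by positivity)).congr_deriv ?_
  have : (0 : ℝ) < 2 + r := by linarith
  unfold b' numB' numB
  field_simp
  ring

theorem b_nonneg {r : ℝ} (hr : 0 < r) : 0 ≤ b r :=
  div_nonneg (bN_nonneg hr.le) (by positivity)

theorem eta {r : ℝ} (hr : 0 < r) : r * b r ≤ a r := by
  have h1 : (0 : ℝ) < 2 + r := by linarith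
  have e : a r - r * b r = (numA r - r * r * numB r) / (r ^ 5 * (2 + r) ^ 3) := by
    unfold a b
    field_simp
  have : 0 ≤ a r - r * b r := e ▸ div_nonneg (etaN_nonneg hr.le) (by positivity)
  linarith

theorem decrease {r : ℝ} (hr : 0 < r) : a' r + r * |b' r| ≤ 0 := by
  have h1 : (0 : ℝ) < 2 + r := by linarith
  have e : ∀ σ : ℝ, a' r + r * (σ * b' r) =
      -(-(numA' r) - σ * (r * (r * numB' r))) / (r ^ 6 * (2 + r) ^ 4) := fun σ => by
    unfold a' b'
    field_simp
    ring
  rcases abs_choice (b' r) with h | h <;> rw [h]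
  · rw [← one_mul (b' r), e, neg_div]
    exact neg_nonpos.2 (div_nonneg (by linarith [decOne_nonneg hr.le]) (by positivity))
  · rw [← neg_one_mul (b' r), e, neg_div]
    exact neg_nonpos.2 (div_nonneg (by linarith [decTwo_nonneg hr.le]) (by positivity))

theorem kerMin_sum {r : ℝ} (hr : 0 < r) (w v : ℝ) :
    kerMin 8 (ofRadial a a' b b') r w v + kerMin 8 (ofRadial a a' b b') r v w =
      kerC ((|w| + |v|) / 2) r (w + v) (w * v) / (r ^ 5 * (2 + r) ^ 4) := by
  have h1 : (0 : ℝ) < 2 + r := by linarith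
  rw [kerMin_radial hr, kerMin_radial hr, worst, worst]
  unfold a a' b b' kerC numA numA' numB numB'
  field_simp
  ring

theorem kerC_mono {r w v cf : ℝ} (hr : 0 ≤ r) (hw : w ^ 2 ≤ 1) (hv : v ^ 2 ≤ 1) (hcf : cf ≤ 1) :
    kerC 1 r (w + v) (w * v) ≤ kerC cf r (w + v) (w * v) := by
  have h1 := mul_nonneg (mul_nonneg (mul_nonneg (sub_nonneg.2 hcf) (sq_nonneg r))
    (mul_nonneg (bN_nonneg hr) (show 0 ≤ 2 + r by linarith)))
    (show 0 ≤ 2 - w ^ 2 - v ^ 2 by linarith)
  unfold kerC
  unfold numB at h1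
  linear_combination h1

/-- The bounded symmetrised kernel is nonnegative. -/
theorem kerC_nonneg {r w v : ℝ} (hr : 0 ≤ r) (hw : |w| ≤ 1) (hv : |v| ≤ 1) :
    0 ≤ kerC 1 r (w + v) (w * v) := by
  obtain ⟨w1, w2⟩ := abs_le.1 hw
  obtain ⟨v1, v2⟩ := abs_le.1 hv
  set S := w + v with hS
  set p := w * v with hp
  set k := kerC 1 r S 1 - kerC 1 r S 0 with hk
  have aff : ∀ p', kerC 1 r S p = kerC 1 r S p' + (p - p') * k := fun p' => by
    rw [hk]; unfold kerC; ring
  rcases le_total k 0 with h | h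
  · rw [aff (S / 2 * (S / 2))]
    have h1 := diag_nonneg hr (show -1 ≤ S / 2 by linarith) (show S / 2 ≤ 1 by linarith)
    rw [show 2 * (S / 2) = S by ring] at h1
    have h2 : p ≤ S / 2 * (S / 2) := by rw [hS, hp]; nlinarith [sq_nonneg (w - v)]
    have := mul_nonneg_of_nonpos_of_nonpos (sub_nonpos.2 h2) h
    linarith
  · rcases le_total 0 S with h0 | h0
    · rw [aff (S - 1)]
      have h1 := edge_nonneg hr (show -1 ≤ S - 1 by linarith) (show S - 1 ≤ 1 by linarith)
      rw [show 1 + (S - 1) = S by ring] at h1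
      have h2 : S - 1 ≤ p := by
        rw [hS, hp]; nlinarith [mul_nonneg (sub_nonneg.2 w2) (sub_nonneg.2 v2)]
      have := mul_nonneg (sub_nonneg.2 h2) h
      linarith
    · rw [aff (-(S + 1))]
      have h1 := edgeNeg_nonneg hr (show -1 ≤ S + 1 by linarith) (show S + 1 ≤ 1 by linarith)
      rw [show -1 + (S + 1) = S by ring] at h1
      have h2 : -(S + 1) ≤ p := by
        rw [hS, hp]; nlinarith [mul_nonneg (sub_nonneg.2 w1) (sub_nonneg.2 v1)]
      have := mul_nonneg (sub_nonneg.2 h2) h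
      linarith

/-- The kernel plus its transpose is nonnegative. -/
theorem sym_nonneg {r w v : ℝ} (hr : 0 < r) (hw : |w| ≤ 1) (hv : |v| ≤ 1) :
    0 ≤ kerMin 8 (ofRadial a a' b b') r w v + kerMin 8 (ofRadial a a' b b') r v w := by
  rw [kerMin_sum hr]
  refine div_nonneg ((kerC_nonneg hr.le hw hv).trans ?_) (by positivity)
  exact kerC_mono hr.le ((sq_le_one_iff_abs_le_one w).2 hw) ((sq_le_one_iff_abs_le_one v).2 hv)
    (by linarith)

/-- The chord inequality. -/
theorem chord {r c d : ℝ} (hr : 0 < r) (hc : 0 < c) (hc1 : c ≤ 1) (hd : 0 < d) (hd1 : d ≤ 1) :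
    r ≤ 7 / 270 * r ^ 8 * (kerMin 8 (ofRadial a a' b b') r c d +
        kerMin 8 (ofRadial a a' b b') r d c) / (2 * (c * d)) + g c + g d := by
  have h := chordL_nonneg hr.le hc hc1 hd hd1
  rw [chordL_val] at h
  have h2 : 0 ≤ 7 / 540 * r ^ 3 * kerC ((c + d) / 2) r (c + d) (c * d) *
      (1 + (c + d) + c * d) ^ 3 +
      (2 + r) ^ 4 * (c * d) * (wtG (c + d) (c * d) - r * (1 + (c + d) + c * d) ^ 3) :=
    nonneg_of_mul_nonneg_right h (by norm_num)
  have hG : wtG (c + d) (c * d) = numG c * (1 + d) ^ 3 + numG d * (1 + c) ^ 3 := by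
    unfold wtG numG; ring
  have e3 : 1 + (c + d) + c * d = (1 + c) * (1 + d) := by ring
  rw [hG, e3] at h2
  have key : 7 / 270 * r ^ 8 * (kerMin 8 (ofRadial a a' b b') r c d +
        kerMin 8 (ofRadial a a' b b') r d c) / (2 * (c * d)) + g c + g d - r =
      (7 / 540 * r ^ 3 * kerC ((c + d) / 2) r (c + d) (c * d) * ((1 + c) * (1 + d)) ^ 3 +
        (2 + r) ^ 4 * (c * d) * (numG c * (1 + d) ^ 3 + numG d * (1 + c) ^ 3 -
          r * ((1 + c) * (1 + d)) ^ 3)) /
        ((c * d) * (2 + r) ^ 4 * ((1 + c) * (1 + d)) ^ 3) := by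
    have h1 : (0 : ℝ) < 2 + r := by linarith
    rw [kerMin_sum hr, abs_of_pos hc, abs_of_pos hd]
    unfold g
    field_simp
    ring
  have := div_nonneg h2 (show 0 ≤ (c * d) * (2 + r) ^ 4 * ((1 + c) * (1 + d)) ^ 3 by positivity)
  linarith

theorem g_nonneg {t : ℝ} (ht : t ∈ Icc (0 : ℝ) 1) : 0 ≤ g t :=
  div_nonneg (numG_nonneg ht.1 ht.2) (pow_nonneg (by linarith [ht.1]) _)

theorem g_cont : ContinuousOn g (Icc 0 1) := by
  unfold g numG
  refine ContinuousOn.div (by fun_prop) (by fun_prop) fun t ht => ?_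
  have : (0 : ℝ) ≤ t := ht.1
  positivity

theorem g_mono : MonotoneOn g (Icc 0 1) := by
  refine monotoneOn_of_hasDerivWithinAt_nonneg (convex_Icc 0 1) g_cont
    (f' := fun t => ((2/3) + (8/3)*t + (22/5)*t^2 + (5264/375)*t^3 + (10318/1125)*t^4
      - (191516/7875)*t^5 - (57527/5250)*t^6 + (530942/23625)*t^7 + (418333/47250)*t^8
      - (3269/1125)*t^9) / (1 + t) ^ 4) (fun t ht => ?_) (fun t ht => ?_)
  · rw [interior_Icc] at ht
    have h1 : (0 : ℝ) < 1 + t := by linarith [ht.1]
    have hd : HasDerivAt (fun x : ℝ => (1 + x) ^ 3) (3 * (1 + t) ^ 2) t :=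
      (((hasDerivAt_id t).const_add 1).pow 3).congr_deriv (by norm_num)
    refine (((hasDerivAt_numG t).div hd (by positivity)).congr_deriv ?_).hasDerivWithinAt
    unfold numG
    field_simp
    ring
  · rw [interior_Icc] at ht
    exact div_nonneg (gDer_nonneg ht.1.le ht.2.le) (pow_nonneg (by linarith [ht.1]) _)

theorem g_integral :
    ∫ t in (0 : ℝ)..1, g t * t * Real.sqrt (1 - t ^ 2) ^ 6 = 184 / 4725 := by
  rw [intervalIntegral.integral_eq_sub_of_hasDerivAt (f := fun x : ℝ =>
      (2 / 9 : ℝ) * x ^ 3 +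
      (-28 / 75 : ℝ) * x ^ 5 +
      (458 / 1125 : ℝ) * x ^ 6 +
      (-1124 / 1575 : ℝ) * x ^ 7 +
      (2231 / 31500 : ℝ) * x ^ 8 +
      (7883 / 5250 : ℝ) * x ^ 9 +
      (-120797 / 94500 : ℝ) * x ^ 10 +
      (-6401 / 23625 : ℝ) * x ^ 11 +
      (71243 / 94500 : ℝ) * x ^ 12 +
      (-2977 / 9450 : ℝ) * x ^ 13 +
      (467 / 13500 : ℝ) * x ^ 14)]
  · norm_num
  · intro x hx
    rw [uIcc_of_le zero_le_one] at hx
    obtain ⟨hx0, hx1⟩ := hx
    refine (((((((((((((hasDerivAt_pow 3 x).const_mul (2 / 9 : ℝ)).add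
        ((hasDerivAt_pow 5 x).const_mul (-28 / 75 : ℝ))).add
        ((hasDerivAt_pow 6 x).const_mul (458 / 1125 : ℝ))).add
        ((hasDerivAt_pow 7 x).const_mul (-1124 / 1575 : ℝ))).add
        ((hasDerivAt_pow 8 x).const_mul (2231 / 31500 : ℝ))).add
        ((hasDerivAt_pow 9 x).const_mul (7883 / 5250 : ℝ))).add
        ((hasDerivAt_pow 10 x).const_mul (-120797 / 94500 : ℝ))).add
        ((hasDerivAt_pow 11 x).const_mul (-6401 / 23625 : ℝ))).add
        ((hasDerivAt_pow 12 x).const_mul (71243 / 94500 : ℝ))).add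
        ((hasDerivAt_pow 13 x).const_mul (-2977 / 9450 : ℝ))).add
        ((hasDerivAt_pow 14 x).const_mul (467 / 13500 : ℝ)))).congr_deriv ?_
    have h6 : Real.sqrt (1 - x ^ 2) ^ 6 = (1 - x ^ 2) ^ 3 := by
      rw [show (6 : ℕ) = 2 * 3 from rfl, pow_mul, Real.sq_sqrt (by nlinarith)]
    have : (0 : ℝ) < 1 + x := by linarith
    rw [h6]
    unfold g numG
    push_cast
    field_simp
    ring
  · refine ContinuousOn.intervalIntegrable ?_
    rw [uIcc_of_le zero_le_one]
    exact (g_cont.mul continuousOn_id).mul (by fun_prop)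

theorem omega_nine : omega 9 = 32 * π ^ 4 / 945 := by
  rw [omega_eq, show ((9 : ℕ) : ℝ) / 2 + 1 = ((((1 / 2 + 1) + 1) + 1) + 1) + 1 by norm_num,
    Real.Gamma_add_one (by norm_num), Real.Gamma_add_one (by norm_num),
    Real.Gamma_add_one (by norm_num), Real.Gamma_add_one (by norm_num),
    Real.Gamma_add_one (by norm_num), Real.Gamma_one_half_eq,
    show √π ^ 9 = (√π ^ 2) ^ 4 * √π by ring, Real.sq_sqrt Real.pi_pos.le]
  have := Real.sqrt_pos.2 Real.pi_pos
  field_simp
  norm_num

end Nine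

/-- The profile in nine dimensions. -/
def P9 : Profile := ofRadial Nine.a Nine.a' Nine.b Nine.b'

/-- The half-sphere moment of the boundary weight in nine dimensions. -/
def G9 : ℝ := 8 * omega 8 * (184 / 4725)

/-- All the data needed in nine dimensions. -/
theorem cert9 : Cert 9 P9 (7 / 270) G9 Nine.g where
  smoothA := contDiffOn_radial (a := Nine.a) fun r hr => by
    unfold Nine.a Nine.numA
    fun_prop (disch := positivity)
  smoothB := contDiffOn_radial (a := Nine.b) fun r hr => by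
    unfold Nine.b Nine.numB
    fun_prop (disch := positivity)
  derivA := fun _ hq => hasDerivAt_radial (fun _ hr => Nine.hasDerivAt_a hr) hq
  derivB := fun _ hq => hasDerivAt_radial (fun _ hr => Nine.hasDerivAt_b hr) hq
  B_nonneg := fun _ hq => Nine.b_nonneg (Real.sqrt_pos.2 hq)
  eta_nonneg := fun _ hq => Nine.eta (Real.sqrt_pos.2 hq)
  decreasing := fun _ hq => decreasing_radial (fun _ hr => Nine.decrease hr) hq
  ker_nonneg := fun s w v hs hw hv => by
    rw [show ((9 : ℕ) : ℝ) - 1 = 8 by norm_num]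
    exact Nine.sym_nonneg hs hw hv
  chord := fun s c d hs hc hc1 hd hd1 => by
    rw [show ((9 : ℕ) : ℝ) - 1 = 8 by norm_num]
    exact Nine.chord hs hc hc1 hd hd1
  alpha_pos := by norm_num
  g_cont := Nine.g_cont
  g_nonneg := fun _ ht => Nine.g_nonneg ht
  g_mono := Nine.g_mono
  G_nonneg := mul_nonneg (mul_nonneg (by norm_num) (omega_nonneg 8)) (by norm_num)
  moment := fun e he => by
    have h := half_sphere (n := 9) (by norm_num) (h := fun t => Nine.g t * t)
      (Nine.g_cont.mul continuousOn_id) (fun t ht => mul_nonneg (Nine.g_nonneg ht) ht.1) e he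
    rw [Nine.g_integral, show ((9 : ℕ) : ℝ) - 1 = 8 by norm_num] at h
    exact h
  balance := by
    unfold G9
    rw [Eight.omega_eight, Nine.omega_nine]
    push_cast
    ring

end

end Vale.Agent.P219.Aff
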