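import Vale.Agent.P219.Aff.Ten.Ker
import Vale.Agent.P219.Aff.Ten.Signs
import Vale.Agent.P219.Aff.Ten.Chord
import Vale.Agent.P219.Aff.Slicing
import Vale.Agent.P219.Aff.Cert9

/-!
# The certificate in dimension ten

The multiplier is quadratic in the far cosine. The sign of its derivative in that variable changes,
so the kernel bound is checked for each choice of the signs.
-/

open MeasureTheory Set Real
open scoped ENNReal ContDiff RealInnerProductSpace

namespace Vale.Agent.P219.Aff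

open Vale.Agent.P219 Vale.Agent.P219.Univ

noncomputable section

namespace Ten

open Vale.Agent.P219.Aff.Nine

/-- The coefficient without the far cosine. -/
def a (q : ℝ) : ℝ := (1000 + 1328 * q + 110 * q ^ 2) / (800 * q ^ 3)

/-- Its derivative. -/
def a' (q : ℝ) : ℝ := -(3000 + 2656 * q + 110 * q ^ 2) / (800 * q ^ 4)

/-- The coefficient of the far cosine. -/
def b (q : ℝ) : ℝ := (1970 - 661 * q) / (800 * q ^ 3)

/-- Its derivative. -/
def b' (q : ℝ) : ℝ := -(5910 - 1322 * q) / (800 * q ^ 4)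

/-- The coefficient of the square of the far cosine. -/
def c (q : ℝ) : ℝ := 946 / (800 * q ^ 3)

/-- Its derivative. -/
def c' (q : ℝ) : ℝ := -2838 / (800 * q ^ 4)

/-- The boundary weight. -/
def g (t : ℝ) : ℝ := (1500 * t + 1285 * t ^ 3 - 910 * t ^ 5 + 256 * t ^ 7) / 2250

theorem hasDerivAt_den {q : ℝ} :
    HasDerivAt (fun x : ℝ => 800 * x ^ 3) (800 * (3 * q ^ 2)) q :=
  ((hasDerivAt_pow 3 q).const_mul 800).congr_deriv (by norm_num)

theorem hasDerivAt_a {q : ℝ} (hq : 0 < q) : HasDerivAt a (a' q) q := by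
  have h : HasDerivAt (fun x : ℝ => 1000 + 1328 * x + 110 * x ^ 2) (1328 + 110 * (2 * q)) q :=
    ((((hasDerivAt_id q).const_mul 1328).const_add 1000).add
      ((hasDerivAt_pow 2 q).const_mul 110)).congr_deriv (by norm_num)
  refine (h.div hasDerivAt_den (by positivity)).congr_deriv ?_
  unfold a'; field_simp; ring

theorem hasDerivAt_b {q : ℝ} (hq : 0 < q) : HasDerivAt b (b' q) q := by
  have h : HasDerivAt (fun x : ℝ => 1970 - 661 * x) (-661) q :=
    (((hasDerivAt_id q).const_mul 661).const_sub 1970).congr_deriv (by norm_num)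
  refine (h.div hasDerivAt_den (by positivity)).congr_deriv ?_
  unfold b'; field_simp; ring

theorem hasDerivAt_c {q : ℝ} (hq : 0 < q) : HasDerivAt c (c' q) q := by
  refine ((hasDerivAt_const q (946 : ℝ)).div hasDerivAt_den (by positivity)).congr_deriv ?_
  unfold c'; field_simp; ring

/-- The multiplier. -/
def K10 : Kern where
  F q L := a q - L * b q - L ^ 2 * c q
  F1 q L := a' q - L * b' q - L ^ 2 * c' q
  F2 q L := -b q - 2 * L * c q
  D := 25

/-- The numerator of the multiplier. -/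
def N (s v : ℝ) : ℝ :=
  1000 + 1328 * s ^ 2 + 110 * s ^ 4 - s * v * (1970 - 661 * s ^ 2) - 946 * s ^ 2 * v ^ 2

/-- Minus the numerator of the derivative in the far cosine. -/
def B (s v : ℝ) : ℝ := 1970 - 661 * s ^ 2 + 1892 * s * v

/-- The kernel numerator without the mixed term. -/
def core (s w v : ℝ) : ℝ :=
  800 * s ^ 6 + (1 - w ^ 2) * (2 * ((1328 + 220 * s ^ 2 + 661 * s * v) * s ^ 2 - 3 * N s v) -
    B s v * s * v) + 9 * N s v * (1 - s * w)

/-- The bound for the symmetrised kernel with the signs `i`, `j` and the weights `cw`, `cv`. -/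
def Kf (s w v cw cv i j : ℝ) : ℝ :=
  core s w v + core s v w - s / 2 * (2 - w ^ 2 - v ^ 2) * (i * B s v * cw + j * B s w * cv)

/-- The chord deficit times `72000 c d`. -/
def Cf (s w v i j : ℝ) : ℝ :=
  s ^ 3 * Kf s w v w v i j +
    32 * w * v * (2250 * g w + 2250 * g v) - 72000 * s * w * v

theorem kpp {s w v : ℝ} (hs : 0 ≤ s) (hw : |w| ≤ 1) (hv : |v| ≤ 1) :
    0 ≤ Kf s w v 1 1 1 1 := by
  obtain ⟨w0, w1⟩ := abs_le.1 hw
  obtain ⟨v0, v1⟩ := abs_le.1 hv
  refine le_of_le_of_eq (kppL_nonneg (x := w) (y := v) (z := s) w0 w1 v0 v1 hs) ?_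
  simp only [kppL, ev, Coef.val, List.headD_cons, List.tail_cons, Kf, core, N, B]
  push_cast; ring

theorem kpm {s w v : ℝ} (hs : 0 ≤ s) (hw : |w| ≤ 1) (hv : |v| ≤ 1) :
    0 ≤ Kf s w v 1 1 1 (-1) := by
  obtain ⟨w0, w1⟩ := abs_le.1 hw
  obtain ⟨v0, v1⟩ := abs_le.1 hv
  refine le_of_le_of_eq (kpmL_nonneg (x := w) (y := v) (z := s) w0 w1 v0 v1 hs) ?_
  simp only [kpmL, ev, Coef.val, List.headD_cons, List.tail_cons, Kf, core, N, B]
  push_cast; ring

theorem kmm {s w v : ℝ} (hs : 0 ≤ s) (hw : |w| ≤ 1) (hv : |v| ≤ 1) :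
    0 ≤ Kf s w v 1 1 (-1) (-1) := by
  obtain ⟨w0, w1⟩ := abs_le.1 hw
  obtain ⟨v0, v1⟩ := abs_le.1 hv
  refine le_of_le_of_eq (kmmL_nonneg (x := w) (y := v) (z := s) w0 w1 v0 v1 hs) ?_
  simp only [kmmL, ev, Coef.val, List.headD_cons, List.tail_cons, Kf, core, N, B]
  push_cast; ring

theorem kerLow_sum {s : ℝ} (hs : 0 < s) (w v : ℝ) :
    kerLow 9 K10 s w v + kerLow 9 K10 s v w =
      (core s w v + core s v w -
        s / 2 * (2 - w ^ 2 - v ^ 2) * (|B s v| * |w| + |B s w| * |v|)) / (800 * s ^ 6) := by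
  have hF : ∀ x, |K10.F2 (s ^ 2) (s * x)| = |B s x| / (800 * s ^ 6) := fun x => by
    have e : K10.F2 (s ^ 2) (s * x) = -(B s x / (800 * s ^ 6)) := by
      simp only [K10, b, c, B]; field_simp; ring
    rw [e, abs_neg, abs_div, abs_of_pos (show (0 : ℝ) < 800 * s ^ 6 by positivity)]
  simp only [kerLow, hF]
  simp only [K10, a, a', b, b', c, c', core, N, B]
  field_simp
  ring

theorem sym_nonneg {s w v : ℝ} (hs : 0 < s) (hw : |w| ≤ 1) (hv : |v| ≤ 1) :
    0 ≤ kerLow 9 K10 s w v + kerLow 9 K10 s v w := by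
  rw [kerLow_sum hs]
  refine div_nonneg ?_ (by positivity)
  have hh : 0 ≤ s / 2 * (2 - w ^ 2 - v ^ 2) := by
    have := (sq_le_one_iff_abs_le_one w).2 hw
    have := (sq_le_one_iff_abs_le_one v).2 hv
    exact mul_nonneg (by linarith) (by linarith)
  have hm : |B s v| * |w| + |B s w| * |v| ≤ |B s v| + |B s w| :=
    add_le_add (mul_le_of_le_one_right (abs_nonneg _) hw) (mul_le_of_le_one_right (abs_nonneg _) hv)
  have h1 := mul_le_mul_of_nonneg_left hm hh
  have pp := kpp hs.le hw hv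
  have pm := kpm hs.le hw hv
  have mp := kpm hs.le hv hw
  have mm := kmm hs.le hw hv
  simp only [Kf] at pp pm mp mm
  rcases abs_choice (B s v) with e | e <;> rcases abs_choice (B s w) with e' | e' <;>
    rw [e, e'] at h1 <;> rw [e, e'] <;> linarith

theorem CS_eq (s w v : ℝ) : CS s (w + v) (w * v) = Cf s w v 1 1 := by
  unfold CS Cf Kf core N B g
  ring

theorem cpp {s c d : ℝ} (hs : 0 ≤ s) (hc : 0 < c) (hc1 : c ≤ 1) (hd : 0 < d) (hd1 : d ≤ 1) :
    0 ≤ Cf s c d 1 1 := by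
  rw [← CS_eq]
  set S := c + d with hSdef
  have hS : 0 < S := by linarith
  have hu : 0 ≤ s / S := div_nonneg hs hS.le
  have eu : S * (s / S) = s := by field_simp
  have hq : 4 * (c * d) ≤ S ^ 2 := by nlinarith [sq_nonneg (c - d)]
  rcases le_total S 1 with h | h
  · set t := (S ^ 2 - 4 * (c * d)) / S ^ 2 with ht
    have t0 : 0 ≤ t := div_nonneg (by linarith) (sq_nonneg S)
    have t1 : t ≤ 1 := (div_le_one (by positivity)).2 (by nlinarith [mul_pos hc hd])
    have h1 := lowL_nonneg (x := S) (y := t) (z := s / S) hS.le h t0 t1 hu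
    have ep : (S ^ 2 - S ^ 2 * t) / 4 = c * d := by rw [ht]; field_simp; ring
    have h2 := CS_low S t (s / S)
    rw [eu, ep] at h2
    have : 0 ≤ S ^ 3 * Coef.val lowL [S, t, s / S] := mul_nonneg (pow_nonneg hS.le _) h1
    linarith
  · have hS2 : S ≤ 2 := by linarith
    have hp : S - 1 ≤ c * d := by
      nlinarith [mul_nonneg (sub_nonneg.2 hc1) (sub_nonneg.2 hd1)]
    set t := (S ^ 2 - 4 * (c * d)) / (2 - S) ^ 2 with ht
    have t0 : 0 ≤ t := div_nonneg (by linarith) (sq_nonneg _)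
    have t1 : t ≤ 1 := by
      rcases hS2.eq_or_lt with h2 | h2
      · rw [ht, h2]; norm_num
      · rw [ht, div_le_one (pow_pos (by linarith) 2)]
        linarith
    have h1 := highL_nonneg (x := S) (y := t) (z := s / S) h hS2 t0 t1 hu
    have ep : (S ^ 2 - (2 - S) ^ 2 * t) / 4 = c * d := by
      rcases hS2.eq_or_lt with h2 | h2
      · rw [ht, h2]
        have : c * d = 1 := le_antisymm (mul_le_one₀ hc1 hd.le hd1) (by linarith)
        rw [this]; norm_num
      · have : (2 : ℝ) - S ≠ 0 := by linarith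
        rw [ht]; field_simp; ring
    have h2 := CS_high S t (s / S)
    rw [eu, ep] at h2
    have : 0 ≤ S ^ 1 * Coef.val highL [S, t, s / S] := mul_nonneg (pow_nonneg hS.le _) h1
    linarith

theorem B_neg {s v : ℝ} (hs : 0 ≤ s) (hv : 0 ≤ v) (h : B s v ≤ 0) :
    17 / 10 ≤ s ∧ (s ≤ 3 → v ≤ 3 / 4) := by
  unfold B at h
  have h1 : 17 / 10 ≤ s := by nlinarith [mul_nonneg hs hv]
  refine ⟨h1, fun h3 => ?_⟩
  by_contra hc
  nlinarith [mul_nonneg hs (sub_nonneg.2 h3), mul_lt_mul_of_pos_left (not_le.1 hc)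
    (show (0 : ℝ) < s by linarith)]

theorem cpm {s c d : ℝ} (hs : 0 ≤ s) (hc : 0 ≤ c) (hc1 : c ≤ 1) (hd : 0 ≤ d) (hd1 : d ≤ 1)
    (h : B s d ≤ 0) : 0 ≤ Cf s c d (-1) 1 := by
  obtain ⟨h1, h2⟩ := B_neg hs hd h
  rcases le_total s 3 with h3 | h3
  · have := cpmMidL_nonneg (x := d) (y := c) (z := s) hd (h2 h3) hc hc1 h1 h3
    refine nonneg_of_mul_nonneg_right (le_of_le_of_eq this ?_) (show (0 : ℝ) < 2 by norm_num)
    simp only [cpmMidL, ev, Coef.val, List.headD_cons, List.tail_cons, Cf, Kf, core, N, B, g]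
    push_cast; ring
  · have := cpmHiL_nonneg (x := d) (y := c) (z := s) hd hd1 hc hc1 h3
    refine nonneg_of_mul_nonneg_right (le_of_le_of_eq this ?_) (show (0 : ℝ) < 2 by norm_num)
    simp only [cpmHiL, ev, Coef.val, List.headD_cons, List.tail_cons, Cf, Kf, core, N, B, g]
    push_cast; ring

theorem cmm {s c d : ℝ} (hs : 0 ≤ s) (hc : 0 ≤ c) (hc1 : c ≤ 1) (hd : 0 ≤ d) (hd1 : d ≤ 1)
    (h : B s d ≤ 0) (h' : B s c ≤ 0) : 0 ≤ Cf s c d (-1) (-1) := by
  obtain ⟨h1, h2⟩ := B_neg hs hd h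
  obtain ⟨-, h2'⟩ := B_neg hs hc h'
  rcases le_total s 3 with h3 | h3
  · have := cmmMidL_nonneg (x := c) (y := d) (z := s) hc (h2' h3) hd (h2 h3) h1 h3
    refine nonneg_of_mul_nonneg_right (le_of_le_of_eq this ?_) (show (0 : ℝ) < 2 by norm_num)
    simp only [cmmMidL, ev, Coef.val, List.headD_cons, List.tail_cons, Cf, Kf, core, N, B, g]
    push_cast; ring
  · have := cmmHiL_nonneg (x := c) (y := d) (z := s) hc hc1 hd hd1 h3
    refine nonneg_of_mul_nonneg_right (le_of_le_of_eq this ?_) (show (0 : ℝ) < 2 by norm_num)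
    simp only [cmmHiL, ev, Coef.val, List.headD_cons, List.tail_cons, Cf, Kf, core, N, B, g]
    push_cast; ring

theorem chord {s c d : ℝ} (hs : 0 < s) (hc : 0 < c) (hc1 : c ≤ 1) (hd : 0 < d) (hd1 : d ≤ 1) :
    s ≤ 1 / 45 * s ^ 9 * (kerLow 9 K10 s c d + kerLow 9 K10 s d c) / (2 * (c * d)) + g c + g d := by
  have key : 0 ≤ s ^ 3 * (core s c d + core s d c -
      s / 2 * (2 - c ^ 2 - d ^ 2) * (|B s d| * c + |B s c| * d)) +
      32 * c * d * (2250 * g c + 2250 * g d) - 72000 * s * c * d := by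
    rcases le_total 0 (B s d) with h | h <;> rcases le_total 0 (B s c) with h' | h'
    · rw [abs_of_nonneg h, abs_of_nonneg h']
      refine le_of_le_of_eq (cpp hs.le hc hc1 hd hd1) ?_
      unfold Cf Kf; ring
    · rw [abs_of_nonneg h, abs_of_nonpos h']
      refine le_of_le_of_eq (cpm hs.le hd.le hd1 hc.le hc1 h') ?_
      unfold Cf Kf core; ring
    · rw [abs_of_nonpos h, abs_of_nonneg h']
      refine le_of_le_of_eq (cpm hs.le hc.le hc1 hd.le hd1 h) ?_
      unfold Cf Kf; ring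
    · rw [abs_of_nonpos h, abs_of_nonpos h']
      refine le_of_le_of_eq (cmm hs.le hc.le hc1 hd.le hd1 h h') ?_
      unfold Cf Kf; ring
  have e : 1 / 45 * s ^ 9 * (kerLow 9 K10 s c d + kerLow 9 K10 s d c) / (2 * (c * d)) + g c + g d - s
      = (s ^ 3 * (core s c d + core s d c -
          s / 2 * (2 - c ^ 2 - d ^ 2) * (|B s d| * c + |B s c| * d)) +
        32 * c * d * (2250 * g c + 2250 * g d) - 72000 * s * c * d) / (72000 * (c * d)) := by
    rw [kerLow_sum hs, abs_of_pos hc, abs_of_pos hd]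
    field_simp
    ring
  have := div_nonneg key (show 0 ≤ 72000 * (c * d) by positivity)
  linarith

theorem val1 (l : List ℤ) (t : ℝ) : Coef.val l [t] = ev l t [] := rfl

theorem etaPos {s : ℝ} (hs : 0 ≤ s) : 0 ≤ N s 1 := by
  have key : 0 ≤ Coef.val ([1000, -1970, 382, 661, 110] : List ℤ) [s] := by
    rcases le_total s (1 / 2) with h | h
    · exact ok_seg (chk := okZ) (a := 0) (b := 1) (c := 2) (by decide +kernel) (by norm_num)
        (by norm_num) (fun y hy => okZ_nonneg hy []) (by push_cast; linarith) (by push_cast; linarith)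
    · rcases le_total s 1 with h' | h'
      · exact ok_seg (chk := okZ) (a := 1) (b := 2) (c := 2) (by decide +kernel) (by norm_num)
          (by norm_num) (fun y hy => okZ_nonneg hy []) (by push_cast; linarith) (by push_cast; linarith)
      · exact ok_tail (chk := okZ) (a := 1) (by decide +kernel) (fun y hy => okZ_nonneg hy [])
          (by push_cast; linarith)
  refine le_of_le_of_eq key ?_
  simp only [ev, Coef.val, List.headD_cons, List.tail_cons, N]
  push_cast; ring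

theorem etaNeg {s : ℝ} (hs : 0 ≤ s) : 0 ≤ N s (-1) := by
  have hz : ∀ y, okZ y = true → 0 ≤ Coef.val y [] := fun y hy => okZ_nonneg hy []
  have key : 0 ≤ Coef.val ([1000, 1970, 382, -661, 110] : List ℤ) [s] := by
    rcases le_total s 1 with h1 | h1
    · exact ok_seg (chk := okZ) (a := 0) (b := 1) (c := 1) (by decide +kernel) (by norm_num)
        one_pos hz (by push_cast; linarith) (by push_cast; linarith)
    rcases le_total s 2 with h2 | h2
    · exact ok_seg (chk := okZ) (a := 1) (b := 2) (c := 1) (by decide +kernel) (by norm_num)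
        one_pos hz (by push_cast; linarith) (by push_cast; linarith)
    rcases le_total s 3 with h3 | h3
    · exact ok_seg (chk := okZ) (a := 2) (b := 3) (c := 1) (by decide +kernel) (by norm_num)
        one_pos hz (by push_cast; linarith) (by push_cast; linarith)
    rcases le_total s 4 with h4 | h4
    · exact ok_seg (chk := okZ) (a := 3) (b := 4) (c := 1) (by decide +kernel) (by norm_num)
        one_pos hz (by push_cast; linarith) (by push_cast; linarith)
    · exact ok_tail (chk := okZ) (a := 4) (by decide +kernel) hz (by push_cast; linarith)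
  refine le_of_le_of_eq key ?_
  simp only [ev, Coef.val, List.headD_cons, List.tail_cons, N]
  push_cast; ring

/-- Twenty-five minus the derivative in the squared distance, times `800 s ^ 8`. -/
def slack (s v : ℝ) : ℝ :=
  20000 * s ^ 8 - s ^ 2 * (1328 + 220 * s ^ 2 + 661 * s * v) + 3 * N s v

theorem slackPos {s : ℝ} (hs : 0 ≤ s) : 0 ≤ slack s 1 := by
  have hz : ∀ y, okZ y = true → 0 ≤ Coef.val y [] := fun y hy => okZ_nonneg hy []
  have key : 0 ≤ Coef.val ([3000, -5910, -182, 1322, 110, 0, 0, 0, 20000] : List ℤ) [s] := by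
    rcases le_total s (1 / 2) with h1 | h1
    · exact ok_seg (chk := okZ) (a := 0) (b := 1) (c := 2) (by decide +kernel) (by norm_num)
        (by norm_num) hz (by push_cast; linarith) (by push_cast; linarith)
    rcases le_total s (5 / 8) with h2 | h2
    · exact ok_seg (chk := okZ) (a := 4) (b := 5) (c := 8) (by decide +kernel) (by norm_num)
        (by norm_num) hz (by push_cast; linarith) (by push_cast; linarith)
    rcases le_total s (3 / 4) with h3 | h3
    · exact ok_seg (chk := okZ) (a := 5) (b := 6) (c := 8) (by decide +kernel) (by norm_num)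
        (by norm_num) hz (by push_cast; linarith) (by push_cast; linarith)
    rcases le_total s 1 with h4 | h4
    · exact ok_seg (chk := okZ) (a := 3) (b := 4) (c := 4) (by decide +kernel) (by norm_num)
        (by norm_num) hz (by push_cast; linarith) (by push_cast; linarith)
    · exact ok_tail (chk := okZ) (a := 1) (by decide +kernel) hz (by push_cast; linarith)
  refine le_of_le_of_eq key ?_
  simp only [ev, Coef.val, List.headD_cons, List.tail_cons, slack, N]
  push_cast; ring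

theorem slackNeg {s : ℝ} (hs : 0 ≤ s) : 0 ≤ slack s (-1) := by
  have hz : ∀ y, okZ y = true → 0 ≤ Coef.val y [] := fun y hy => okZ_nonneg hy []
  have key : 0 ≤ Coef.val ([3000, 5910, -182, -1322, 110, 0, 0, 0, 20000] : List ℤ) [s] := by
    rcases le_total s 1 with h1 | h1
    · exact ok_seg (chk := okZ) (a := 0) (b := 1) (c := 1) (by decide +kernel) (by norm_num)
        one_pos hz (by push_cast; linarith) (by push_cast; linarith)
    · exact ok_tail (chk := okZ) (a := 1) (by decide +kernel) hz (by push_cast; linarith)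
  refine le_of_le_of_eq key ?_
  simp only [ev, Coef.val, List.headD_cons, List.tail_cons, slack, N]
  push_cast; ring

/-- A concave quadratic in the cosine is bounded below by its values at the ends. -/
theorem secant {s v : ℝ} {f : ℝ → ℝ} {k : ℝ} (hk : 0 ≤ k) (hv : |v| ≤ 1) (h1 : 0 ≤ f 1)
    (h2 : 0 ≤ f (-1)) (e : 2 * f v = (1 + v) * f 1 + (1 - v) * f (-1) + k * (s ^ 2 * (1 - v ^ 2))) :
    0 ≤ f v := by
  obtain ⟨v0, v1⟩ := abs_le.1 hv
  have := mul_nonneg (show 0 ≤ 1 + v by linarith) h1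
  have := mul_nonneg (show 0 ≤ 1 - v by linarith) h2
  have := mul_nonneg hk (mul_nonneg (sq_nonneg s)
    (show 0 ≤ 1 - v ^ 2 by nlinarith [mul_nonneg (show 0 ≤ 1 + v by linarith) (show 0 ≤ 1 - v by linarith)]))
  linarith

theorem exists_cos {q L : ℝ} (hq : 0 < q) (hL : L ^ 2 ≤ q) :
    ∃ s v : ℝ, 0 < s ∧ |v| ≤ 1 ∧ q = s ^ 2 ∧ L = s * v := by
  refine ⟨Real.sqrt q, L / Real.sqrt q, Real.sqrt_pos.2 hq, ?_, (Real.sq_sqrt hq.le).symm, ?_⟩
  · rw [abs_div, abs_of_pos (Real.sqrt_pos.2 hq), div_le_one (Real.sqrt_pos.2 hq)]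
    exact Real.abs_le_sqrt hL
  · rw [mul_div_cancel₀ _ (Real.sqrt_pos.2 hq).ne']

theorem F_nonneg {q L : ℝ} (hq : 0 < q) (hL : L ^ 2 ≤ q) : 0 ≤ K10.F q L := by
  obtain ⟨s, v, hs, hv, rfl, rfl⟩ := exists_cos hq hL
  have h := secant (s := s) (f := N s) (k := 1892) (by norm_num) hv (etaPos hs.le) (etaNeg hs.le)
    (by unfold N; ring)
  have e : K10.F (s ^ 2) (s * v) = N s v / (800 * s ^ 6) := by
    simp only [K10, a, b, c, N]; field_simp
  rw [e]
  positivity

theorem F1_le {q L : ℝ} (hq : 0 < q) (hL : L ^ 2 ≤ q) : K10.F1 q L ≤ 25 := by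
  obtain ⟨s, v, hs, hv, rfl, rfl⟩ := exists_cos hq hL
  have h := secant (s := s) (f := slack s) (k := 5676) (by norm_num) hv (slackPos hs.le)
    (slackNeg hs.le) (by unfold slack N; ring)
  have e : 25 - K10.F1 (s ^ 2) (s * v) = slack s v / (800 * s ^ 8) := by
    simp only [K10, a', b', c', slack, N]; field_simp; ring
  have := div_nonneg h (show 0 ≤ 800 * s ^ 8 by positivity)
  linarith

theorem g_cont : ContinuousOn g (Icc 0 1) := by
  unfold g; fun_prop

theorem g_nonneg {t : ℝ} (ht : t ∈ Icc (0 : ℝ) 1) : 0 ≤ g t := by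
  have h2 : t ^ 2 ≤ 1 := pow_le_one₀ ht.1 ht.2
  have := mul_nonneg (pow_nonneg ht.1 3) (sub_nonneg.2 h2)
  unfold g
  linarith [pow_nonneg ht.1 3, pow_nonneg ht.1 7, ht.1]

theorem g_mono : MonotoneOn g (Icc 0 1) := by
  refine monotoneOn_of_hasDerivWithinAt_nonneg (convex_Icc 0 1) g_cont
    (f' := fun t => (1500 + 3855 * t ^ 2 - 4550 * t ^ 4 + 1792 * t ^ 6) / 2250)
    (fun t _ => ?_) (fun t ht => ?_)
  · refine (((((hasDerivAt_id t).const_mul (1500 : ℝ)).add
      ((hasDerivAt_pow 3 t).const_mul (1285 : ℝ))).sub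
      ((hasDerivAt_pow 5 t).const_mul (910 : ℝ))).add
      ((hasDerivAt_pow 7 t).const_mul (256 : ℝ))).div_const 2250 |>.congr_deriv ?_
      |>.hasDerivWithinAt
    push_cast
    ring
  · rw [interior_Icc] at ht
    have h2 : t ^ 2 ≤ 1 := pow_le_one₀ ht.1.le ht.2.le
    have := mul_nonneg (sq_nonneg t) (sub_nonneg.2 h2)
    exact div_nonneg (by linarith [pow_nonneg ht.1.le 6]) (by norm_num)

theorem g_integral :
    ∫ t in (0 : ℝ)..1, g t * t * Real.sqrt (1 - t ^ 2) ^ 7 = 49 * π / 4608 := by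
  rw [intervalIntegral.integral_eq_sub_of_hasDerivAt_of_le zero_le_one (f := fun x : ℝ =>
    ((-49 / 2304 : ℝ) * x ^ 1 + (719 / 3456 : ℝ) * x ^ 3 + (-27289 / 108000 : ℝ) * x ^ 5 +
      (-527 / 18000 : ℝ) * x ^ 7 + (1693 / 6750 : ℝ) * x ^ 9 + (-611 / 3375 : ℝ) * x ^ 11 +
      (121 / 2250 : ℝ) * x ^ 13 + (-8 / 1125 : ℝ) * x ^ 15) * Real.sqrt (1 - x ^ 2) +
      49 / 2304 * Real.arcsin x)]
  · simp only [Real.arcsin_one, Real.arcsin_zero]
    norm_num
    ring
  · fun_prop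
  · intro x hx
    have hx1 : 0 < 1 - x ^ 2 := by nlinarith [hx.1, hx.2]
    have hp : HasDerivAt (fun x : ℝ =>
        (-49 / 2304 : ℝ) * x ^ 1 + (719 / 3456 : ℝ) * x ^ 3 + (-27289 / 108000 : ℝ) * x ^ 5 +
        (-527 / 18000 : ℝ) * x ^ 7 + (1693 / 6750 : ℝ) * x ^ 9 + (-611 / 3375 : ℝ) * x ^ 11 +
        (121 / 2250 : ℝ) * x ^ 13 + (-8 / 1125 : ℝ) * x ^ 15)
        ((-49 / 2304 : ℝ) * (1 * x ^ 0) + (719 / 3456 : ℝ) * (3 * x ^ 2) +
        (-27289 / 108000 : ℝ) * (5 * x ^ 4) + (-527 / 18000 : ℝ) * (7 * x ^ 6) +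
        (1693 / 6750 : ℝ) * (9 * x ^ 8) + (-611 / 3375 : ℝ) * (11 * x ^ 10) +
        (121 / 2250 : ℝ) * (13 * x ^ 12) + (-8 / 1125 : ℝ) * (15 * x ^ 14)) x :=
      (((((((((hasDerivAt_pow 1 x).const_mul (-49 / 2304 : ℝ)).add
        ((hasDerivAt_pow 3 x).const_mul (719 / 3456 : ℝ))).add
        ((hasDerivAt_pow 5 x).const_mul (-27289 / 108000 : ℝ))).add
        ((hasDerivAt_pow 7 x).const_mul (-527 / 18000 : ℝ))).add
        ((hasDerivAt_pow 9 x).const_mul (1693 / 6750 : ℝ))).add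
        ((hasDerivAt_pow 11 x).const_mul (-611 / 3375 : ℝ))).add
        ((hasDerivAt_pow 13 x).const_mul (121 / 2250 : ℝ))).add
        ((hasDerivAt_pow 15 x).const_mul (-8 / 1125 : ℝ))).congr_deriv (by push_cast; ring)
    have hsq : HasDerivAt (fun x : ℝ => Real.sqrt (1 - x ^ 2))
        (-(2 * x) / (2 * Real.sqrt (1 - x ^ 2))) x :=
      (((hasDerivAt_pow 2 x).const_sub 1).sqrt hx1.ne').congr_deriv (by norm_num)
    have hasn := (Real.hasDerivAt_arcsin (x := x) (by linarith [hx.1]) (by linarith [hx.2])).const_mul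
      (49 / 2304 : ℝ)
    refine ((hp.mul hsq).add hasn).congr_deriv ?_
    have hz : 0 < Real.sqrt (1 - x ^ 2) := Real.sqrt_pos.2 hx1
    have h7 : Real.sqrt (1 - x ^ 2) ^ 7 = (1 - x ^ 2) ^ 3 * Real.sqrt (1 - x ^ 2) := by
      rw [show (7 : ℕ) = 2 * 3 + 1 from rfl, pow_succ, pow_mul, Real.sq_sqrt hx1.le]
    rw [h7]
    unfold g
    field_simp
    rw [Real.sq_sqrt hx1.le]
    ring
  · exact (Continuous.intervalIntegrable (by unfold g; fun_prop) _ _)

theorem omega_ten : omega 10 = π ^ 5 / 120 := by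
  rw [omega_eq, show ((10 : ℕ) : ℝ) / 2 + 1 = ((5 : ℕ) : ℝ) + 1 by norm_num,
    Real.Gamma_nat_eq_factorial, show √π ^ 10 = (√π ^ 2) ^ 5 by ring, Real.sq_sqrt Real.pi_pos.le]
  norm_num [Nat.factorial]

/-- The half-sphere moment of the boundary weight in ten dimensions. -/
def G10 : ℝ := 9 * omega 9 * (49 * π / 4608)

theorem G10_nonneg : 0 ≤ G10 := by
  have := omega_nonneg 9
  unfold G10
  positivity

theorem balance10 : 1 / 45 * (((10 : ℕ) : ℝ) * omega 10) + 2 * G10 = omega 10 := by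
  unfold G10
  rw [omega_nine, omega_ten]
  push_cast
  ring

theorem moment10 (e : Space 10) (he : ‖e‖ = 1) :
    ∫⁻ v, ENNReal.ofReal
      (if 0 < inner ℝ (v : Space 10) e then g (inner ℝ (v : Space 10) e) * inner ℝ (v : Space 10) e
        else 0) ∂Six.dirs 10 ≤ ENNReal.ofReal G10 := by
  have h := half_sphere (n := 10) (by norm_num) (h := fun t => g t * t)
    (g_cont.mul continuousOn_id) (fun t ht => mul_nonneg (g_nonneg ht) ht.1) e he
  rw [g_integral, show ((10 : ℕ) : ℝ) - 1 = 9 by norm_num] at h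
  exact h

theorem smooth :
    ContDiffOn ℝ ∞ (fun p : ℝ × ℝ => K10.F p.1 p.2) (Ioi 0 ×ˢ univ) := by
  have hd : ∀ p ∈ (Ioi 0 ×ˢ univ : Set (ℝ × ℝ)), (800 : ℝ) * p.1 ^ 3 ≠ 0 := fun p hp => by
    have : (0 : ℝ) < p.1 := hp.1
    positivity
  have h1 : ContDiffOn ℝ ∞ (fun p : ℝ × ℝ => 800 * p.1 ^ 3) (Ioi 0 ×ˢ univ) :=
    contDiffOn_const.mul (contDiffOn_fst.pow 3)
  have ha : ContDiffOn ℝ ∞ (fun p : ℝ × ℝ => a p.1) (Ioi 0 ×ˢ univ) :=
    ContDiffOn.div ((contDiffOn_const.add (contDiffOn_const.mul contDiffOn_fst)).add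
      (contDiffOn_const.mul (contDiffOn_fst.pow 2))) h1 hd
  have hb : ContDiffOn ℝ ∞ (fun p : ℝ × ℝ => b p.1) (Ioi 0 ×ˢ univ) :=
    ContDiffOn.div (contDiffOn_const.sub (contDiffOn_const.mul contDiffOn_fst)) h1 hd
  have hc : ContDiffOn ℝ ∞ (fun p : ℝ × ℝ => c p.1) (Ioi 0 ×ˢ univ) :=
    ContDiffOn.div contDiffOn_const h1 hd
  exact (ha.sub (contDiffOn_snd.mul hb)).sub ((contDiffOn_snd.pow 2).mul hc)

theorem deriv {p : ℝ × ℝ} (hp : 0 < p.1) : HasFDerivAt (fun p : ℝ × ℝ => K10.F p.1 p.2)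
    (K10.F1 p.1 p.2 • ContinuousLinearMap.fst ℝ ℝ ℝ +
      K10.F2 p.1 p.2 • ContinuousLinearMap.snd ℝ ℝ ℝ) p := by
  have hf := hasFDerivAt_fst (𝕜 := ℝ) (p := p)
  have hs := hasFDerivAt_snd (𝕜 := ℝ) (p := p)
  have h1 := (hasDerivAt_a hp).comp_hasFDerivAt p hf
  have h2 := (hasDerivAt_b hp).comp_hasFDerivAt p hf
  have h3 := (hasDerivAt_c hp).comp_hasFDerivAt p hf
  refine (((h1.sub (hs.mul h2)).sub ((hs.pow 2).mul h3))).congr_fderiv ?_
  ext <;> simp [K10] <;> ring

end Ten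

/-- All the data needed in ten dimensions. -/
theorem cert10 : CertK 10 Ten.K10 (1 / 45) Ten.G10 Ten.g where
  smooth := Ten.smooth
  deriv := fun _ hp => Ten.deriv hp
  eta_nonneg := fun _ _ hq hL => Ten.F_nonneg hq hL
  D_nonneg := by norm_num [Ten.K10]
  F1_le := fun _ _ hq hL => Ten.F1_le hq hL
  ker_nonneg := fun s w v hs hw hv => by
    rw [show ((10 : ℕ) : ℝ) - 1 = 9 by norm_num]
    exact (Ten.sym_nonneg hs hw hv).trans
      (add_le_add (kerLow_le_kerSharp hs.le hw hv) (kerLow_le_kerSharp hs.le hv hw))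
  chord := fun s c d hs hc hc1 hd hd1 => by
    rw [show ((10 : ℕ) : ℝ) - 1 = 9 by norm_num]
    exact chord_of_kerLow (by norm_num) hs hc hc1 hd hd1 (Ten.chord hs hc hc1 hd hd1)
  alpha_pos := by norm_num
  g_cont := Ten.g_cont
  g_nonneg := fun _ ht => Ten.g_nonneg ht
  g_mono := Ten.g_mono
  G_nonneg := Ten.G10_nonneg
  moment := Ten.moment10
  balance := Ten.balance10

end

end Vale.Agent.P219.Aff
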