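import Vale.Agent.P219.Aff.Eleven.Ker
import Vale.Agent.P219.Aff.Eleven.Uni
import Vale.Agent.P219.Aff.Eleven.Signs
import Vale.Agent.P219.Aff.Eleven.Chord
import Vale.Agent.P219.Aff.Slicing
import Vale.Agent.P219.Aff.Cert10

/-!
# The certificate in dimension eleven

The multiplier is quadratic in the far cosine with coefficients in powers of the distance. The
mixed term is bounded by `(x² + 6xy + y²) / (4 (x + y))` with `x = 1 - w²`, `y = 1 - v²`.
-/

open MeasureTheory Set Real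
open scoped ENNReal ContDiff RealInnerProductSpace

namespace Vale.Agent.P219.Aff

open Vale.Agent.P219 Vale.Agent.P219.Univ

noncomputable section

namespace Eleven

open Vale.Agent.P219.Aff.Nine

/-- The coefficient without the far cosine. -/
def a (q : ℝ) : ℝ := (1680 + 12201 * √q ^ 2 - 15460 * √q ^ 3 + 6345 * √q ^ 4) / (1148 * √q ^ 7)

/-- Its derivative. -/
def a' (q : ℝ) : ℝ :=
  (-11760 - 61005 * √q ^ 2 + 61840 * √q ^ 3 - 19035 * √q ^ 4) / (2296 * √q ^ 9)

/-- The coefficient of the far cosine. -/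
def b (q : ℝ) : ℝ := (-32130 + 37104 * √q - 5955 * √q ^ 2 - 2816 * √q ^ 3) / (1148 * √q ^ 7)

/-- Its derivative. -/
def b' (q : ℝ) : ℝ :=
  (224910 - 222624 * √q + 29775 * √q ^ 2 + 11264 * √q ^ 3) / (2296 * √q ^ 9)

/-- The coefficient of the square of the far cosine. -/
def c (q : ℝ) : ℝ := (10948 - 19760 * √q ^ 2 + 7859 * √q ^ 3) / (1148 * √q ^ 9)

/-- Its derivative. -/
def c' (q : ℝ) : ℝ := (-98532 + 138320 * √q ^ 2 - 47154 * √q ^ 3) / (2296 * √q ^ 11)

/-- The boundary weight. -/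
def g (t : ℝ) : ℝ :=
  (10080 * t + 44380 * t ^ 3 - 148416 * t ^ 4 + 108500 * t ^ 5 + 253248 * t ^ 6 - 427720 * t ^ 7 +
    173744 * t ^ 8) / 15120

theorem hasDerivAt_comp_sqrt {p : ℝ → ℝ} {p' q : ℝ} (hq : 0 < q) (h : HasDerivAt p p' √q) :
    HasDerivAt (fun x => p √x) (p' / (2 * √q)) q :=
  ((h.comp q (Real.hasDerivAt_sqrt hq.ne'))).congr_deriv (by ring)

theorem hasDerivAt_a {q : ℝ} (hq : 0 < q) : HasDerivAt a (a' q) q := by
  have hr : 0 < √q := Real.sqrt_pos.2 hq
  have h : HasDerivAt (fun x : ℝ => 1680 + 12201 * x ^ 2 - 15460 * x ^ 3 + 6345 * x ^ 4)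
      (12201 * (2 * √q) - 15460 * (3 * √q ^ 2) + 6345 * (4 * √q ^ 3)) √q :=
    (((((hasDerivAt_pow 2 √q).const_mul 12201).const_add 1680).sub
      ((hasDerivAt_pow 3 √q).const_mul 15460)).add
      ((hasDerivAt_pow 4 √q).const_mul 6345)).congr_deriv (by norm_num)
  refine (hasDerivAt_comp_sqrt hq
    (h.div ((hasDerivAt_pow 7 √q).const_mul (1148 : ℝ)) (by positivity))).congr_deriv ?_
  unfold a'; field_simp; ring

theorem hasDerivAt_b {q : ℝ} (hq : 0 < q) : HasDerivAt b (b' q) q := by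
  have hr : 0 < √q := Real.sqrt_pos.2 hq
  have h : HasDerivAt (fun x : ℝ => -32130 + 37104 * x - 5955 * x ^ 2 - 2816 * x ^ 3)
      (37104 - 5955 * (2 * √q) - 2816 * (3 * √q ^ 2)) √q :=
    (((((hasDerivAt_id √q).const_mul 37104).const_add (-32130)).sub
      ((hasDerivAt_pow 2 √q).const_mul 5955)).sub
      ((hasDerivAt_pow 3 √q).const_mul 2816)).congr_deriv (by norm_num)
  refine (hasDerivAt_comp_sqrt hq
    (h.div ((hasDerivAt_pow 7 √q).const_mul (1148 : ℝ)) (by positivity))).congr_deriv ?_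
  unfold b'; field_simp; ring

theorem hasDerivAt_c {q : ℝ} (hq : 0 < q) : HasDerivAt c (c' q) q := by
  have hr : 0 < √q := Real.sqrt_pos.2 hq
  have h : HasDerivAt (fun x : ℝ => 10948 - 19760 * x ^ 2 + 7859 * x ^ 3)
      (-(19760 * (2 * √q)) + 7859 * (3 * √q ^ 2)) √q :=
    ((((hasDerivAt_pow 2 √q).const_mul 19760).const_sub 10948).add
      ((hasDerivAt_pow 3 √q).const_mul 7859)).congr_deriv (by norm_num)
  refine (hasDerivAt_comp_sqrt hq
    (h.div ((hasDerivAt_pow 9 √q).const_mul (1148 : ℝ)) (by positivity))).congr_deriv ?_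
  unfold c'; field_simp; ring

/-- The multiplier. -/
def K11 : Kern where
  F q L := a q + L * b q + L ^ 2 * c q
  F1 q L := a' q + L * b' q + L ^ 2 * c' q
  F2 q L := b q + 2 * L * c q
  D := 4

/-- The numerator of the multiplier. -/
def N (s v : ℝ) : ℝ :=
  1680 + 12201 * s ^ 2 - 15460 * s ^ 3 + 6345 * s ^ 4 +
    v * (-32130 * s + 37104 * s ^ 2 - 5955 * s ^ 3 - 2816 * s ^ 4) +
    v ^ 2 * (10948 - 19760 * s ^ 2 + 7859 * s ^ 3)

/-- Its derivative in the cosine. -/
def P (s v : ℝ) : ℝ :=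
  -32130 * s + 37104 * s ^ 2 - 5955 * s ^ 3 - 2816 * s ^ 4 +
    2 * v * (10948 - 19760 * s ^ 2 + 7859 * s ^ 3)

/-- The numerator of the derivative along the ray. -/
def E (s v : ℝ) : ℝ :=
  -11760 - 61005 * s ^ 2 + 61840 * s ^ 3 - 19035 * s ^ 4 +
    v * (192780 * s - 185520 * s ^ 2 + 23820 * s ^ 3 + 8448 * s ^ 4) +
    v ^ 2 * (-76636 + 98800 * s ^ 2 - 31436 * s ^ 3)

/-- The kernel numerator without the mixed term. -/
def core (s w v : ℝ) : ℝ := 1148 * s ^ 7 + (1 - w ^ 2) * E s v + 10 * N s v * (1 - s * w)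

/-- The bound for the symmetrised kernel with the signs `i`, `j`. -/
def Kf (s w v i j : ℝ) : ℝ :=
  4 * ((1 - w ^ 2) + (1 - v ^ 2)) * (core s w v + core s v w) -
    ((1 - w ^ 2) ^ 2 + 6 * (1 - w ^ 2) * (1 - v ^ 2) + (1 - v ^ 2) ^ 2) *
      (i * P s v * w + j * P s w * v)

/-- The chord deficit, scaled. -/
def Cf (s w v i j : ℝ) : ℝ :=
  s ^ 3 * Kf s w v i j + 4 * ((1 - w ^ 2) + (1 - v ^ 2)) *
    (8 * w * v * (15120 * g w + 15120 * g v) - 120960 * s * w * v)

/-- The mixed term of the symmetrised kernel. -/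
def mixed (s w v : ℝ) : ℝ := √((1 - w ^ 2) * (1 - v ^ 2)) * (|P s v * w| + |P s w * v|)

theorem mixed_bound {w v T : ℝ} (hw : w ^ 2 ≤ 1) (hv : v ^ 2 ≤ 1) (hT : 0 ≤ T) :
    4 * ((1 - w ^ 2) + (1 - v ^ 2)) * (√((1 - w ^ 2) * (1 - v ^ 2)) * T) ≤
      ((1 - w ^ 2) ^ 2 + 6 * (1 - w ^ 2) * (1 - v ^ 2) + (1 - v ^ 2) ^ 2) * T := by
  rw [← mul_assoc]
  refine mul_le_mul_of_nonneg_right ?_ hT
  set r := √((1 - w ^ 2) * (1 - v ^ 2)) with hr
  have h2 : r ^ 2 = (1 - w ^ 2) * (1 - v ^ 2) :=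
    Real.sq_sqrt (mul_nonneg (by linarith) (by linarith))
  nlinarith [sq_nonneg ((1 - w ^ 2) + (1 - v ^ 2) - 2 * r)]

theorem kpp {s w v : ℝ} (hs : 0 ≤ s) (hw : |w| ≤ 1) (hv : |v| ≤ 1) : 0 ≤ Kf s w v 1 1 := by
  obtain ⟨w0, w1⟩ := abs_le.1 hw
  obtain ⟨v0, v1⟩ := abs_le.1 hv
  refine le_of_le_of_eq (kppL_nonneg (x := w) (y := v) (z := s) w0 w1 v0 v1 hs) ?_
  simp only [kppL, ev, Coef.val, List.headD_cons, List.tail_cons, Kf, core, E, N, P]
  push_cast; ring

theorem kpm {s w v : ℝ} (hs : 0 ≤ s) (hw : |w| ≤ 1) (hv : |v| ≤ 1) : 0 ≤ Kf s w v 1 (-1) := by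
  obtain ⟨w0, w1⟩ := abs_le.1 hw
  obtain ⟨v0, v1⟩ := abs_le.1 hv
  refine le_of_le_of_eq (kpmL_nonneg (x := w) (y := v) (z := s) w0 w1 v0 v1 hs) ?_
  simp only [kpmL, ev, Coef.val, List.headD_cons, List.tail_cons, Kf, core, E, N, P]
  push_cast; ring

theorem kmm {s w v : ℝ} (hs : 0 ≤ s) (hw : |w| ≤ 1) (hv : |v| ≤ 1) : 0 ≤ Kf s w v (-1) (-1) := by
  obtain ⟨w0, w1⟩ := abs_le.1 hw
  obtain ⟨v0, v1⟩ := abs_le.1 hv
  refine le_of_le_of_eq (kmmL_nonneg (x := w) (y := v) (z := s) w0 w1 v0 v1 hs) ?_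
  simp only [kmmL, ev, Coef.val, List.headD_cons, List.tail_cons, Kf, core, E, N, P]
  push_cast; ring

theorem cornerPP {s : ℝ} (hs : 0 ≤ s) : 0 ≤ core s 1 1 + core s 1 1 := by
  refine le_of_le_of_eq (cornPPL_nonneg (x := 0) (y := 0) (z := s) le_rfl zero_le_one le_rfl
    zero_le_one hs) ?_
  simp only [cornPPL, ev, Coef.val, List.headD_cons, List.tail_cons, core, E, N]
  push_cast; ring

theorem cornerMM {s : ℝ} (hs : 0 ≤ s) : 0 ≤ core s (-1) (-1) + core s (-1) (-1) := by
  refine le_of_le_of_eq (cornMML_nonneg (x := 0) (y := 0) (z := s) le_rfl zero_le_one le_rfl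
    zero_le_one hs) ?_
  simp only [cornMML, ev, Coef.val, List.headD_cons, List.tail_cons, core, E, N]
  push_cast; ring

theorem cornerPM {s : ℝ} (hs : 0 ≤ s) : 0 ≤ core s 1 (-1) + core s (-1) 1 := by
  refine le_of_le_of_eq (cornPML_nonneg (x := 0) (y := 0) (z := s) le_rfl zero_le_one le_rfl
    zero_le_one hs) ?_
  simp only [cornPML, ev, Coef.val, List.headD_cons, List.tail_cons, core, E, N]
  push_cast; ring

theorem sum_nonneg {s w v : ℝ} (hs : 0 ≤ s) (hw : |w| ≤ 1) (hv : |v| ≤ 1) :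
    0 ≤ core s w v + core s v w - mixed s w v := by
  have hw' : w ^ 2 ≤ 1 := (sq_le_one_iff_abs_le_one w).2 hw
  have hv' : v ^ 2 ≤ 1 := (sq_le_one_iff_abs_le_one v).2 hv
  rcases (show 0 ≤ (1 - w ^ 2) + (1 - v ^ 2) by linarith).eq_or_lt with h | h
  · have ew : w ^ 2 = 1 := by linarith
    have ev' : v ^ 2 = 1 := by linarith
    have h0 : mixed s w v = 0 := by simp [mixed, ew]
    rw [h0, sub_zero]
    have := cornerPM hs
    rcases sq_eq_one_iff.1 ew with rfl | rfl <;> rcases sq_eq_one_iff.1 ev' with rfl | rfl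
    · exact cornerPP hs
    · exact this
    · linarith
    · exact cornerMM hs
  · have hb := mixed_bound hw' hv' (show 0 ≤ |P s v * w| + |P s w * v| by positivity)
    have pp := kpp hs hw hv
    have pm := kpm hs hw hv
    have mp := kpm hs hv hw
    have mm := kmm hs hw hv
    refine nonneg_of_mul_nonneg_right (b := core s w v + core s v w - mixed s w v) ?_
      (show 0 < 4 * ((1 - w ^ 2) + (1 - v ^ 2)) by linarith)
    unfold mixed
    simp only [Kf] at pp pm mp mm
    rcases abs_choice (P s v * w) with e | e <;> rcases abs_choice (P s w * v) with e' | e' <;>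
      rw [e, e'] at hb ⊢ <;> nlinarith [pp, pm, mp, mm, hb]

theorem kerSharp_sum {s : ℝ} (hs : 0 < s) (w v : ℝ) :
    kerSharp 10 K11 s w v + kerSharp 10 K11 s v w =
      (core s w v + core s v w - mixed s w v) / (1148 * s ^ 7) := by
  have hF : ∀ x, |K11.F2 (s ^ 2) (s * x)| * s = |P s x| / (1148 * s ^ 7) := fun x => by
    have e : K11.F2 (s ^ 2) (s * x) * s = P s x / (1148 * s ^ 7) := by
      simp only [K11, b, c, P, Real.sqrt_sq hs.le]; field_simp
    have := congrArg abs e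
    rwa [abs_mul, abs_of_pos hs, abs_div,
      abs_of_pos (show (0 : ℝ) < 1148 * s ^ 7 by positivity)] at this
  have hsw : √((1 - v ^ 2) * (1 - w ^ 2)) = √((1 - w ^ 2) * (1 - v ^ 2)) := by rw [mul_comm]
  have hm : ∀ x y R : ℝ, |K11.F2 (s ^ 2) (s * x)| * (s * |y| * R) =
      R * (|P s x * y| / (1148 * s ^ 7)) := fun x y R => by
    calc |K11.F2 (s ^ 2) (s * x)| * (s * |y| * R)
        = |K11.F2 (s ^ 2) (s * x)| * s * (|y| * R) := by ring
      _ = _ := by rw [hF, abs_mul]; ring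
  simp only [kerSharp, hsw, hm, mixed]
  simp only [K11, a, a', b, b', c, c', core, E, N, Real.sqrt_sq hs.le]
  field_simp
  ring

theorem sign_region {s v : ℝ} (hs : 0 ≤ s) (hv : 0 ≤ v) (hv1 : v ≤ 1) (h : 0 < P s v) :
    s ≤ v ∨ (5 / 4 ≤ s ∧ s ≤ 2 ∧ v ≤ 1 / 8) := by
  by_contra hn
  rw [not_or] at hn
  have hsv : v < s := not_le.1 hn.1
  have hs0 : 0 < s := lt_of_le_of_lt hv hsv
  rcases le_total s (4 / 5) with h1 | h1
  · have hy1 : v / s ≤ 1 := (div_le_one hs0).2 hsv.le
    have hy := negRayL_nonneg (x := v / s) (y := 0) (z := s) (div_nonneg hv hs) hy1 le_rfl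
      zero_le_one hs h1
    have e : s * Coef.val negRayL [v / s, 0, s] = -P s (s * (v / s)) := by
      simp only [negRayL, ev, Coef.val, List.headD_cons, List.tail_cons, P]
      push_cast; ring
    rw [mul_div_cancel₀ _ hs0.ne'] at e
    have := mul_nonneg hs hy
    linarith
  · have e : Coef.val negPL [v, 0, s] = -P s v := by
      simp only [negPL, ev, Coef.val, List.headD_cons, List.tail_cons, P]
      push_cast; ring
    rcases le_total s (5 / 4) with h2 | h2
    · linarith [negPMidL_nonneg (x := v) (y := 0) (z := s) hv hv1 le_rfl zero_le_one h1 h2]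
    rcases le_total s 2 with h3 | h3
    · rcases le_total v (1 / 8) with h4 | h4
      · exact hn.2 ⟨h2, h3, h4⟩
      · linarith [negPIslL_nonneg (x := v) (y := 0) (z := s) h4 hv1 le_rfl zero_le_one h2 h3]
    · linarith [negPFarL_nonneg (x := v) (y := 0) (z := s) hv hv1 le_rfl zero_le_one h3]

theorem cpos {s c d j : ℝ} (hj : j = 1 ∨ j = -1) (hs : 0 < s) (hc : 0 < c) (hc1 : c ≤ 1)
    (hd : 0 < d) (hd1 : d ≤ 1) (h : 0 < P s d) : 0 ≤ Cf s c d 1 j := by
  rcases sign_region hs.le hd.le hd1 h with h1 | ⟨h1, h2, h3⟩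
  · have u0 : 0 ≤ s / d := by positivity
    have u1 : s / d ≤ 1 := (div_le_one hd).2 h1
    rcases le_total c d with h2 | h2
    · have x0 : 0 ≤ c / d := by positivity
      have x1 : c / d ≤ 1 := (div_le_one hd).2 h2
      have es : d * (s / d) = s := by field_simp
      have ec : d * (c / d) = c := by field_simp
      rcases hj with rfl | rfl
      · have k := mul_nonneg (pow_nonneg hd.le 3)
          (ppAboveL_nonneg (x := d) (y := c / d) (z := s / d) hd.le hd1 x0 x1 u0 u1)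
        have e : Cf (d * (s / d)) (d * (c / d)) d 1 1 =
            d ^ 3 * Coef.val ppAboveL [d, c / d, s / d] := by
          generalize c / d = y; generalize s / d = z
          simp only [ppAboveL, ev, Coef.val, List.headD_cons, List.tail_cons, Cf, Kf, core, E, N,
            P, g]
          push_cast; ring
        rw [es, ec] at e; linarith
      · have k := mul_nonneg (pow_nonneg hd.le 3)
          (pmAboveL_nonneg (x := d) (y := c / d) (z := s / d) hd.le hd1 x0 x1 u0 u1)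
        have e : Cf (d * (s / d)) (d * (c / d)) d 1 (-1) =
            d ^ 3 * Coef.val pmAboveL [d, c / d, s / d] := by
          generalize c / d = y; generalize s / d = z
          simp only [pmAboveL, ev, Coef.val, List.headD_cons, List.tail_cons, Cf, Kf, core, E, N,
            P, g]
          push_cast; ring
        rw [es, ec] at e; linarith
    · have x0 : 0 ≤ d / c := by positivity
      have x1 : d / c ≤ 1 := (div_le_one hc).2 h2
      have es : c * (d / c) * (s / d) = s := by field_simp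
      have ed : c * (d / c) = d := by field_simp
      have kk : (0 : ℝ) ≤ c ^ 3 * (d / c) := by positivity
      rcases hj with rfl | rfl
      · have k := mul_nonneg kk
          (ppBelowL_nonneg (x := c) (y := d / c) (z := s / d) hc.le hc1 x0 x1 u0 u1)
        have e : Cf (c * (d / c) * (s / d)) c (c * (d / c)) 1 1 =
            c ^ 3 * (d / c) * Coef.val ppBelowL [c, d / c, s / d] := by
          generalize d / c = y; generalize s / d = z
          simp only [ppBelowL, ev, Coef.val, List.headD_cons, List.tail_cons, Cf, Kf, core, E, N,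
            P, g]
          push_cast; ring
        rw [es, ed] at e; linarith
      · have k := mul_nonneg kk
          (pmBelowL_nonneg (x := c) (y := d / c) (z := s / d) hc.le hc1 x0 x1 u0 u1)
        have e : Cf (c * (d / c) * (s / d)) c (c * (d / c)) 1 (-1) =
            c ^ 3 * (d / c) * Coef.val pmBelowL [c, d / c, s / d] := by
          generalize d / c = y; generalize s / d = z
          simp only [pmBelowL, ev, Coef.val, List.headD_cons, List.tail_cons, Cf, Kf, core, E, N,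
            P, g]
          push_cast; ring
        rw [es, ed] at e; linarith
  · rcases hj with rfl | rfl
    · refine le_of_le_of_eq (ppIslandL_nonneg (x := c) (y := d) (z := s) hc.le hc1 hd.le h3 h1 h2) ?_
      simp only [ppIslandL, ev, Coef.val, List.headD_cons, List.tail_cons, Cf, Kf, core, E, N, P, g]
      push_cast; ring
    · refine le_of_le_of_eq (pmIslandL_nonneg (x := c) (y := d) (z := s) hc.le hc1 hd.le h3 h1 h2) ?_
      simp only [pmIslandL, ev, Coef.val, List.headD_cons, List.tail_cons, Cf, Kf, core, E, N, P, g]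
      push_cast; ring

theorem CS_eq (s w v : ℝ) : CS s (w + v) (w * v) = Cf s w v (-1) (-1) := by
  simp only [CS, CS0, CS1, CS2, CS3, Cf, Kf, core, E, N, P, g]
  ring

theorem cneg {s c d : ℝ} (hs : 0 < s) (hc : 0 < c) (hc1 : c ≤ 1) (hd : 0 < d) (hd1 : d ≤ 1) :
    0 ≤ Cf s c d (-1) (-1) := by
  rw [← CS_eq]
  set S := c + d with hSdef
  have hS : 0 < S := by linarith
  have hq : 4 * (c * d) ≤ S ^ 2 := by nlinarith [sq_nonneg (c - d)]
  rcases le_total S 1 with h | h
  · set t := (S ^ 2 - 4 * (c * d)) / S ^ 2 with ht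
    have t0 : 0 ≤ t := div_nonneg (by linarith) (sq_nonneg S)
    have t1 : t ≤ 1 := (div_le_one (by positivity)).2 (by nlinarith [mul_pos hc hd])
    have ep : (S ^ 2 - S ^ 2 * t) / 4 = c * d := by rw [ht]; field_simp; ring
    rcases le_total s (2 * S) with hu | hu
    · have h1 := lowL_nonneg (x := S) (y := t) (z := s / S) hS.le h t0 t1
        (div_nonneg hs.le hS.le) ((div_le_iff₀ hS).2 hu)
      have h2 := CS_low S t (s / S)
      rw [show S * (s / S) = s by field_simp, ep] at h2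
      have := mul_nonneg (pow_nonneg hS.le 3) h1
      linarith
    rcases le_total s 2 with hs2 | hs2
    · have h1 := farL_nonneg (x := S / s) (y := t) (z := s) (div_nonneg hS.le hs.le)
        ((div_le_iff₀ hs).2 (by linarith)) t0 t1 hs.le hs2
      have h2 := CS_far (S / s) t s
      rw [show s * (S / s) = S by field_simp, ep] at h2
      have := mul_nonneg (pow_nonneg hs.le 3) h1
      linarith
    · have h1 := bigL_nonneg (x := S) (y := t) (z := s) hS.le h t0 t1 hs2
      have h2 := CS_big S t s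
      rw [ep] at h2
      linarith
  · have hS2 : S ≤ 2 := by linarith
    have hp : S - 1 ≤ c * d := by
      nlinarith [mul_nonneg (sub_nonneg.2 hc1) (sub_nonneg.2 hd1)]
    set t := (S ^ 2 - 4 * (c * d)) / (2 - S) ^ 2 with ht
    have t0 : 0 ≤ t := div_nonneg (by linarith) (sq_nonneg _)
    have t1 : t ≤ 1 := by
      rcases hS2.eq_or_lt with h2 | h2
      · rw [ht, h2]; norm_num
      · rw [ht, div_le_one (pow_pos (by linarith) 2)]
        linarith
    have ep : (S ^ 2 - (2 - S) ^ 2 * t) / 4 = c * d := by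
      rcases hS2.eq_or_lt with h2 | h2
      · rw [ht, h2]
        have : c * d = 1 := le_antisymm (mul_le_one₀ hc1 hd.le hd1) (by linarith)
        rw [this]; norm_num
      · have : (2 : ℝ) - S ≠ 0 := by linarith
        rw [ht]; field_simp; ring
    have h1 := highL_nonneg (x := S) (y := t) (z := s / S) h hS2 t0 t1 (div_nonneg hs.le hS.le)
    have h2 := CS_high S t (s / S)
    rw [show S * (s / S) = s by field_simp, ep] at h2
    have := mul_nonneg (show 0 ≤ 2 - S by linarith) h1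
    linarith

theorem chord_key {s c d : ℝ} (hs : 0 < s) (hc : 0 < c) (hc1 : c ≤ 1) (hd : 0 < d) (hd1 : d ≤ 1) :
    0 ≤ s ^ 3 * (core s c d + core s d c - mixed s c d) +
      (8 * c * d * (15120 * g c + 15120 * g d) - 120960 * s * c * d) := by
  have hc2 : c ^ 2 ≤ 1 := pow_le_one₀ hc.le hc1
  have hd2 : d ^ 2 ≤ 1 := pow_le_one₀ hd.le hd1
  rcases (show 0 ≤ (1 - c ^ 2) + (1 - d ^ 2) by linarith).eq_or_lt with h | h
  · have ec : c = 1 := by nlinarith
    have ed : d = 1 := by nlinarith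
    subst ec ed
    refine le_of_le_of_eq (cornChordL_nonneg (x := 0) (y := 0) (z := s) le_rfl zero_le_one le_rfl
      zero_le_one hs.le) ?_
    simp only [cornChordL, ev, Coef.val, List.headD_cons, List.tail_cons, mixed, core, E, N, g]
    norm_num
    ring
  · have hb := mul_le_mul_of_nonneg_left
      (mixed_bound hc2 hd2 (show 0 ≤ |P s d * c| + |P s c * d| by positivity)) (pow_nonneg hs.le 3)
    refine nonneg_of_mul_nonneg_right (b := s ^ 3 * (core s c d + core s d c - mixed s c d) +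
      (8 * c * d * (15120 * g c + 15120 * g d) - 120960 * s * c * d)) ?_
      (show 0 < 4 * ((1 - c ^ 2) + (1 - d ^ 2)) by linarith)
    unfold mixed
    rw [abs_mul, abs_mul, abs_of_pos hc, abs_of_pos hd] at hb ⊢
    rcases lt_or_ge 0 (P s d) with hP | hP <;> rcases lt_or_ge 0 (P s c) with hQ | hQ
    · have := cpos (Or.inl rfl) hs hc hc1 hd hd1 hP
      rw [abs_of_pos hP, abs_of_pos hQ] at hb ⊢
      simp only [Cf, Kf] at this
      linarith
    · have := cpos (Or.inr rfl) hs hc hc1 hd hd1 hP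
      rw [abs_of_pos hP, abs_of_nonpos hQ] at hb ⊢
      simp only [Cf, Kf] at this
      linarith
    · have := cpos (Or.inr rfl) hs hd hd1 hc hc1 hQ
      rw [abs_of_nonpos hP, abs_of_pos hQ] at hb ⊢
      simp only [Cf, Kf] at this
      linarith
    · have := cneg hs hc hc1 hd hd1
      rw [abs_of_nonpos hP, abs_of_nonpos hQ] at hb ⊢
      simp only [Cf, Kf] at this
      linarith

theorem chord {s c d : ℝ} (hs : 0 < s) (hc : 0 < c) (hc1 : c ≤ 1) (hd : 0 < d) (hd1 : d ≤ 1) :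
    s ≤ 41 / 2160 * s ^ 10 * (kerSharp 10 K11 s c d + kerSharp 10 K11 s d c) / (2 * (c * d)) +
      g c + g d := by
  have e : 41 / 2160 * s ^ 10 * (kerSharp 10 K11 s c d + kerSharp 10 K11 s d c) / (2 * (c * d)) +
      g c + g d - s = (s ^ 3 * (core s c d + core s d c - mixed s c d) +
        (8 * c * d * (15120 * g c + 15120 * g d) - 120960 * s * c * d)) / (120960 * (c * d)) := by
    rw [kerSharp_sum hs]
    field_simp
    ring
  have := div_nonneg (chord_key hs hc hc1 hd hd1) (show 0 ≤ 120960 * (c * d) by positivity)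
  linarith

theorem exists_cos {q L : ℝ} (hq : 0 < q) (hL : L ^ 2 ≤ q) :
    ∃ s v : ℝ, 0 < s ∧ |v| ≤ 1 ∧ q = s ^ 2 ∧ L = s * v := Ten.exists_cos hq hL

theorem F_nonneg {q L : ℝ} (hq : 0 < q) (hL : L ^ 2 ≤ q) : 0 ≤ K11.F q L := by
  obtain ⟨s, v, hs, hv, rfl, rfl⟩ := exists_cos hq hL
  obtain ⟨v0, v1⟩ := abs_le.1 hv
  have h : 0 ≤ N s v := by
    refine le_of_le_of_eq (etaL_nonneg (x := v) (y := 0) (z := s) v0 v1 le_rfl zero_le_one hs.le) ?_
    simp only [etaL, ev, Coef.val, List.headD_cons, List.tail_cons, N]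
    push_cast; ring
  have e : K11.F (s ^ 2) (s * v) = N s v / (1148 * s ^ 7) := by
    simp only [K11, a, b, c, N, Real.sqrt_sq hs.le]; field_simp
  rw [e]
  positivity

theorem F1_le {q L : ℝ} (hq : 0 < q) (hL : L ^ 2 ≤ q) : K11.F1 q L ≤ 4 := by
  obtain ⟨s, v, hs, hv, rfl, rfl⟩ := exists_cos hq hL
  obtain ⟨v0, v1⟩ := abs_le.1 hv
  have h := slackL_nonneg (x := v) (y := 0) (z := s) v0 v1 le_rfl zero_le_one hs.le
  have e : 4 - K11.F1 (s ^ 2) (s * v) = Coef.val slackL [v, 0, s] / (2296 * s ^ 9) := by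
    simp only [K11, a', b', c', Real.sqrt_sq hs.le, slackL, ev, Coef.val, List.headD_cons,
      List.tail_cons]
    push_cast; field_simp; ring
  have := div_nonneg h (show 0 ≤ 2296 * s ^ 9 by positivity)
  linarith

theorem g_cont : ContinuousOn g (Icc 0 1) := by
  unfold g; fun_prop

theorem g_mono : MonotoneOn g (Icc 0 1) := by
  refine monotoneOn_of_hasDerivWithinAt_nonneg (convex_Icc 0 1) g_cont
    (f' := fun t => Coef.val gmonoL [0, 0, t] / 15120) (fun t _ => ?_) (fun t ht => ?_)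
  · refine ((((((((hasDerivAt_id t).const_mul (10080 : ℝ)).add
      ((hasDerivAt_pow 3 t).const_mul (44380 : ℝ))).sub
      ((hasDerivAt_pow 4 t).const_mul (148416 : ℝ))).add
      ((hasDerivAt_pow 5 t).const_mul (108500 : ℝ))).add
      ((hasDerivAt_pow 6 t).const_mul (253248 : ℝ))).sub
      ((hasDerivAt_pow 7 t).const_mul (427720 : ℝ))).add
      ((hasDerivAt_pow 8 t).const_mul (173744 : ℝ))).div_const 15120 |>.congr_deriv ?_
      |>.hasDerivWithinAt
    simp only [gmonoL, ev, Coef.val, List.headD_cons, List.tail_cons]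
    push_cast
    ring
  · rw [interior_Icc] at ht
    exact div_nonneg (gmonoL_nonneg (x := 0) (y := 0) (z := t) le_rfl zero_le_one le_rfl
      zero_le_one ht.1.le ht.2.le) (by norm_num)

theorem g_nonneg {t : ℝ} (ht : t ∈ Icc (0 : ℝ) 1) : 0 ≤ g t := by
  have := g_mono (left_mem_Icc.2 zero_le_one) ht ht.1
  norm_num [g] at this ⊢
  linarith

theorem g_integral :
    ∫ t in (0 : ℝ)..1, g t * t * Real.sqrt (1 - t ^ 2) ^ 8 = 13672 / 467775 := by
  rw [intervalIntegral.integral_eq_sub_of_hasDerivAt (f := fun x : ℝ =>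
      (2 / 9 : ℝ) * x ^ 3 +
      (29 / 540 : ℝ) * x ^ 5 +
      (-1546 / 945 : ℝ) * x ^ 6 +
      (-61 / 756 : ℝ) * x ^ 7 +
      (4411 / 630 : ℝ) * x ^ 8 +
      (-883 / 189 : ℝ) * x ^ 9 +
      (-108109 / 9450 : ℝ) * x ^ 10 +
      (18287 / 1386 : ℝ) * x ^ 11 +
      (22159 / 2835 : ℝ) * x ^ 12 +
      (-11369 / 756 : ℝ) * x ^ 13 +
      (-59 / 105 : ℝ) * x ^ 14 +
      (30323 / 3780 : ℝ) * x ^ 15 +
      (-493 / 270 : ℝ) * x ^ 16 +
      (-629 / 378 : ℝ) * x ^ 17 +
      (10859 / 17010 : ℝ) * x ^ 18)]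
  · norm_num
  · intro x hx
    rw [uIcc_of_le zero_le_one] at hx
    obtain ⟨hx0, hx1⟩ := hx
    refine ((((((((((((((((hasDerivAt_pow 3 x).const_mul (2 / 9 : ℝ)).add
        ((hasDerivAt_pow 5 x).const_mul (29 / 540 : ℝ))).add
        ((hasDerivAt_pow 6 x).const_mul (-1546 / 945 : ℝ))).add
        ((hasDerivAt_pow 7 x).const_mul (-61 / 756 : ℝ))).add
        ((hasDerivAt_pow 8 x).const_mul (4411 / 630 : ℝ))).add
        ((hasDerivAt_pow 9 x).const_mul (-883 / 189 : ℝ))).add
        ((hasDerivAt_pow 10 x).const_mul (-108109 / 9450 : ℝ))).add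
        ((hasDerivAt_pow 11 x).const_mul (18287 / 1386 : ℝ))).add
        ((hasDerivAt_pow 12 x).const_mul (22159 / 2835 : ℝ))).add
        ((hasDerivAt_pow 13 x).const_mul (-11369 / 756 : ℝ))).add
        ((hasDerivAt_pow 14 x).const_mul (-59 / 105 : ℝ))).add
        ((hasDerivAt_pow 15 x).const_mul (30323 / 3780 : ℝ))).add
        ((hasDerivAt_pow 16 x).const_mul (-493 / 270 : ℝ))).add
        ((hasDerivAt_pow 17 x).const_mul (-629 / 378 : ℝ))).add
        ((hasDerivAt_pow 18 x).const_mul (10859 / 17010 : ℝ))).congr_deriv ?_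
    have h8 : Real.sqrt (1 - x ^ 2) ^ 8 = (1 - x ^ 2) ^ 4 := by
      rw [show (8 : ℕ) = 2 * 4 from rfl, pow_mul, Real.sq_sqrt (by nlinarith)]
    rw [h8]
    unfold g
    push_cast
    ring
  · refine ContinuousOn.intervalIntegrable ?_
    rw [uIcc_of_le zero_le_one]
    exact (g_cont.mul continuousOn_id).mul (by fun_prop)

theorem omega_eleven : omega 11 = 64 * π ^ 5 / 10395 := by
  rw [omega_eq, show ((11 : ℕ) : ℝ) / 2 + 1 = (((((1 / 2 + 1) + 1) + 1) + 1) + 1) + 1 by norm_num,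
    Real.Gamma_add_one (by norm_num), Real.Gamma_add_one (by norm_num),
    Real.Gamma_add_one (by norm_num), Real.Gamma_add_one (by norm_num),
    Real.Gamma_add_one (by norm_num), Real.Gamma_add_one (by norm_num), Real.Gamma_one_half_eq,
    show √π ^ 11 = (√π ^ 2) ^ 5 * √π by ring, Real.sq_sqrt Real.pi_pos.le]
  have := Real.sqrt_pos.2 Real.pi_pos
  field_simp
  norm_num

/-- The half-sphere moment of the boundary weight in eleven dimensions. -/
def G11 : ℝ := 10 * omega 10 * (13672 / 467775)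

theorem moment11 (e : Space 11) (he : ‖e‖ = 1) :
    ∫⁻ v, ENNReal.ofReal
      (if 0 < inner ℝ (v : Space 11) e then g (inner ℝ (v : Space 11) e) * inner ℝ (v : Space 11) e
        else 0) ∂Six.dirs 11 ≤ ENNReal.ofReal G11 := by
  have h := half_sphere (n := 11) (by norm_num) (h := fun t => g t * t)
    (g_cont.mul continuousOn_id) (fun t ht => mul_nonneg (g_nonneg ht) ht.1) e he
  rw [g_integral, show ((11 : ℕ) : ℝ) - 1 = 10 by norm_num] at h
  exact h

theorem smooth :
    ContDiffOn ℝ ∞ (fun p : ℝ × ℝ => K11.F p.1 p.2) (Ioi 0 ×ˢ univ) := by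
  have hr : ContDiffOn ℝ ∞ (fun p : ℝ × ℝ => √p.1) (Ioi 0 ×ˢ univ) :=
    contDiffOn_fst.sqrt fun p hp => ne_of_gt (show (0 : ℝ) < p.1 from hp.1)
  have h7 : ∀ p ∈ (Ioi 0 ×ˢ univ : Set (ℝ × ℝ)), (1148 : ℝ) * √p.1 ^ 7 ≠ 0 := fun p hp => by
    have := Real.sqrt_pos.2 (show (0 : ℝ) < p.1 from hp.1)
    positivity
  have h9 : ∀ p ∈ (Ioi 0 ×ˢ univ : Set (ℝ × ℝ)), (1148 : ℝ) * √p.1 ^ 9 ≠ 0 := fun p hp => by
    have := Real.sqrt_pos.2 (show (0 : ℝ) < p.1 from hp.1)
    positivity
  have ha : ContDiffOn ℝ ∞ (fun p : ℝ × ℝ => a p.1) (Ioi 0 ×ˢ univ) :=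
    (((contDiffOn_const.add (contDiffOn_const.mul (hr.pow 2))).sub
      (contDiffOn_const.mul (hr.pow 3))).add (contDiffOn_const.mul (hr.pow 4))).div
      (contDiffOn_const.mul (hr.pow 7)) h7
  have hb : ContDiffOn ℝ ∞ (fun p : ℝ × ℝ => b p.1) (Ioi 0 ×ˢ univ) :=
    (((contDiffOn_const.add (contDiffOn_const.mul hr)).sub
      (contDiffOn_const.mul (hr.pow 2))).sub (contDiffOn_const.mul (hr.pow 3))).div
      (contDiffOn_const.mul (hr.pow 7)) h7
  have hc : ContDiffOn ℝ ∞ (fun p : ℝ × ℝ => c p.1) (Ioi 0 ×ˢ univ) :=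
    ((contDiffOn_const.sub (contDiffOn_const.mul (hr.pow 2))).add
      (contDiffOn_const.mul (hr.pow 3))).div (contDiffOn_const.mul (hr.pow 9)) h9
  exact (ha.add (contDiffOn_snd.mul hb)).add ((contDiffOn_snd.pow 2).mul hc)

theorem deriv {p : ℝ × ℝ} (hp : 0 < p.1) : HasFDerivAt (fun p : ℝ × ℝ => K11.F p.1 p.2)
    (K11.F1 p.1 p.2 • ContinuousLinearMap.fst ℝ ℝ ℝ +
      K11.F2 p.1 p.2 • ContinuousLinearMap.snd ℝ ℝ ℝ) p := by
  have hf := hasFDerivAt_fst (𝕜 := ℝ) (p := p)
  have hs := hasFDerivAt_snd (𝕜 := ℝ) (p := p)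
  have h1 := (hasDerivAt_a hp).comp_hasFDerivAt p hf
  have h2 := (hasDerivAt_b hp).comp_hasFDerivAt p hf
  have h3 := (hasDerivAt_c hp).comp_hasFDerivAt p hf
  refine (((h1.add (hs.mul h2)).add ((hs.pow 2).mul h3))).congr_fderiv ?_
  ext <;> simp [K11] <;> ring

theorem balance11 : 41 / 2160 * (((11 : ℕ) : ℝ) * omega 11) + 2 * G11 = omega 11 := by
  unfold G11
  rw [Ten.omega_ten, omega_eleven]
  push_cast
  ring

end Eleven

/-- All the data needed in eleven dimensions. -/
theorem cert11 : CertK 11 Eleven.K11 (41 / 2160) Eleven.G11 Eleven.g where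
  smooth := Eleven.smooth
  deriv := fun _ hp => Eleven.deriv hp
  eta_nonneg := fun _ _ hq hL => Eleven.F_nonneg hq hL
  D_nonneg := by norm_num [Eleven.K11]
  F1_le := fun _ _ hq hL => Eleven.F1_le hq hL
  ker_nonneg := fun s w v hs hw hv => by
    rw [show ((11 : ℕ) : ℝ) - 1 = 10 by norm_num, Eleven.kerSharp_sum hs]
    exact div_nonneg (Eleven.sum_nonneg hs.le hw hv) (by positivity)
  chord := fun s c d hs hc hc1 hd hd1 => by
    rw [show ((11 : ℕ) : ℝ) - 1 = 10 by norm_num]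
    exact Eleven.chord hs hc hc1 hd hd1
  alpha_pos := by norm_num
  g_cont := Eleven.g_cont
  g_nonneg := fun _ ht => Eleven.g_nonneg ht
  g_mono := Eleven.g_mono
  G_nonneg := by
    have := omega_nonneg 10
    unfold Eleven.G11
    positivity
  moment := Eleven.moment11
  balance := Eleven.balance11

end

end Vale.Agent.P219.Aff
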