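import Mathlib
import Vale.Agent.P219.Aff.Radial
import Vale.Agent.P219.Aff.Slicing

/-!
# The certificate in dimension five
-/

open MeasureTheory Set
open scoped ContDiff

namespace Vale.Agent.P219.Aff

noncomputable section

/-- The leading profile. -/
def a5 (r : ℝ) : ℝ := (160 + 73 * r + 11 * r ^ 2) / (87 * r * (2 + r) ^ 2)
/-- Its derivative. -/
def a5' (r : ℝ) : ℝ :=
  ((73 + 22 * r) * r * (2 + r) - (160 + 73 * r + 11 * r ^ 2) * (2 + 3 * r)) /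
    (87 * r ^ 2 * (2 + r) ^ 3)
/-- The profile of the far cosine. -/
def b5 (r : ℝ) : ℝ := 1 / (3 * r * (2 + r) ^ 2)
/-- Its derivative. -/
def b5' (r : ℝ) : ℝ := -(2 + 3 * r) / (3 * r ^ 2 * (2 + r) ^ 3)
/-- The profile. -/
def P5 : Profile := ofRadial a5 a5' b5 b5'
/-- The numerator of the boundary weight. -/
def G5n (t : ℝ) : ℝ := 480 * t + 480 * t ^ 2 + 125 * t ^ 3 - 49 * t ^ 4
/-- The boundary weight. -/
def g5 (t : ℝ) : ℝ := G5n t / (720 * (1 + t))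

/-- The numerator of the lower bound for the kernel, with `a` for the absolute value of `w`. -/
def num5 (s w a v : ℝ) : ℝ :=
  87 * s * (2 + s) ^ 3 +
    ((73 + 22 * s) * s * (2 + s) - (160 + 73 * s + 11 * s ^ 2) * (2 + 3 * s)) * (1 - w ^ 2) +
    4 * (160 + 73 * s + 11 * s ^ 2) * (2 + s) * (1 - s * w) -
    a * (2 - w ^ 2) / 2 * 29 * s * (2 + s) +
    v * (29 * s * (2 * s * (1 - w ^ 2) - 4 * (2 + s) * (1 - s * w)))

theorem ker5_pp {s t : ℝ} (hs : 0 ≤ s) (ht : 0 ≤ t) (ht1 : t ≤ 1) :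
    0 ≤ num5 s t t (1) := by
  obtain ⟨u, hu, rfl⟩ : ∃ u : ℝ, 0 ≤ u ∧ t = 1 - u := ⟨1 - t, by linarith, by ring⟩
  have h : num5 s (1 - u) (1 - u) (1) =
      1 * ((1 - u) ^ 0 * u ^ 3) * (960 + 1208 * s + 1242 * s ^ 2 + 555 * s ^ 3 + 87 * s ^ 4) +
      3 * ((1 - u) ^ 1 * u ^ 2) * (960 + 762 * s + (2705 / 3) * s ^ 2 + 467 * s ^ 3 + (217 / 3) * s ^ 4) +
      3 * ((1 - u) ^ 2 * u ^ 1) * ((3200 / 3) + 476 * s + (1750 / 3) * s ^ 2 + (1148 / 3) * s ^ 3 + (173 / 3) * s ^ 4) +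
      1 * ((1 - u) ^ 3 * u ^ 0) * (1280 + 379 * s + (603 / 2) * s ^ 2 + 302 * s ^ 3 + 43 * s ^ 4) := by
    unfold num5; ring
  rw [h]; positivity

theorem ker5_pm {s t : ℝ} (hs : 0 ≤ s) (ht : 0 ≤ t) (ht1 : t ≤ 1) :
    0 ≤ num5 s t t (-1) := by
  obtain ⟨u, hu, rfl⟩ : ∃ u : ℝ, 0 ≤ u ∧ t = 1 - u := ⟨1 - t, by linarith, by ring⟩
  have h : num5 s (1 - u) (1 - u) (-1) =
      1 * ((1 - u) ^ 0 * u ^ 3) * (960 + 1672 * s + 1358 * s ^ 2 + 555 * s ^ 3 + 87 * s ^ 4) +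
      3 * ((1 - u) ^ 1 * u ^ 2) * (960 + 1226 * s + 863 * s ^ 2 + (1169 / 3) * s ^ 3 + (217 / 3) * s ^ 4) +
      3 * ((1 - u) ^ 2 * u ^ 1) * ((3200 / 3) + 940 * s + (1286 / 3) * s ^ 2 + 228 * s ^ 3 + (173 / 3) * s ^ 4) +
      1 * ((1 - u) ^ 3 * u ^ 0) * (1280 + 843 * s + (139 / 2) * s ^ 2 + 70 * s ^ 3 + 43 * s ^ 4) := by
    unfold num5; ring
  rw [h]; positivity

theorem ker5_mp {s t : ℝ} (hs : 0 ≤ s) (ht : 0 ≤ t) (ht1 : t ≤ 1) :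
    0 ≤ num5 s (-t) t (1) := by
  obtain ⟨u, hu, rfl⟩ : ∃ u : ℝ, 0 ≤ u ∧ t = 1 - u := ⟨1 - t, by linarith, by ring⟩
  have h : num5 s (-(1 - u)) (1 - u) (1) =
      1 * ((1 - u) ^ 0 * u ^ 3) * (960 + 1208 * s + 1242 * s ^ 2 + 555 * s ^ 3 + 87 * s ^ 4) +
      3 * ((1 - u) ^ 1 * u ^ 2) * (960 + (4846 / 3) * s + 1563 * s ^ 2 + 643 * s ^ 3 + (305 / 3) * s ^ 4) +
      3 * ((1 - u) ^ 2 * u ^ 1) * ((3200 / 3) + (6548 / 3) * s + 1906 * s ^ 2 + (2204 / 3) * s ^ 3 + (349 / 3) * s ^ 4) +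
      1 * ((1 - u) ^ 3 * u ^ 0) * (1280 + 2939 * s + (4571 / 2) * s ^ 2 + 830 * s ^ 3 + 131 * s ^ 4) := by
    unfold num5; ring
  rw [h]; positivity

theorem ker5_mm {s t : ℝ} (hs : 0 ≤ s) (ht : 0 ≤ t) (ht1 : t ≤ 1) :
    0 ≤ num5 s (-t) t (-1) := by
  obtain ⟨u, hu, rfl⟩ : ∃ u : ℝ, 0 ≤ u ∧ t = 1 - u := ⟨1 - t, by linarith, by ring⟩
  have h : num5 s (-(1 - u)) (1 - u) (-1) =
      1 * ((1 - u) ^ 0 * u ^ 3) * (960 + 1672 * s + 1358 * s ^ 2 + 555 * s ^ 3 + 87 * s ^ 4) +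
      3 * ((1 - u) ^ 1 * u ^ 2) * (960 + (6238 / 3) * s + (5501 / 3) * s ^ 2 + (2161 / 3) * s ^ 3 + (305 / 3) * s ^ 4) +
      3 * ((1 - u) ^ 2 * u ^ 1) * ((3200 / 3) + (7940 / 3) * s + 2370 * s ^ 2 + (2668 / 3) * s ^ 3 + (349 / 3) * s ^ 4) +
      1 * ((1 - u) ^ 3 * u ^ 0) * (1280 + 3403 * s + (5963 / 2) * s ^ 2 + 1062 * s ^ 3 + 131 * s ^ 4) := by
    unfold num5; ring
  rw [h]; positivity

theorem kerMin5 {s : ℝ} (hs : 0 < s) (w v : ℝ) :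
    kerMin 4 P5 s w v = (num5 s w |w| v + 29 * s * (2 + s) * |w| * v ^ 2 / 2) /
      (87 * s * (2 + s) ^ 3) := by
  have : 0 < 2 + s := by linarith
  rw [P5, kerMin_radial hs, worst, num5]
  simp only [a5, a5', b5, b5']
  field_simp
  ring

theorem ker5_nonneg {s w v : ℝ} (hs : 0 < s) (hw : |w| ≤ 1) (hv : |v| ≤ 1) :
    0 ≤ kerMin 4 P5 s w v := by
  rw [kerMin5 hs]
  refine div_nonneg (add_nonneg ?_ (by positivity)) (by positivity)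
  obtain ⟨hv1, hv2⟩ := abs_le.1 hv
  have key : 0 ≤ num5 s w |w| 1 ∧ 0 ≤ num5 s w |w| (-1) := by
    rcases le_total 0 w with h | h
    · rw [abs_of_nonneg h] at hw ⊢
      exact ⟨ker5_pp hs.le h hw, ker5_pm hs.le h hw⟩
    · rw [abs_of_nonpos h] at hw ⊢
      have h1 := ker5_mp hs.le (neg_nonneg.2 h) hw
      have h2 := ker5_mm hs.le (neg_nonneg.2 h) hw
      rw [neg_neg] at h1 h2
      exact ⟨h1, h2⟩
  have e : num5 s w |w| v =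
      (1 + v) / 2 * num5 s w |w| 1 + (1 - v) / 2 * num5 s w |w| (-1) := by
    unfold num5; ring
  rw [e]
  exact add_nonneg (mul_nonneg (by linarith) key.1) (mul_nonneg (by linarith) key.2)

/-- The chord inequality after clearing denominators, in `σ = c + d` and `p = c * d`. -/
def chord5F (s σ p : ℝ) : ℝ :=
  (-1570 * σ * s ^ 4 - 1311 * σ * s ^ 5 - 380 * σ * s ^ 6 - 44 * σ * s ^ 7 + 320 * σ ^ 2 * s ^ 3 + 480 * σ ^ 2 * s ^ 4 + 124 * σ ^ 2 * s ^ 5 + 11 * σ ^ 2 * s ^ 6 + 29 * σ ^ 3 * s ^ 4 + (29 / 2) * σ ^ 3 * s ^ 5 + 1920 * s ^ 3 + 2880 * s ^ 4 + 2600 * s ^ 5 + 1110 * s ^ 6 + 174 * s ^ 7) +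
    (-58 * σ * s ^ 4 - 87 * σ * s ^ 5 - 640 * s ^ 3 - 960 * s ^ 4 + 216 * s ^ 5 + 210 * s ^ 6) * p +
    4 * (2 + s) ^ 3 * p * (-49 * (σ ^ 3 - 3 * σ * p) + 174 * (σ ^ 2 - 2 * p) + 306 * σ + 348 -
      174 * (2 + σ) / (1 + σ + p)) - 2880 * s * (2 + s) ^ 3 * p

theorem chord5_zero {s c : ℝ} (hs : 0 ≤ s) (hc : 0 ≤ c) (hc1 : c ≤ 1) : 0 ≤ chord5F s c 0 := by
  have h3 : 0 ≤ s ^ 3 * (1920 + 320 * c ^ 2) := mul_nonneg (pow_nonneg hs 3) (by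
    nlinarith [mul_nonneg hc hc, mul_nonneg (mul_nonneg hc hc) hc])
  have h4 : 0 ≤ s ^ 4 * (2880 - 1570 * c + 480 * c ^ 2 + 29 * c ^ 3) := mul_nonneg (pow_nonneg hs 4) (by
    nlinarith [mul_nonneg hc hc, mul_nonneg (mul_nonneg hc hc) hc])
  have h5 : 0 ≤ s ^ 5 * (2600 - 1311 * c + 124 * c ^ 2 + (29 / 2) * c ^ 3) := mul_nonneg (pow_nonneg hs 5) (by
    nlinarith [mul_nonneg hc hc, mul_nonneg (mul_nonneg hc hc) hc])
  have h6 : 0 ≤ s ^ 6 * (1110 - 380 * c + 11 * c ^ 2) := mul_nonneg (pow_nonneg hs 6) (by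
    nlinarith [mul_nonneg hc hc, mul_nonneg (mul_nonneg hc hc) hc])
  have h7 : 0 ≤ s ^ 7 * (174 - 44 * c) := mul_nonneg (pow_nonneg hs 7) (by
    nlinarith [mul_nonneg hc hc, mul_nonneg (mul_nonneg hc hc) hc])
  have e : chord5F s c 0 = s ^ 3 * (1920 + 320 * c ^ 2) + s ^ 4 * (2880 - 1570 * c + 480 * c ^ 2 + 29 * c ^ 3) + s ^ 5 * (2600 - 1311 * c + 124 * c ^ 2 + (29 / 2) * c ^ 3) + s ^ 6 * (1110 - 380 * c + 11 * c ^ 2) + s ^ 7 * (174 - 44 * c) := by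
    unfold chord5F; ring
  linarith

theorem chord5_diag {s t : ℝ} (hs : 0 ≤ s) (ht : 0 ≤ t) (ht1 : t ≤ 1) :
    0 ≤ chord5F s (2 * t) (t ^ 2) := by
  have h0 : 0 ≤ s ^ 0 * (7680 * t + 7680 * t ^ 2 + 2000 * t ^ 3 - 784 * t ^ 4) := mul_nonneg (pow_nonneg hs 0) (by
    nlinarith [mul_nonneg ht ht, mul_nonneg (mul_nonneg ht ht) ht, mul_nonneg (mul_nonneg ht ht) (sub_nonneg.2 ht1), mul_nonneg (mul_nonneg (mul_nonneg ht ht) ht) (sub_nonneg.2 ht1), mul_nonneg ht (sub_nonneg.2 ht1)])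
  have h1 : 0 ≤ s ^ 1 * (1920 + 13440 * t + 13520 * t ^ 2 + 2216 * t ^ 3 - 1176 * t ^ 4) := mul_nonneg (pow_nonneg hs 1) (by
    nlinarith [mul_nonneg ht ht, mul_nonneg (mul_nonneg ht ht) ht, mul_nonneg (mul_nonneg ht ht) (sub_nonneg.2 ht1), mul_nonneg (mul_nonneg (mul_nonneg ht ht) ht) (sub_nonneg.2 ht1), mul_nonneg ht (sub_nonneg.2 ht1)])
  have h2 : 0 ≤ s ^ 2 * (2880 + 10140 * t + 8172 * t ^ 2 + 324 * t ^ 3 - 588 * t ^ 4) := mul_nonneg (pow_nonneg hs 2) (by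
    nlinarith [mul_nonneg ht ht, mul_nonneg (mul_nonneg ht ht) ht, mul_nonneg (mul_nonneg ht ht) (sub_nonneg.2 ht1), mul_nonneg (mul_nonneg (mul_nonneg ht ht) ht) (sub_nonneg.2 ht1), mul_nonneg ht (sub_nonneg.2 ht1)])
  have h3 : 0 ≤ s ^ 3 * (2600 + 4418 * t + 1578 * t ^ 2 - 338 * t ^ 3 - 98 * t ^ 4) := mul_nonneg (pow_nonneg hs 3) (by
    nlinarith [mul_nonneg ht ht, mul_nonneg (mul_nonneg ht ht) ht, mul_nonneg (mul_nonneg ht ht) (sub_nonneg.2 ht1), mul_nonneg (mul_nonneg (mul_nonneg ht ht) ht) (sub_nonneg.2 ht1), mul_nonneg ht (sub_nonneg.2 ht1)])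
  have h4 : 0 ≤ s ^ 4 * (1110 + 1046 * t - 162 * t ^ 2 - 98 * t ^ 3) := mul_nonneg (pow_nonneg hs 4) (by
    nlinarith [mul_nonneg ht ht, mul_nonneg (mul_nonneg ht ht) ht, mul_nonneg (mul_nonneg ht ht) (sub_nonneg.2 ht1), mul_nonneg (mul_nonneg (mul_nonneg ht ht) ht) (sub_nonneg.2 ht1), mul_nonneg ht (sub_nonneg.2 ht1)])
  have h5 : 0 ≤ s ^ 5 * (174 + 86 * t - 88 * t ^ 2) := mul_nonneg (pow_nonneg hs 5) (by
    nlinarith [mul_nonneg ht ht, mul_nonneg (mul_nonneg ht ht) ht, mul_nonneg (mul_nonneg ht ht) (sub_nonneg.2 ht1), mul_nonneg (mul_nonneg (mul_nonneg ht ht) ht) (sub_nonneg.2 ht1), mul_nonneg ht (sub_nonneg.2 ht1)])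
  have h1t : 0 < (1 + t) ^ 2 := by positivity
  have e : chord5F s (2 * t) (t ^ 2) = (s - 2 * t) ^ 2 * (s ^ 0 * (7680 * t + 7680 * t ^ 2 + 2000 * t ^ 3 - 784 * t ^ 4) +
    s ^ 1 * (1920 + 13440 * t + 13520 * t ^ 2 + 2216 * t ^ 3 - 1176 * t ^ 4) +
    s ^ 2 * (2880 + 10140 * t + 8172 * t ^ 2 + 324 * t ^ 3 - 588 * t ^ 4) +
    s ^ 3 * (2600 + 4418 * t + 1578 * t ^ 2 - 338 * t ^ 3 - 98 * t ^ 4) +
    s ^ 4 * (1110 + 1046 * t - 162 * t ^ 2 - 98 * t ^ 3) +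
    s ^ 5 * (174 + 86 * t - 88 * t ^ 2)) / (1 + t) := by
    unfold chord5F
    rw [show 1 + 2 * t + t ^ 2 = (1 + t) ^ 2 by ring]
    field_simp
    ring
  rw [e]
  exact div_nonneg (mul_nonneg (sq_nonneg _) (by linarith)) (by linarith)

theorem edge5_b1 {s : ℝ} (hs : 0 ≤ s) :
    0 ≤ ((s - (13 / 20 : ℝ)) ^ 2 * ((12444614233 / 90000000) + (1425171131 / 600000) * s + (88334731 / 28125) * s ^ 2 + (69347699 / 22500) * s ^ 3 + (181118 / 125) * s ^ 4 + (5812 / 25) * s ^ 5) + (801543902559 / 400000000 : ℝ) * s + (66853020194623 / 36000000000 : ℝ)) := by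
  positivity

theorem edge5_b2 {s : ℝ} (hs : 0 ≤ s) :
    0 ≤ ((s - (27 / 20 : ℝ)) ^ 2 * ((119456963551 / 60000000) + (1325869387 / 300000) * s + (749134301 / 150000) * s ^ 2 + (20524772 / 5625) * s ^ 3 + (172809 / 125) * s ^ 4 + (4904 / 25) * s ^ 5) + (3547088150393 / 900000000 : ℝ) * s + (50105060713963 / 72000000000 : ℝ)) := by
  positivity

theorem edge5_b3 {s : ℝ} (hs : 0 ≤ s) :
    0 ≤ ((s - (7 / 4 : ℝ)) ^ 2 * ((7392287 / 7200) + (2815739 / 600) * s + (2262847 / 450) * s ^ 2 + (734242 / 225) * s ^ 3 + (5656 / 5) * s ^ 4 + (3776 / 25) * s ^ 5) + (-4612791 / 3200 : ℝ) * s + (44429257 / 12800 : ℝ)) := by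
  have hq : (7392287 / 7200 : ℝ) ≤ (7392287 / 7200) + (2815739 / 600) * s + (2262847 / 450) * s ^ 2 + (734242 / 225) * s ^ 3 + (5656 / 5) * s ^ 4 + (3776 / 25) * s ^ 5 := by nlinarith [mul_nonneg hs hs, pow_nonneg hs 3, pow_nonneg hs 4, pow_nonneg hs 5]
  nlinarith [mul_le_mul_of_nonneg_left hq (sq_nonneg (s - (7 / 4 : ℝ))), sq_nonneg (s - 2), sq_nonneg (s - (7 / 4 : ℝ))]

theorem edge5_b4 {s : ℝ} (hs : 0 ≤ s) :
    0 ≤ ((s - (2 : ℝ)) ^ 2 * ((61104 / 25) + (26392 / 5) * s + (115152 / 25) * s ^ 2 + 2520 * s ^ 3 + (19664 / 25) * s ^ 4 + (2428 / 25) * s ^ 5) + (0 : ℝ) * s + (0 : ℝ)) := by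
  positivity

theorem edge5_b5 {s : ℝ} (hs : 0 ≤ s) :
    0 ≤ ((s - (2 : ℝ)) ^ 2 * ((16576 / 5) + 5984 * s + (20928 / 5) * s ^ 2 + 1632 * s ^ 3 + (1896 / 5) * s ^ 4 + (172 / 5) * s ^ 5) + (0 : ℝ) * s + (0 : ℝ)) := by
  positivity

theorem chord5_edge_poly {s t : ℝ} (hs : 0 ≤ s) (ht : 0 ≤ t) (ht1 : t ≤ 1) :
    0 ≤ 3648 * s * t + 49728 * s * t ^ 2 + 46080 * s * t ^ 3 + 12000 * s * t ^ 4 - 4704 * s * t ^ 5 - 44256 * s ^ 2 * t - 21216 * s ^ 2 * t ^ 2 + 23040 * s ^ 2 * t ^ 3 + 6000 * s ^ 2 * t ^ 4 - 2352 * s ^ 2 * t ^ 5 + 4480 * s ^ 3 - 25936 * s ^ 3 * t - 25936 * s ^ 3 * t ^ 2 + 4480 * s ^ 3 * t ^ 3 + 1000 * s ^ 3 * t ^ 4 - 392 * s ^ 3 * t ^ 5 + 3638 * s ^ 4 - 5204 * s ^ 4 * t - 7824 * s ^ 4 * t ^ 2 + 1076 * s ^ 4 * t ^ 3 + 58 * s ^ 4 * t ^ 4 + 2855 * s ^ 5 + 1074 * s ^ 5 * t - 1620 * s ^ 5 * t ^ 2 + 190 * s ^ 5 * t ^ 3 + 29 * s ^ 5 * t ^ 4 + 1482 * s ^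 6 + 1186 * s ^ 6 * t - 274 * s ^ 6 * t ^ 2 + 22 * s ^ 6 * t ^ 3 + 260 * s ^ 7 + 172 * s ^ 7 * t - 88 * s ^ 7 * t ^ 2 + 33152 * t + 63872 * t ^ 2 + 30720 * t ^ 3 + 8000 * t ^ 4 - 3136 * t ^ 5 := by
  obtain ⟨u, hu⟩ : ∃ u : ℝ, u = 1 - t := ⟨_, rfl⟩
  have hu0 : 0 ≤ u := by linarith
  have h0 : 0 ≤ 1 * (t ^ 0 * u ^ 5) * (4480 * s ^ 3 + 3638 * s ^ 4 + 2855 * s ^ 5 + 1482 * s ^ 6 + 260 * s ^ 7) := by positivity
  have b1 := edge5_b1 hs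
  have h1 : 0 ≤ 5 * (t ^ 1 * u ^ 4) * ((s - (13 / 20 : ℝ)) ^ 2 * ((12444614233 / 90000000) + (1425171131 / 600000) * s + (88334731 / 28125) * s ^ 2 + (69347699 / 22500) * s ^ 3 + (181118 / 125) * s ^ 4 + (5812 / 25) * s ^ 5) + (801543902559 / 400000000 : ℝ) * s + (66853020194623 / 36000000000 : ℝ)) :=
    mul_nonneg (mul_nonneg (by norm_num) (mul_nonneg (pow_nonneg ht _) (pow_nonneg hu0 _))) b1
  have b2 := edge5_b2 hs
  have h2 : 0 ≤ 10 * (t ^ 2 * u ^ 3) * ((s - (27 / 20 : ℝ)) ^ 2 * ((119456963551 / 60000000) + (1325869387 / 300000) * s + (749134301 / 150000) * s ^ 2 + (20524772 / 5625) * s ^ 3 + (172809 / 125) * s ^ 4 + (4904 / 25) * s ^ 5) + (3547088150393 / 900000000 : ℝ) * s + (50105060713963 / 72000000000 : ℝ)) :=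
    mul_nonneg (mul_nonneg (by norm_num) (mul_nonneg (pow_nonneg ht _) (pow_nonneg hu0 _))) b2
  have b3 := edge5_b3 hs
  have h3 : 0 ≤ 10 * (t ^ 3 * u ^ 2) * ((s - (7 / 4 : ℝ)) ^ 2 * ((7392287 / 7200) + (2815739 / 600) * s + (2262847 / 450) * s ^ 2 + (734242 / 225) * s ^ 3 + (5656 / 5) * s ^ 4 + (3776 / 25) * s ^ 5) + (-4612791 / 3200 : ℝ) * s + (44429257 / 12800 : ℝ)) :=
    mul_nonneg (mul_nonneg (by norm_num) (mul_nonneg (pow_nonneg ht _) (pow_nonneg hu0 _))) b3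
  have b4 := edge5_b4 hs
  have h4 : 0 ≤ 5 * (t ^ 4 * u ^ 1) * ((s - (2 : ℝ)) ^ 2 * ((61104 / 25) + (26392 / 5) * s + (115152 / 25) * s ^ 2 + 2520 * s ^ 3 + (19664 / 25) * s ^ 4 + (2428 / 25) * s ^ 5) + (0 : ℝ) * s + (0 : ℝ)) :=
    mul_nonneg (mul_nonneg (by norm_num) (mul_nonneg (pow_nonneg ht _) (pow_nonneg hu0 _))) b4
  have b5 := edge5_b5 hs
  have h5 : 0 ≤ 1 * (t ^ 5 * u ^ 0) * ((s - (2 : ℝ)) ^ 2 * ((16576 / 5) + 5984 * s + (20928 / 5) * s ^ 2 + 1632 * s ^ 3 + (1896 / 5) * s ^ 4 + (172 / 5) * s ^ 5) + (0 : ℝ) * s + (0 : ℝ)) :=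
    mul_nonneg (mul_nonneg (by norm_num) (mul_nonneg (pow_nonneg ht _) (pow_nonneg hu0 _))) b5
  have hq : 0 ≤ (9 / 10 : ℝ) * (33152 + 59840 * s + 41856 * s ^ 2 + 16320 * s ^ 3 + 3792 * s ^ 4 + 344 * s ^ 5) * t * (s - 2 + 10 / 9 * u) ^ 2 := by positivity
  have e : 3648 * s * t + 49728 * s * t ^ 2 + 46080 * s * t ^ 3 + 12000 * s * t ^ 4 - 4704 * s * t ^ 5 - 44256 * s ^ 2 * t - 21216 * s ^ 2 * t ^ 2 + 23040 * s ^ 2 * t ^ 3 + 6000 * s ^ 2 * t ^ 4 - 2352 * s ^ 2 * t ^ 5 + 4480 * s ^ 3 - 25936 * s ^ 3 * t - 25936 * s ^ 3 * t ^ 2 + 4480 * s ^ 3 * t ^ 3 + 1000 * s ^ 3 * t ^ 4 - 392 * s ^ 3 * t ^ 5 + 3638 * s ^ 4 - 5204 * s ^ 4 * t - 7824 * s ^ 4 * t ^ 2 + 1076 * s ^ 4 * t ^ 3 + 58 * s ^ 4 * t ^ 4 + 2855 * s ^ 5 + 1074 * s ^ 5 * t - 1620 * s ^ 5 * t ^ 2 + 190 * s ^ 5 * t ^ 3 + 29 * s ^ 5 * t ^ 4 + 1482 * s ^ 6 + 1186 * s ^ 6 * t - 274 * s ^ 6 * t ^ 2 + 22 *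 s ^ 6 * t ^ 3 + 260 * s ^ 7 + 172 * s ^ 7 * t - 88 * s ^ 7 * t ^ 2 + 33152 * t + 63872 * t ^ 2 + 30720 * t ^ 3 + 8000 * t ^ 4 - 3136 * t ^ 5 =
    1 * (t ^ 0 * u ^ 5) * (4480 * s ^ 3 + 3638 * s ^ 4 + 2855 * s ^ 5 + 1482 * s ^ 6 + 260 * s ^ 7) +
    5 * (t ^ 1 * u ^ 4) * ((s - (13 / 20 : ℝ)) ^ 2 * ((12444614233 / 90000000) + (1425171131 / 600000) * s + (88334731 / 28125) * s ^ 2 + (69347699 / 22500) * s ^ 3 + (181118 / 125) * s ^ 4 + (5812 / 25) * s ^ 5) + (801543902559 / 400000000 : ℝ) * s + (66853020194623 / 36000000000 : ℝ)) +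
    10 * (t ^ 2 * u ^ 3) * ((s - (27 / 20 : ℝ)) ^ 2 * ((119456963551 / 60000000) + (1325869387 / 300000) * s + (749134301 / 150000) * s ^ 2 + (20524772 / 5625) * s ^ 3 + (172809 / 125) * s ^ 4 + (4904 / 25) * s ^ 5) + (3547088150393 / 900000000 : ℝ) * s + (50105060713963 / 72000000000 : ℝ)) +
    10 * (t ^ 3 * u ^ 2) * ((s - (7 / 4 : ℝ)) ^ 2 * ((7392287 / 7200) + (2815739 / 600) * s + (2262847 / 450) * s ^ 2 + (734242 / 225) * s ^ 3 + (5656 / 5) * s ^ 4 + (3776 / 25) * s ^ 5) + (-4612791 / 3200 : ℝ) * s + (44429257 / 12800 : ℝ)) +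
    5 * (t ^ 4 * u ^ 1) * ((s - (2 : ℝ)) ^ 2 * ((61104 / 25) + (26392 / 5) * s + (115152 / 25) * s ^ 2 + 2520 * s ^ 3 + (19664 / 25) * s ^ 4 + (2428 / 25) * s ^ 5) + (0 : ℝ) * s + (0 : ℝ)) +
    1 * (t ^ 5 * u ^ 0) * ((s - (2 : ℝ)) ^ 2 * ((16576 / 5) + 5984 * s + (20928 / 5) * s ^ 2 + 1632 * s ^ 3 + (1896 / 5) * s ^ 4 + (172 / 5) * s ^ 5) + (0 : ℝ) * s + (0 : ℝ)) +
    (9 / 10 : ℝ) * (33152 + 59840 * s + 41856 * s ^ 2 + 16320 * s ^ 3 + 3792 * s ^ 4 + 344 * s ^ 5) * t * (s - 2 + 10 / 9 * u) ^ 2 := by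
    rw [hu]; ring
  rw [e]
  linarith

theorem chord5_edge {s t : ℝ} (hs : 0 ≤ s) (ht : 0 ≤ t) (ht1 : t ≤ 1) :
    0 ≤ chord5F s (1 + t) t := by
  have h1t : 0 < 1 + t := by linarith
  have e : chord5F s (1 + t) t = (3648 * s * t + 49728 * s * t ^ 2 + 46080 * s * t ^ 3 + 12000 * s * t ^ 4 - 4704 * s * t ^ 5 - 44256 * s ^ 2 * t - 21216 * s ^ 2 * t ^ 2 + 23040 * s ^ 2 * t ^ 3 + 6000 * s ^ 2 * t ^ 4 - 2352 * s ^ 2 * t ^ 5 + 4480 * s ^ 3 - 25936 * s ^ 3 * t - 25936 * s ^ 3 * t ^ 2 + 4480 * s ^ 3 * t ^ 3 + 1000 * s ^ 3 * t ^ 4 - 392 * s ^ 3 * t ^ 5 + 3638 * s ^ 4 - 5204 * s ^ 4 * t - 7824 * s ^ 4 * t ^ 2 + 1076 * s ^ 4 * t ^ 3 + 58 * s ^ 4 * t ^ 4 + 2855 * s ^ 5 + 1074 * s ^ 5 * t - 1620 * s ^ 5 * t ^ 2 + 190 * s ^ 5 * t ^ 3 + 29 * s ^ 5 * t ^ 4 + 1482 * s ^ 6 + 1186 * s ^ 6 * t - 274 * s ^ 6 * t ^ 2 + 22 * s ^ 6 * t ^ 3 + 260 * s ^ 7 + 172 * s ^ 7 * t - 88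 * s ^ 7 * t ^ 2 + 33152 * t + 63872 * t ^ 2 + 30720 * t ^ 3 + 8000 * t ^ 4 - 3136 * t ^ 5) / (2 * (1 + t)) := by
    unfold chord5F
    rw [show 1 + (1 + t) + t = 2 * (1 + t) by ring]
    field_simp
    ring
  rw [e]
  exact div_nonneg (chord5_edge_poly hs ht ht1) (by linarith)

/-- Concavity in the product, through a chord identity. -/
theorem chord5_secant {s σ a b p : ℝ} (hs : 0 ≤ s) (hσ : 0 ≤ σ) (ha : 0 ≤ a) (hap : a ≤ p)
    (hpb : p ≤ b) (hcoef : 174 * (2 + σ) * (1 + σ) ≤ (348 - 147 * σ) * (1 + σ + a) ^ 3)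
    (hFa : 0 ≤ chord5F s σ a) (hFb : 0 ≤ chord5F s σ b) : 0 ≤ chord5F s σ p := by
  rcases hap.eq_or_lt with h | h
  · exact h ▸ hFa
  have hab : 0 < b - a := by linarith
  have hA : 0 < 1 + σ + a := by linarith
  have hB : 0 < 1 + σ + b := by linarith
  have hP : 0 < 1 + σ + p := by linarith
  have e : (b - a) * chord5F s σ p = (b - p) * chord5F s σ a + (p - a) * chord5F s σ b +
      (b - a) * (p - a) * (b - p) * (4 * (2 + s) ^ 3) *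
        ((348 - 147 * σ) - 174 * (2 + σ) * (1 + σ) / ((1 + σ + a) * (1 + σ + b) * (1 + σ + p))) := by
    unfold chord5F
    field_simp
    ring
  have h348 : 0 ≤ 348 - 147 * σ :=
    nonneg_of_mul_nonneg_left ((by positivity : (0 : ℝ) ≤ 174 * (2 + σ) * (1 + σ)).trans hcoef)
      (pow_pos hA 3)
  have hbr : 0 ≤ (348 - 147 * σ) -
      174 * (2 + σ) * (1 + σ) / ((1 + σ + a) * (1 + σ + b) * (1 + σ + p)) := by
    rw [sub_nonneg, div_le_iff₀ (by positivity)]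
    refine hcoef.trans (mul_le_mul_of_nonneg_left ?_ h348)
    rw [pow_succ, pow_two]
    gcongr <;> linarith
  refine nonneg_of_mul_nonneg_right ?_ hab
  rw [e]
  exact add_nonneg (add_nonneg (mul_nonneg (by linarith) hFa) (mul_nonneg (by linarith) hFb))
    (mul_nonneg (mul_nonneg (mul_nonneg (mul_nonneg hab.le (by linarith)) (by linarith))
      (by positivity)) hbr)

theorem chord5F_nonneg {s c d : ℝ} (hs : 0 ≤ s) (hc : 0 ≤ c) (hd : 0 ≤ d) (hc1 : c ≤ 1)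
    (hd1 : d ≤ 1) : 0 ≤ chord5F s (c + d) (c * d) := by
  obtain ⟨t, ht⟩ : ∃ t : ℝ, c + d = 2 * t := ⟨(c + d) / 2, by ring⟩
  have ht0 : 0 ≤ t := by linarith
  have ht1 : t ≤ 1 := by linarith
  have hp : c * d ≤ t ^ 2 := by nlinarith [sq_nonneg (c - d)]
  rw [ht]
  rcases le_total (2 * t) 1 with h | h
  · refine chord5_secant hs (by linarith) le_rfl (mul_nonneg hc hd) hp ?_
      (chord5_zero hs (by linarith) h) (chord5_diag hs ht0 ht1)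
    have h0 : (0 : ℝ) ≤ 2 * t := by linarith
    nlinarith [mul_nonneg h0 (sub_nonneg.2 h), mul_nonneg h0 h0,
      mul_nonneg (mul_nonneg h0 h0) (sub_nonneg.2 h)]
  · refine chord5_secant (a := 2 * t - 1) hs (by linarith) (by linarith)
      (by nlinarith [mul_nonneg (sub_nonneg.2 hc1) (sub_nonneg.2 hd1)]) hp ?_ ?_
      (chord5_diag hs ht0 ht1)
    · have h0 : 0 ≤ 2 * t - 1 := sub_nonneg.2 h
      have h2 : 0 ≤ 2 - 2 * t := by linarith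
      nlinarith [mul_nonneg h0 h2, mul_nonneg (mul_nonneg h0 h2) h0, mul_nonneg h0 h0,
        mul_nonneg (mul_nonneg h0 h0) h2, mul_nonneg (mul_nonneg h0 h0) h0]
    · have h3 := chord5_edge (t := 2 * t - 1) hs (by linarith) (by linarith)
      rwa [show 1 + (2 * t - 1) = 2 * t by ring] at h3

theorem chord5 {s c d : ℝ} (hs : 0 < s) (hc : 0 < c) (hc1 : c ≤ 1) (hd : 0 < d) (hd1 : d ≤ 1) :
    s ≤ 29 / 480 * s ^ 4 * (kerMin 4 P5 s c d + kerMin 4 P5 s d c) / (2 * (c * d)) +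
      g5 c + g5 d := by
  have h := chord5F_nonneg hs.le hc.le hd.le hc1 hd1
  rw [kerMin5 hs, kerMin5 hs, abs_of_pos hc, abs_of_pos hd]
  have h2 : 0 < 2 + s := by linarith
  have e : 29 / 480 * s ^ 4 * ((num5 s c c d + 29 * s * (2 + s) * c * d ^ 2 / 2) /
      (87 * s * (2 + s) ^ 3) + (num5 s d d c + 29 * s * (2 + s) * d * c ^ 2 / 2) /
      (87 * s * (2 + s) ^ 3)) / (2 * (c * d)) + g5 c + g5 d - s =
      chord5F s (c + d) (c * d) / (2880 * (2 + s) ^ 3 * (c * d)) := by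
    have : 0 < 1 + c := by linarith
    have : 0 < 1 + d := by linarith
    simp only [num5, g5, G5n, chord5F]
    rw [show 1 + (c + d) + c * d = (1 + c) * (1 + d) by ring]
    field_simp
    ring
  have := div_nonneg h (show 0 ≤ 2880 * (2 + s) ^ 3 * (c * d) by positivity)
  linarith

theorem g5_cont : ContinuousOn g5 (Icc 0 1) := by
  refine ContinuousOn.div (by unfold G5n; fun_prop) (by fun_prop) fun t ht => ?_
  linarith [ht.1]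

theorem g5_nonneg : ∀ t ∈ Icc (0 : ℝ) 1, 0 ≤ g5 t := fun t ⟨ht, ht1⟩ => by
  refine div_nonneg ?_ (by linarith)
  unfold G5n
  nlinarith [mul_nonneg ht ht, mul_nonneg (mul_nonneg ht ht) ht,
    mul_nonneg (mul_nonneg (mul_nonneg ht ht) ht) (sub_nonneg.2 ht1)]

theorem g5_mono : MonotoneOn g5 (Icc 0 1) := by
  intro x hx y hy hxy
  obtain ⟨hx0, hx1⟩ := hx
  obtain ⟨hy0, hy1⟩ := hy
  rw [g5, g5, div_le_div_iff₀ (by linarith) (by linarith), G5n, G5n]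
  have e : (480 * y + 480 * y ^ 2 + 125 * y ^ 3 - 49 * y ^ 4) * (720 * (1 + x)) -
      (480 * x + 480 * x ^ 2 + 125 * x ^ 3 - 49 * x ^ 4) * (720 * (1 + y)) =
      720 * (y - x) * (480 + 480 * (x + y) + 480 * x * y + 125 * (x ^ 2 + x * y + y ^ 2) +
        125 * x * y * (x + y) - 49 * (x + y) * (x ^ 2 + y ^ 2) -
        49 * x * y * (x ^ 2 + x * y + y ^ 2)) := by ring
  have h2 : 49 * (x + y) * (x ^ 2 + y ^ 2) + 49 * x * y * (x ^ 2 + x * y + y ^ 2) ≤ 343 := by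
    have ha : x + y ≤ 2 := by linarith
    have hb : x ^ 2 + y ^ 2 ≤ 2 := by nlinarith
    have hc : x * y ≤ 1 := mul_le_one₀ hx1 hy0 hy1
    have hd : x ^ 2 + x * y + y ^ 2 ≤ 3 := by linarith
    nlinarith [mul_le_mul ha hb (by positivity) (by norm_num),
      mul_le_mul hc hd (by positivity) (by norm_num)]
  have h3 : 0 ≤ 480 + 480 * (x + y) + 480 * x * y + 125 * (x ^ 2 + x * y + y ^ 2) +
        125 * x * y * (x + y) - 49 * (x + y) * (x ^ 2 + y ^ 2) -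
        49 * x * y * (x ^ 2 + x * y + y ^ 2) := by
    have : 0 ≤ x * y := mul_nonneg hx0 hy0
    have : 0 ≤ x * y * (x + y) := by positivity
    nlinarith
  have := mul_nonneg (mul_nonneg (by norm_num : (0 : ℝ) ≤ 720) (sub_nonneg.2 hxy)) h3
  linarith

theorem g5_moment : ∫ t in (0 : ℝ)..1, g5 t * t * √(1 - t ^ 2) ^ 2 = 67 / 720 := by
  have e : EqOn (fun t => g5 t * t * √(1 - t ^ 2) ^ 2)
      (fun t : ℝ => (480 * t ^ 2 + 480 * t ^ 3 + 125 * t ^ 4 - 49 * t ^ 5) * (1 - t) / 720)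
      (uIcc (0 : ℝ) 1) := by
    intro t ht
    rw [uIcc_of_le zero_le_one] at ht
    have : 0 < 1 + t := by linarith [ht.1]
    dsimp only
    rw [Real.sq_sqrt (by nlinarith [ht.1, ht.2]), g5, G5n]
    field_simp
    ring
  rw [intervalIntegral.integral_congr e]
  have hd : ∀ t : ℝ, HasDerivAt
      (fun t : ℝ => (160 * t ^ 3 - 71 * t ^ 5 - 29 * t ^ 6 + 7 * t ^ 7) / 720)
      ((480 * t ^ 2 + 480 * t ^ 3 + 125 * t ^ 4 - 49 * t ^ 5) * (1 - t) / 720) t := fun t =>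
    ((((((hasDerivAt_pow 3 t).const_mul 160).sub ((hasDerivAt_pow 5 t).const_mul 71)).sub
      ((hasDerivAt_pow 6 t).const_mul 29)).add ((hasDerivAt_pow 7 t).const_mul 7)).div_const
      720).congr_deriv (by norm_num; ring)
  rw [intervalIntegral.integral_eq_sub_of_hasDerivAt (fun t _ => hd t)
    (Continuous.intervalIntegrable (by fun_prop) _ _)]
  norm_num

theorem a5_deriv (r : ℝ) (hr : 0 < r) : HasDerivAt a5 (a5' r) r := by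
  have hd : 87 * r * (2 + r) ^ 2 ≠ 0 := by positivity
  refine ((((hasDerivAt_id r).const_mul 73).const_add 160).add
    ((hasDerivAt_pow 2 r).const_mul 11) |>.div
    (((hasDerivAt_id r).const_mul 87).mul (((hasDerivAt_id r).const_add 2).pow 2)) hd).congr_deriv ?_
  simp only [a5', id_eq, Pi.add_apply, Pi.mul_apply, Pi.pow_apply]
  field_simp
  ring

theorem b5_deriv (r : ℝ) (hr : 0 < r) : HasDerivAt b5 (b5' r) r := by
  have hd : 3 * r * (2 + r) ^ 2 ≠ 0 := by positivity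
  refine ((hasDerivAt_const r (1 : ℝ)).div
    (((hasDerivAt_id r).const_mul 3).mul (((hasDerivAt_id r).const_add 2).pow 2)) hd).congr_deriv ?_
  simp only [b5', id_eq, Pi.mul_apply, Pi.pow_apply]
  field_simp
  ring

/-- The certificate in dimension five. -/
theorem cert5 : Cert 5 P5 (29 / 480) (4 * omega 4 * (67 / 720)) g5 where
  smoothA := contDiffOn_radial (a := a5) fun r hr => by
    unfold a5
    exact ContDiffAt.div (by fun_prop) (by fun_prop) (by positivity)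
  smoothB := contDiffOn_radial (a := b5) fun r hr => by
    unfold b5
    exact ContDiffAt.div (by fun_prop) (by fun_prop) (by positivity)
  derivA := fun q hq => hasDerivAt_radial a5_deriv hq
  derivB := fun q hq => hasDerivAt_radial b5_deriv hq
  B_nonneg := fun q hq => by
    have := Real.sqrt_pos.2 hq
    simp only [P5, ofRadial, b5]
    positivity
  eta_nonneg := fun q hq => by
    have hr := Real.sqrt_pos.2 hq
    simp only [P5, ofRadial, a5, b5]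
    rw [mul_div_assoc', div_le_div_iff₀ (by positivity) (by positivity)]
    generalize Real.sqrt q = r at hr ⊢
    have h : 0 ≤ r * (2 + r) ^ 2 * (480 + 132 * r + 33 * r ^ 2) := by positivity
    linarith
  decreasing := fun q hq => decreasing_radial (a' := a5') (b' := b5') (fun r hr => by
    have h2 : 0 < 2 + r := by linarith
    rw [a5', b5', abs_div, abs_neg, abs_of_pos (by linarith), abs_of_pos (by positivity)]
    have e : ((73 + 22 * r) * r * (2 + r) - (160 + 73 * r + 11 * r ^ 2) * (2 + 3 * r)) /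
        (87 * r ^ 2 * (2 + r) ^ 3) + r * ((2 + 3 * r) / (3 * r ^ 2 * (2 + r) ^ 3)) =
        -(320 + 422 * r + 37 * r ^ 2 + 11 * r ^ 3) / (87 * r ^ 2 * (2 + r) ^ 3) := by
      field_simp; ring
    rw [e, neg_div, neg_nonpos]
    positivity) hq
  ker_nonneg := fun s w v hs hw hv => by
    rw [show ((5 : ℕ) : ℝ) - 1 = 4 by norm_num]
    exact add_nonneg (ker5_nonneg hs hw hv) (ker5_nonneg hs hv hw)
  chord := fun s c d hs hc hc1 hd hd1 => by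
    rw [show ((5 : ℕ) : ℝ) - 1 = 4 by norm_num]
    exact chord5 hs hc hc1 hd hd1
  alpha_pos := by norm_num
  g_cont := g5_cont
  g_nonneg := g5_nonneg
  g_mono := g5_mono
  G_nonneg := mul_nonneg (mul_nonneg (by norm_num) (omega_nonneg 4)) (by norm_num)
  moment := fun e he => by
    have h := half_sphere (n := 5) le_add_self (h := fun t => g5 t * t)
      (g5_cont.mul continuousOn_id) (fun t ht => mul_nonneg (g5_nonneg t ht) ht.1) e he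
    rw [g5_moment] at h
    refine h.trans_eq (congrArg ENNReal.ofReal ?_)
    norm_num
  balance := by
    rw [omega_four, omega_five]
    ring

end

end Vale.Agent.P219.Aff
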