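import Mathlib
import Vale.Agent.P219.Aff.Defs
import Vale.Agent.P219.Aff.Slicing
import Vale.Agent.P219.Six.Const
import Vale.Agent.P219.Six.Scalar

/-!
# The certificate in dimension six
-/

open MeasureTheory Set
open scoped ContDiff RealInnerProductSpace

namespace Vale.Agent.P219.Aff

open Vale.Agent.P219.Six (gFun)

noncomputable section

/-- The profile, with no dependence on the far cosine. -/
def P6 : Profile where
  A q := 10 / (17 * q)
  A1 q := -10 / (17 * q ^ 2)
  B _ := 0
  B1 _ := 0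

theorem kerMin6 {s : ℝ} (hs : 0 < s) (w v : ℝ) :
    kerMin 5 P6 s w v = (17 * s ^ 2 + 10 * (3 + 2 * w ^ 2) - 50 * w * s) / (17 * s ^ 2) := by
  simp only [kerMin, P6]
  field_simp
  ring

theorem gFun_cont : Continuous gFun := by unfold Six.gFun; fun_prop

theorem gFun_nonneg {t : ℝ} (ht : 0 ≤ t) : 0 ≤ gFun t := by unfold Six.gFun; positivity

theorem gFun_mono : MonotoneOn gFun (Icc 0 1) := fun x hx y _ hxy => by
  obtain ⟨hx0, -⟩ := hx
  unfold Six.gFun
  gcongr

theorem chord6 {s c d : ℝ} (hs : 0 < s) (hc : 0 < c) (hc1 : c ≤ 1) (hd : 0 < d) (hd1 : d ≤ 1) :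
    s ≤ 17 / 360 * s ^ 5 * (kerMin 5 P6 s c d + kerMin 5 P6 s d c) / (2 * (c * d)) +
      gFun c + gFun d := by
  have h := Six.star s c d hs.le hc.le hd.le hc1 hd1
  rw [kerMin6 hs, kerMin6 hs]
  have e : 17 / 360 * s ^ 5 * ((17 * s ^ 2 + 10 * (3 + 2 * c ^ 2) - 50 * c * s) / (17 * s ^ 2) +
      (17 * s ^ 2 + 10 * (3 + 2 * d ^ 2) - 50 * d * s) / (17 * s ^ 2)) / (2 * (c * d)) +
      gFun c + gFun d - s = (17 * s ^ 5 + 10 * (3 + c ^ 2 + d ^ 2) * s ^ 3 - 25 * (c + d) * s ^ 4 +
        c * d * (240 * (c + d) + 48 * (c ^ 3 + d ^ 3) - 360 * s)) / (360 * (c * d)) := by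
    simp only [Six.gFun]
    field_simp
    ring
  have := div_nonneg h (show 0 ≤ 360 * (c * d) by positivity)
  linarith

theorem moment6 (e : Space 6) (he : ‖e‖ = 1) :
    ∫⁻ v, ENNReal.ofReal
        (if 0 < ⟪(v : Space 6), e⟫ then gFun ⟪(v : Space 6), e⟫ * ⟪(v : Space 6), e⟫ else 0)
        ∂Six.dirs 6 = ENNReal.ofReal (43 * Real.pi ^ 3 / 720) := by
  rw [← Six.moments.2 e he]
  have eq : (fun v : Metric.sphere (0 : Space 6) 1 =>
      if 0 < ⟪(v : Space 6), e⟫ then gFun ⟪(v : Space 6), e⟫ * ⟪(v : Space 6), e⟫ else 0) =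
      fun v : Metric.sphere (0 : Space 6) 1 =>
        gFun (max ⟪(v : Space 6), e⟫ 0) * max ⟪(v : Space 6), e⟫ 0 := by
    funext v
    split_ifs with h
    · rw [max_eq_left h.le]
    · rw [max_eq_right (not_lt.1 h), mul_zero]
  rw [ofReal_integral_eq_lintegral_ofReal]
  · rw [eq]
    exact Continuous.integrable_of_hasCompactSupport
      ((gFun_cont.comp (by fun_prop)).mul (by fun_prop)) (HasCompactSupport.of_compactSpace _)
  · refine ae_of_all _ fun v => ?_
    dsimp only
    split_ifs with h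
    · exact mul_nonneg (gFun_nonneg h.le) h.le
    · exact le_rfl

/-- The certificate in dimension six. -/
theorem cert6 : Cert 6 P6 (17 / 360) (43 * Real.pi ^ 3 / 720) gFun where
  smoothA := fun q hq => by
    have : q ≠ 0 := ne_of_gt hq
    exact (ContDiffAt.div (by fun_prop) (by fun_prop) (by positivity)).contDiffWithinAt
  smoothB := contDiffOn_const
  derivA := fun q hq => by
    have h := (hasDerivAt_const q (10 : ℝ)).div ((hasDerivAt_id q).const_mul 17)
      (by simp only [id_eq]; positivity)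
    refine h.congr_deriv ?_
    simp only [P6, id_eq]
    field_simp
    ring
  derivB := fun q _ => hasDerivAt_const q 0
  B_nonneg := fun _ _ => le_rfl
  eta_nonneg := fun q hq => by simp only [P6, mul_zero]; positivity
  decreasing := fun q hq => by
    simp only [P6, abs_zero, mul_zero, add_zero, neg_div, neg_nonpos]
    positivity
  ker_nonneg := fun s w v hs hw hv => by
    rw [show ((6 : ℕ) : ℝ) - 1 = 5 by norm_num, kerMin6 hs, kerMin6 hs]
    exact add_nonneg
      (div_nonneg (Six.base_pos s w ((sq_le_one_iff_abs_le_one w).2 hw)).le (by positivity))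
      (div_nonneg (Six.base_pos s v ((sq_le_one_iff_abs_le_one v).2 hv)).le (by positivity))
  chord := fun s c d hs hc hc1 hd hd1 => by
    rw [show ((6 : ℕ) : ℝ) - 1 = 5 by norm_num]
    exact chord6 hs hc hc1 hd hd1
  alpha_pos := by norm_num
  g_cont := gFun_cont.continuousOn
  g_nonneg := fun t ht => gFun_nonneg ht.1
  g_mono := gFun_mono
  G_nonneg := by positivity
  moment := fun e he => (moment6 e he).le
  balance := by rw [omega_six]; ring

end

end Vale.Agent.P219.Aff
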