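import Mathlib
import Vale.Agent.P219.Aff.Radial
import Vale.Agent.P219.Aff.Slicing

/-!
# The certificate in dimension seven
-/

open MeasureTheory Set
open scoped ContDiff

namespace Vale.Agent.P219.Aff

noncomputable section

/-- The leading profile. -/
def a7 (r : ℝ) : ℝ :=
  (5600 + 5600 * r + 3584 * r ^ 2 + 936 * r ^ 3) / (1937 * r ^ 3 * (2 + r) ^ 2)
/-- Its derivative. -/
def a7' (r : ℝ) : ℝ :=
  ((5600 + 7168 * r + 2808 * r ^ 2) * r * (2 + r) -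
      (5600 + 5600 * r + 3584 * r ^ 2 + 936 * r ^ 3) * (6 + 5 * r)) /
    (1937 * r ^ 4 * (2 + r) ^ 3)
/-- The profile of the far cosine. -/
def b7 (r : ℝ) : ℝ := 104 / (1937 * r ^ 2 * (2 + r) ^ 2)
/-- Its derivative. -/
def b7' (r : ℝ) : ℝ := -(104 * (4 + 4 * r)) / (1937 * r ^ 3 * (2 + r) ^ 3)
/-- The profile. -/
def P7 : Profile := ofRadial a7 a7' b7 b7'
/-- The numerator of the boundary weight, divided by `t`. -/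
def G7n (t : ℝ) : ℝ := 1050 + 2100 * t + 1260 * t ^ 2 + 433 * t ^ 3 + 600 * t ^ 4 + 273 * t ^ 5
/-- The boundary weight. -/
def g7 (t : ℝ) : ℝ := t / (1 + t) ^ 2 * (G7n t / 1575)

/-- The numerator of the affine lower bound for the kernel, with `a` for the absolute value of
`w`. -/
def num7 (s w a v : ℝ) : ℝ :=
  1937 * s ^ 3 * (2 + s) ^ 3 +
    ((5600 + 7168 * s + 2808 * s ^ 2) * s * (2 + s) -
      (5600 + 5600 * s + 3584 * s ^ 2 + 936 * s ^ 3) * (6 + 5 * s) +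
      104 * s ^ 2 * v * (4 + 4 * s)) * (1 - w ^ 2) +
    104 * s ^ 2 * (2 + s) * (w ^ 2 * v - a * (2 - w ^ 2) / 2 - v) +
    6 * (5600 + 5600 * s + 3584 * s ^ 2 + 936 * s ^ 3 - 104 * s ^ 2 * v) * (2 + s) * (1 - s * w)

theorem ker7_pp0 {s : ℝ} (hs : 0 ≤ s) :
    0 ≤ (33600 + 50400 * s + 46000 * s ^ 2 + 37168 * s ^ 3 + 26988 * s ^ 4 + 11622 * s ^ 5 + 1937 * s ^ 6) := by
  positivity

theorem ker7_pp1 {s : ℝ} (hs : 0 ≤ s) :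
    0 ≤ (33600 + 28000 * s + (36992 / 3) * s ^ 2 + (36040 / 3) * s ^ 3 + 16284 * s ^ 4 + 9750 * s ^ 5 + 1937 * s ^ 6) := by
  positivity

theorem ker7_pp2 {s : ℝ} (hs : 0 ≤ s) :
    0 ≤ ((s - ((3 / 4) : ℝ)) ^ 2 * ((200645 / 256) + (777959 / 48) * s + (340635 / 16) * s ^ 2 + (21567 / 2) * s ^ 3 + 1937 * s ^ 4) + ((7402981 / 512) : ℝ) * s + ((181694995 / 4096) : ℝ)) := by
  positivity

theorem ker7_pp3 {s : ℝ} (hs : 0 ≤ s) :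
    0 ≤ ((s - ((31 / 20) : ℝ)) ^ 2 * ((326050033 / 32000) + (68511257 / 2000) * s + (11731011 / 400) * s ^ 2 + (120107 / 10) * s ^ 3 + 1937 * s ^ 4) + (-(27380880839 / 1600000) : ℝ) * s + ((546825918287 / 12800000) : ℝ)) := by
  have h1 : 0 ≤ (s - ((31 / 20) : ℝ)) ^ 2 * ((68511257 / 2000) * s + (11731011 / 400) * s ^ 2 + (120107 / 10) * s ^ 3 + 1937 * s ^ 4) := by positivity
  have h2 : 0 ≤ ((326050033 / 32000) : ℝ) * (s + (-(38959317977 / 16302501650) : ℝ)) ^ 2 := by positivity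
  linarith

theorem ker7_pm0 {s : ℝ} (hs : 0 ≤ s) :
    0 ≤ (33600 + 50400 * s + 48080 * s ^ 2 + 37792 * s ^ 3 + 26988 * s ^ 4 + 11622 * s ^ 5 + 1937 * s ^ 6) := by
  positivity

theorem ker7_pm1 {s : ℝ} (hs : 0 ≤ s) :
    0 ≤ (33600 + 28000 * s + (43232 / 3) * s ^ 2 + (35416 / 3) * s ^ 3 + 15868 * s ^ 4 + 9750 * s ^ 5 + 1937 * s ^ 6) := by
  positivity

theorem ker7_pm2 {s : ℝ} (hs : 0 ≤ s) :
    0 ≤ ((s - ((3 / 4) : ℝ)) ^ 2 * ((269135 / 768) + (678119 / 48) * s + (327323 / 16) * s ^ 2 + (21567 / 2) * s ^ 3 + 1937 * s ^ 4) + ((7669221 / 512) : ℝ) * s + ((182693395 / 4096) : ℝ)) := by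
  positivity

theorem ker7_pm3 {s : ℝ} (hs : 0 ≤ s) :
    0 ≤ ((s - ((8 / 5) : ℝ)) ^ 2 * ((282488 / 25) + (4301236 / 125) * s + (739884 / 25) * s ^ 2 + (61022 / 5) * s ^ 3 + 1937 * s ^ 4) + (-(57283904 / 3125) : ℝ) * s + ((23920768 / 625) : ℝ)) := by
  have h1 : 0 ≤ (s - ((8 / 5) : ℝ)) ^ 2 * ((4301236 / 125) * s + (739884 / 25) * s ^ 2 + (61022 / 5) * s ^ 3 + 1937 * s ^ 4) := by positivity
  have h2 : 0 ≤ ((282488 / 25) : ℝ) * (s + (-(10642444 / 4413875) : ℝ)) ^ 2 := by positivity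
  linarith

theorem ker7_mp0 {s : ℝ} (hs : 0 ≤ s) :
    0 ≤ (33600 + 50400 * s + 46000 * s ^ 2 + 37168 * s ^ 3 + 26988 * s ^ 4 + 11622 * s ^ 5 + 1937 * s ^ 6) := by
  positivity

theorem ker7_mp1 {s : ℝ} (hs : 0 ≤ s) :
    0 ≤ (33600 + 72800 * s + (238592 / 3) * s ^ 2 + (186760 / 3) * s ^ 3 + 37692 * s ^ 4 + 13494 * s ^ 5 + 1937 * s ^ 6) := by
  positivity

theorem ker7_mp2 {s : ℝ} (hs : 0 ≤ s) :
    0 ≤ (44800 + 112000 * s + 122848 * s ^ 2 + (272456 / 3) * s ^ 3 + 49020 * s ^ 4 + 15366 * s ^ 5 + 1937 * s ^ 6) := by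
  positivity

theorem ker7_mp3 {s : ℝ} (hs : 0 ≤ s) :
    0 ≤ (67200 + 168000 * s + 176056 * s ^ 2 + 122916 * s ^ 3 + 60972 * s ^ 4 + 17238 * s ^ 5 + 1937 * s ^ 6) := by
  positivity

theorem ker7_mm0 {s : ℝ} (hs : 0 ≤ s) :
    0 ≤ (33600 + 50400 * s + 48080 * s ^ 2 + 37792 * s ^ 3 + 26988 * s ^ 4 + 11622 * s ^ 5 + 1937 * s ^ 6) := by
  positivity

theorem ker7_mm1 {s : ℝ} (hs : 0 ≤ s) :
    0 ≤ (33600 + 72800 * s + (244832 / 3) * s ^ 2 + (191128 / 3) * s ^ 3 + 38108 * s ^ 4 + 13494 * s ^ 5 + 1937 * s ^ 6) := by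
  positivity

theorem ker7_mm2 {s : ℝ} (hs : 0 ≤ s) :
    0 ≤ (44800 + 112000 * s + (375200 / 3) * s ^ 2 + (279944 / 3) * s ^ 3 + 49852 * s ^ 4 + 15366 * s ^ 5 + 1937 * s ^ 6) := by
  positivity

theorem ker7_mm3 {s : ℝ} (hs : 0 ≤ s) :
    0 ≤ (67200 + 168000 * s + 178552 * s ^ 2 + 126660 * s ^ 3 + 62220 * s ^ 4 + 17238 * s ^ 5 + 1937 * s ^ 6) := by
  positivity

theorem edge7_b0 {s : ℝ} (hs : 0 ≤ s) :
    0 ≤ (403200 * s ^ 3 + 336000 * s ^ 4 + 86816 * s ^ 5 + 34960 * s ^ 6 + 92448 * s ^ 7 + 70512 * s ^ 8 + 15496 * s ^ 9) := by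
  positivity

theorem edge7_b1 {s : ℝ} (hs : 0 ≤ s) :
    0 ≤ ((s - ((17 / 40) : ℝ)) ^ 2 * ((63602103065197 / 2560000000) + (289149581844697 / 512000000) * s + (19235127729043 / 44800000) * s ^ 2 + (8952911583 / 64000) * s ^ 3 + (1980371389 / 14000) * s ^ 4 + (260394891 / 1400) * s ^ 5 + (3653442 / 35) * s ^ 6 + (139464 / 7) * s ^ 7) + ((489933529764313057 / 5734400000000) : ℝ) * s + ((11858653777499106469 / 28672000000000) : ℝ)) := by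
  positivity

theorem edge7_b2 {s : ℝ} (hs : 0 ≤ s) :
    0 ≤ ((s - (1 : ℝ)) ^ 2 * ((7446448 / 105) + (24462712 / 35) * s + (65322016 / 105) * s ^ 2 + (44663768 / 105) * s ^ 3 + (2901104 / 7) * s ^ 4 + (34141672 / 105) * s ^ 5 + (413504 / 3) * s ^ 6 + (340912 / 15) * s ^ 7) + ((13656824 / 105) : ℝ) * s + ((15314224 / 15) : ℝ)) := by
  positivity

theorem edge7_b3 {s : ℝ} (hs : 0 ≤ s) :
    0 ≤ ((s - ((57 / 40) : ℝ)) ^ 2 * ((14403913693354097 / 44800000000) + (10712382096089437 / 8960000000) * s + (130487433937729 / 112000000) * s ^ 2 + (27808301177 / 32000) * s ^ 3 + (23705961327 / 35000) * s ^ 4 + (211421159 / 500) * s ^ 5 + (27359852 / 175) * s ^ 6 + (836784 / 35) * s ^ 7) + ((1637490034144355651 / 14336000000000) : ℝ) * s + ((94912536506292538847 / 71680000000000) : ℝ)) := by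
  positivity

theorem edge7_b4 {s : ℝ} (hs : 0 ≤ s) :
    0 ≤ ((s - ((17 / 10) : ℝ)) ^ 2 * ((377177669083 / 1562500) + (6271389131663 / 4375000) * s + (45271778483 / 31250) * s ^ 2 + (9339300641 / 8750) * s ^ 3 + (3372144672 / 4375) * s ^ 4 + (391149174 / 875) * s ^ 5 + (27580696 / 175) * s ^ 6 + (821288 / 35) * s ^ 7) + (-(251015918083591 / 437500000) : ℝ) * s + ((2402057575445091 / 1093750000) : ℝ)) := by
  have h1 : 0 ≤ (s - ((17 / 10) : ℝ)) ^ 2 * ((6271389131663 / 4375000) * s + (45271778483 / 31250) * s ^ 2 + (9339300641 / 8750) * s ^ 3 + (3372144672 / 4375) * s ^ 4 + (391149174 / 875) * s ^ 5 + (27580696 / 175) * s ^ 6 + (821288 / 35) * s ^ 7) := by positivity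
  have h2 : 0 ≤ ((377177669083 / 1562500) : ℝ) * (s + (-(610089059050607 / 211219494686480) : ℝ)) ^ 2 := by positivity
  linarith

theorem edge7_b5 {s : ℝ} (hs : 0 ≤ s) :
    0 ≤ ((s - ((19 / 10) : ℝ)) ^ 2 * ((4420576348669 / 6562500) + (656569002913 / 375000) * s + (70577104977 / 43750) * s ^ 2 + (5858081393 / 5250) * s ^ 3 + (1992252728 / 2625) * s ^ 4 + (221822918 / 525) * s ^ 5 + (15272296 / 105) * s ^ 6 + (449384 / 21) * s ^ 7) + (-(45462265363463 / 262500000) : ℝ) * s + ((746667938130491 / 656250000) : ℝ)) := by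
  have h1 : 0 ≤ (s - ((19 / 10) : ℝ)) ^ 2 * ((656569002913 / 375000) * s + (70577104977 / 43750) * s ^ 2 + (5858081393 / 5250) * s ^ 3 + (1992252728 / 2625) * s ^ 4 + (221822918 / 525) * s ^ 5 + (15272296 / 105) * s ^ 6 + (449384 / 21) * s ^ 7) := by positivity
  have h2 : 0 ≤ ((4420576348669 / 6562500) : ℝ) * (s + (-(55183836181627 / 27203546761040) : ℝ)) ^ 2 := by positivity
  linarith

theorem edge7_b6 {s : ℝ} (hs : 0 ≤ s) :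
    0 ≤ ((s - (2 : ℝ)) ^ 2 * ((6748160 / 7) + (13345792 / 7) * s + (11283456 / 7) * s ^ 2 + (7192064 / 7) * s ^ 3 + (4609792 / 7) * s ^ 4 + (2492160 / 7) * s ^ 5 + (846144 / 7) * s ^ 6 + (123968 / 7) * s ^ 7) + (0 : ℝ) * s + (0 : ℝ)) := by
  positivity

theorem edge7_b7 {s : ℝ} (hs : 0 ≤ s) :
    0 ≤ ((s - (2 : ℝ)) ^ 2 * ((5853184 / 5) + 2281472 * s + (9495552 / 5) * s ^ 2 + 1098752 * s ^ 3 + (2985472 / 5) * s ^ 4 + (1408512 / 5) * s ^ 5 + (440128 / 5) * s ^ 6 + (61984 / 5) * s ^ 7) + (0 : ℝ) * s + (0 : ℝ)) := by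
  positivity

theorem ker7_pp {s t : ℝ} (hs : 0 ≤ s) (ht : 0 ≤ t) (ht1 : t ≤ 1) :
    0 ≤ num7 s t t 1 := by
  have h0 : 0 ≤ 1 * (t ^ 0 * (1 - t) ^ 3) * (33600 + 50400 * s + 46000 * s ^ 2 + 37168 * s ^ 3 + 26988 * s ^ 4 + 11622 * s ^ 5 + 1937 * s ^ 6) :=
    mul_nonneg (mul_nonneg (by norm_num) (mul_nonneg (pow_nonneg ht _) (pow_nonneg (sub_nonneg.2 ht1) _))) (ker7_pp0 hs)
  have h1 : 0 ≤ 3 * (t ^ 1 * (1 - t) ^ 2) * (33600 + 28000 * s + (36992 / 3) * s ^ 2 + (36040 / 3) * s ^ 3 + 16284 * s ^ 4 + 9750 * s ^ 5 + 1937 * s ^ 6) :=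
    mul_nonneg (mul_nonneg (by norm_num) (mul_nonneg (pow_nonneg ht _) (pow_nonneg (sub_nonneg.2 ht1) _))) (ker7_pp1 hs)
  have h2 : 0 ≤ 3 * (t ^ 2 * (1 - t) ^ 1) * ((s - ((3 / 4) : ℝ)) ^ 2 * ((200645 / 256) + (777959 / 48) * s + (340635 / 16) * s ^ 2 + (21567 / 2) * s ^ 3 + 1937 * s ^ 4) + ((7402981 / 512) : ℝ) * s + ((181694995 / 4096) : ℝ)) :=
    mul_nonneg (mul_nonneg (by norm_num) (mul_nonneg (pow_nonneg ht _) (pow_nonneg (sub_nonneg.2 ht1) _))) (ker7_pp2 hs)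
  have h3 : 0 ≤ 1 * (t ^ 3 * (1 - t) ^ 0) * ((s - ((31 / 20) : ℝ)) ^ 2 * ((326050033 / 32000) + (68511257 / 2000) * s + (11731011 / 400) * s ^ 2 + (120107 / 10) * s ^ 3 + 1937 * s ^ 4) + (-(27380880839 / 1600000) : ℝ) * s + ((546825918287 / 12800000) : ℝ)) :=
    mul_nonneg (mul_nonneg (by norm_num) (mul_nonneg (pow_nonneg ht _) (pow_nonneg (sub_nonneg.2 ht1) _))) (ker7_pp3 hs)
  have e : num7 s t t 1 = 1 * (t ^ 0 * (1 - t) ^ 3) * (33600 + 50400 * s + 46000 * s ^ 2 + 37168 * s ^ 3 + 26988 * s ^ 4 + 11622 * s ^ 5 + 1937 * s ^ 6) +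
      3 * (t ^ 1 * (1 - t) ^ 2) * (33600 + 28000 * s + (36992 / 3) * s ^ 2 + (36040 / 3) * s ^ 3 + 16284 * s ^ 4 + 9750 * s ^ 5 + 1937 * s ^ 6) +
      3 * (t ^ 2 * (1 - t) ^ 1) * ((s - ((3 / 4) : ℝ)) ^ 2 * ((200645 / 256) + (777959 / 48) * s + (340635 / 16) * s ^ 2 + (21567 / 2) * s ^ 3 + 1937 * s ^ 4) + ((7402981 / 512) : ℝ) * s + ((181694995 / 4096) : ℝ)) +
      1 * (t ^ 3 * (1 - t) ^ 0) * ((s - ((31 / 20) : ℝ)) ^ 2 * ((326050033 / 32000) + (68511257 / 2000) * s + (11731011 / 400) * s ^ 2 + (120107 / 10) * s ^ 3 + 1937 * s ^ 4) + (-(27380880839 / 1600000) : ℝ) * s + ((546825918287 / 12800000) : ℝ)) := by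
    unfold num7; ring
  rw [e]
  linarith

theorem ker7_pm {s t : ℝ} (hs : 0 ≤ s) (ht : 0 ≤ t) (ht1 : t ≤ 1) :
    0 ≤ num7 s t t (-1) := by
  have h0 : 0 ≤ 1 * (t ^ 0 * (1 - t) ^ 3) * (33600 + 50400 * s + 48080 * s ^ 2 + 37792 * s ^ 3 + 26988 * s ^ 4 + 11622 * s ^ 5 + 1937 * s ^ 6) :=
    mul_nonneg (mul_nonneg (by norm_num) (mul_nonneg (pow_nonneg ht _) (pow_nonneg (sub_nonneg.2 ht1) _))) (ker7_pm0 hs)
  have h1 : 0 ≤ 3 * (t ^ 1 * (1 - t) ^ 2) * (33600 + 28000 * s + (43232 / 3) * s ^ 2 + (35416 / 3) * s ^ 3 + 15868 * s ^ 4 + 9750 * s ^ 5 + 1937 * s ^ 6) :=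
    mul_nonneg (mul_nonneg (by norm_num) (mul_nonneg (pow_nonneg ht _) (pow_nonneg (sub_nonneg.2 ht1) _))) (ker7_pm1 hs)
  have h2 : 0 ≤ 3 * (t ^ 2 * (1 - t) ^ 1) * ((s - ((3 / 4) : ℝ)) ^ 2 * ((269135 / 768) + (678119 / 48) * s + (327323 / 16) * s ^ 2 + (21567 / 2) * s ^ 3 + 1937 * s ^ 4) + ((7669221 / 512) : ℝ) * s + ((182693395 / 4096) : ℝ)) :=
    mul_nonneg (mul_nonneg (by norm_num) (mul_nonneg (pow_nonneg ht _) (pow_nonneg (sub_nonneg.2 ht1) _))) (ker7_pm2 hs)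
  have h3 : 0 ≤ 1 * (t ^ 3 * (1 - t) ^ 0) * ((s - ((8 / 5) : ℝ)) ^ 2 * ((282488 / 25) + (4301236 / 125) * s + (739884 / 25) * s ^ 2 + (61022 / 5) * s ^ 3 + 1937 * s ^ 4) + (-(57283904 / 3125) : ℝ) * s + ((23920768 / 625) : ℝ)) :=
    mul_nonneg (mul_nonneg (by norm_num) (mul_nonneg (pow_nonneg ht _) (pow_nonneg (sub_nonneg.2 ht1) _))) (ker7_pm3 hs)
  have e : num7 s t t (-1) = 1 * (t ^ 0 * (1 - t) ^ 3) * (33600 + 50400 * s + 48080 * s ^ 2 + 37792 * s ^ 3 + 26988 * s ^ 4 + 11622 * s ^ 5 + 1937 * s ^ 6) +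
      3 * (t ^ 1 * (1 - t) ^ 2) * (33600 + 28000 * s + (43232 / 3) * s ^ 2 + (35416 / 3) * s ^ 3 + 15868 * s ^ 4 + 9750 * s ^ 5 + 1937 * s ^ 6) +
      3 * (t ^ 2 * (1 - t) ^ 1) * ((s - ((3 / 4) : ℝ)) ^ 2 * ((269135 / 768) + (678119 / 48) * s + (327323 / 16) * s ^ 2 + (21567 / 2) * s ^ 3 + 1937 * s ^ 4) + ((7669221 / 512) : ℝ) * s + ((182693395 / 4096) : ℝ)) +
      1 * (t ^ 3 * (1 - t) ^ 0) * ((s - ((8 / 5) : ℝ)) ^ 2 * ((282488 / 25) + (4301236 / 125) * s + (739884 / 25) * s ^ 2 + (61022 / 5) * s ^ 3 + 1937 * s ^ 4) + (-(57283904 / 3125) : ℝ) * s + ((23920768 / 625) : ℝ)) := by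
    unfold num7; ring
  rw [e]
  linarith

theorem ker7_mp {s t : ℝ} (hs : 0 ≤ s) (ht : 0 ≤ t) (ht1 : t ≤ 1) :
    0 ≤ num7 s (-t) t 1 := by
  have h0 : 0 ≤ 1 * (t ^ 0 * (1 - t) ^ 3) * (33600 + 50400 * s + 46000 * s ^ 2 + 37168 * s ^ 3 + 26988 * s ^ 4 + 11622 * s ^ 5 + 1937 * s ^ 6) :=
    mul_nonneg (mul_nonneg (by norm_num) (mul_nonneg (pow_nonneg ht _) (pow_nonneg (sub_nonneg.2 ht1) _))) (ker7_mp0 hs)
  have h1 : 0 ≤ 3 * (t ^ 1 * (1 - t) ^ 2) * (33600 + 72800 * s + (238592 / 3) * s ^ 2 + (186760 / 3) * s ^ 3 + 37692 * s ^ 4 + 13494 * s ^ 5 + 1937 * s ^ 6) :=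
    mul_nonneg (mul_nonneg (by norm_num) (mul_nonneg (pow_nonneg ht _) (pow_nonneg (sub_nonneg.2 ht1) _))) (ker7_mp1 hs)
  have h2 : 0 ≤ 3 * (t ^ 2 * (1 - t) ^ 1) * (44800 + 112000 * s + 122848 * s ^ 2 + (272456 / 3) * s ^ 3 + 49020 * s ^ 4 + 15366 * s ^ 5 + 1937 * s ^ 6) :=
    mul_nonneg (mul_nonneg (by norm_num) (mul_nonneg (pow_nonneg ht _) (pow_nonneg (sub_nonneg.2 ht1) _))) (ker7_mp2 hs)
  have h3 : 0 ≤ 1 * (t ^ 3 * (1 - t) ^ 0) * (67200 + 168000 * s + 176056 * s ^ 2 + 122916 * s ^ 3 + 60972 * s ^ 4 + 17238 * s ^ 5 + 1937 * s ^ 6) :=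
    mul_nonneg (mul_nonneg (by norm_num) (mul_nonneg (pow_nonneg ht _) (pow_nonneg (sub_nonneg.2 ht1) _))) (ker7_mp3 hs)
  have e : num7 s (-t) t 1 = 1 * (t ^ 0 * (1 - t) ^ 3) * (33600 + 50400 * s + 46000 * s ^ 2 + 37168 * s ^ 3 + 26988 * s ^ 4 + 11622 * s ^ 5 + 1937 * s ^ 6) +
      3 * (t ^ 1 * (1 - t) ^ 2) * (33600 + 72800 * s + (238592 / 3) * s ^ 2 + (186760 / 3) * s ^ 3 + 37692 * s ^ 4 + 13494 * s ^ 5 + 1937 * s ^ 6) +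
      3 * (t ^ 2 * (1 - t) ^ 1) * (44800 + 112000 * s + 122848 * s ^ 2 + (272456 / 3) * s ^ 3 + 49020 * s ^ 4 + 15366 * s ^ 5 + 1937 * s ^ 6) +
      1 * (t ^ 3 * (1 - t) ^ 0) * (67200 + 168000 * s + 176056 * s ^ 2 + 122916 * s ^ 3 + 60972 * s ^ 4 + 17238 * s ^ 5 + 1937 * s ^ 6) := by
    unfold num7; ring
  rw [e]
  linarith

theorem ker7_mm {s t : ℝ} (hs : 0 ≤ s) (ht : 0 ≤ t) (ht1 : t ≤ 1) :
    0 ≤ num7 s (-t) t (-1) := by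
  have h0 : 0 ≤ 1 * (t ^ 0 * (1 - t) ^ 3) * (33600 + 50400 * s + 48080 * s ^ 2 + 37792 * s ^ 3 + 26988 * s ^ 4 + 11622 * s ^ 5 + 1937 * s ^ 6) :=
    mul_nonneg (mul_nonneg (by norm_num) (mul_nonneg (pow_nonneg ht _) (pow_nonneg (sub_nonneg.2 ht1) _))) (ker7_mm0 hs)
  have h1 : 0 ≤ 3 * (t ^ 1 * (1 - t) ^ 2) * (33600 + 72800 * s + (244832 / 3) * s ^ 2 + (191128 / 3) * s ^ 3 + 38108 * s ^ 4 + 13494 * s ^ 5 + 1937 * s ^ 6) :=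
    mul_nonneg (mul_nonneg (by norm_num) (mul_nonneg (pow_nonneg ht _) (pow_nonneg (sub_nonneg.2 ht1) _))) (ker7_mm1 hs)
  have h2 : 0 ≤ 3 * (t ^ 2 * (1 - t) ^ 1) * (44800 + 112000 * s + (375200 / 3) * s ^ 2 + (279944 / 3) * s ^ 3 + 49852 * s ^ 4 + 15366 * s ^ 5 + 1937 * s ^ 6) :=
    mul_nonneg (mul_nonneg (by norm_num) (mul_nonneg (pow_nonneg ht _) (pow_nonneg (sub_nonneg.2 ht1) _))) (ker7_mm2 hs)
  have h3 : 0 ≤ 1 * (t ^ 3 * (1 - t) ^ 0) * (67200 + 168000 * s + 178552 * s ^ 2 + 126660 * s ^ 3 + 62220 * s ^ 4 + 17238 * s ^ 5 + 1937 * s ^ 6) :=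
    mul_nonneg (mul_nonneg (by norm_num) (mul_nonneg (pow_nonneg ht _) (pow_nonneg (sub_nonneg.2 ht1) _))) (ker7_mm3 hs)
  have e : num7 s (-t) t (-1) = 1 * (t ^ 0 * (1 - t) ^ 3) * (33600 + 50400 * s + 48080 * s ^ 2 + 37792 * s ^ 3 + 26988 * s ^ 4 + 11622 * s ^ 5 + 1937 * s ^ 6) +
      3 * (t ^ 1 * (1 - t) ^ 2) * (33600 + 72800 * s + (244832 / 3) * s ^ 2 + (191128 / 3) * s ^ 3 + 38108 * s ^ 4 + 13494 * s ^ 5 + 1937 * s ^ 6) +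
      3 * (t ^ 2 * (1 - t) ^ 1) * (44800 + 112000 * s + (375200 / 3) * s ^ 2 + (279944 / 3) * s ^ 3 + 49852 * s ^ 4 + 15366 * s ^ 5 + 1937 * s ^ 6) +
      1 * (t ^ 3 * (1 - t) ^ 0) * (67200 + 168000 * s + 178552 * s ^ 2 + 126660 * s ^ 3 + 62220 * s ^ 4 + 17238 * s ^ 5 + 1937 * s ^ 6) := by
    unfold num7; ring
  rw [e]
  linarith

theorem kerMin7 {s : ℝ} (hs : 0 < s) (w v : ℝ) :
    kerMin 6 P7 s w v = (num7 s w |w| v + 104 * s ^ 2 * (2 + s) * |w| * v ^ 2 / 2) /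
      (1937 * s ^ 3 * (2 + s) ^ 3) := by
  have : 0 < 2 + s := by linarith
  rw [P7, kerMin_radial hs, worst, num7]
  simp only [a7, a7', b7, b7']
  field_simp
  ring

theorem ker7_nonneg {s w v : ℝ} (hs : 0 < s) (hw : |w| ≤ 1) (hv : |v| ≤ 1) :
    0 ≤ kerMin 6 P7 s w v := by
  rw [kerMin7 hs]
  refine div_nonneg (add_nonneg ?_ (by positivity)) (by positivity)
  obtain ⟨hv1, hv2⟩ := abs_le.1 hv
  have key : 0 ≤ num7 s w |w| 1 ∧ 0 ≤ num7 s w |w| (-1) := by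
    rcases le_total 0 w with h | h
    · rw [abs_of_nonneg h] at hw ⊢
      exact ⟨ker7_pp hs.le h hw, ker7_pm hs.le h hw⟩
    · rw [abs_of_nonpos h] at hw ⊢
      have h1 := ker7_mp hs.le (neg_nonneg.2 h) hw
      have h2 := ker7_mm hs.le (neg_nonneg.2 h) hw
      rw [neg_neg] at h1 h2
      exact ⟨h1, h2⟩
  have e : num7 s w |w| v =
      (1 + v) / 2 * num7 s w |w| 1 + (1 - v) / 2 * num7 s w |w| (-1) := by
    unfold num7; ring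
  rw [e]
  exact add_nonneg (mul_nonneg (by linarith) key.1) (mul_nonneg (by linarith) key.2)

/-- The chord inequality after clearing denominators, in `σ = c + d` and `p = c * d`. -/
def chord7F (s σ p : ℝ) : ℝ :=
  (-67200 * σ * s ^ 4 - 102048 * σ * s ^ 5 - 77024 * σ * s ^ 6 - 32736 * σ * s ^ 7 - 5616 * σ * s ^ 8 + 33600 * σ ^ 2 * s ^ 3 + 50400 * σ ^ 2 * s ^ 4 + 29568 * σ ^ 2 * s ^ 5 + 10752 * σ ^ 2 * s ^ 6 + 1872 * σ ^ 2 * s ^ 7 + 104 * σ ^ 3 * s ^ 5 + 52 * σ ^ 3 * s ^ 6 + 67200 * s ^ 3 + 100800 * s ^ 4 + 94080 * s ^ 5 + 74960 * s ^ 6 + 53976 * s ^ 7 + 23244 * s ^ 8 + 3874 * s ^ 9) +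
    (-416 * σ * s ^ 5 - 416 * σ * s ^ 6 - 67200 * s ^ 3 - 100800 * s ^ 4 - 59136 * s ^ 5 - 19008 * s ^ 6 - 2496 * s ^ 7) * p +
    64 * (2 + s) ^ 3 * p * (-312 + 1102 * σ + 52 * σ ^ 2 + 54 * σ ^ 3 + 273 * σ ^ 4 -
      (1092 * σ ^ 2 + 162 * σ + 104) * p + 546 * p ^ 2 + (260 * σ + 728) / (1 + σ + p) -
      104 * (2 + σ) ^ 2 / (1 + σ + p) ^ 2) - 100800 * s * (2 + s) ^ 3 * p

theorem chord7_zero {s c : ℝ} (hs : 0 ≤ s) (hc : 0 ≤ c) (hc1 : c ≤ 1) : 0 ≤ chord7F s c 0 := by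
  have h3 : 0 ≤ s ^ 3 * (67200 + 33600 * c ^ 2) := mul_nonneg (pow_nonneg hs 3) (by
    nlinarith [mul_nonneg hc hc, mul_nonneg (mul_nonneg hc hc) hc])
  have h4 : 0 ≤ s ^ 4 * (100800 - 67200 * c + 50400 * c ^ 2) := mul_nonneg (pow_nonneg hs 4) (by
    nlinarith [mul_nonneg hc hc, mul_nonneg (mul_nonneg hc hc) hc])
  have h5 : 0 ≤ s ^ 5 * (94080 - 102048 * c + 29568 * c ^ 2 + 104 * c ^ 3) := mul_nonneg (pow_nonneg hs 5) (by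
    nlinarith [mul_nonneg hc hc, mul_nonneg (mul_nonneg hc hc) hc])
  have h6 : 0 ≤ s ^ 6 * (74960 - 77024 * c + 10752 * c ^ 2 + 52 * c ^ 3) := mul_nonneg (pow_nonneg hs 6) (by
    nlinarith [mul_nonneg hc hc, mul_nonneg (mul_nonneg hc hc) hc])
  have h7 : 0 ≤ s ^ 7 * (53976 - 32736 * c + 1872 * c ^ 2) := mul_nonneg (pow_nonneg hs 7) (by
    nlinarith [mul_nonneg hc hc, mul_nonneg (mul_nonneg hc hc) hc])
  have h8 : 0 ≤ s ^ 8 * (23244 - 5616 * c) := mul_nonneg (pow_nonneg hs 8) (by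
    nlinarith [mul_nonneg hc hc, mul_nonneg (mul_nonneg hc hc) hc])
  have h9 : 0 ≤ s ^ 9 * (3874) := mul_nonneg (pow_nonneg hs 9) (by
    nlinarith [mul_nonneg hc hc, mul_nonneg (mul_nonneg hc hc) hc])
  have e : chord7F s c 0 = s ^ 3 * (67200 + 33600 * c ^ 2) +
    s ^ 4 * (100800 - 67200 * c + 50400 * c ^ 2) +
    s ^ 5 * (94080 - 102048 * c + 29568 * c ^ 2 + 104 * c ^ 3) +
    s ^ 6 * (74960 - 77024 * c + 10752 * c ^ 2 + 52 * c ^ 3) +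
    s ^ 7 * (53976 - 32736 * c + 1872 * c ^ 2) +
    s ^ 8 * (23244 - 5616 * c) +
    s ^ 9 * (3874) := by
    unfold chord7F; ring
  linarith

theorem chord7_diag {s t : ℝ} (hs : 0 ≤ s) (ht : 0 ≤ t) :
    0 ≤ chord7F s (2 * t) (t ^ 2) := by
  have h0 : 0 ≤ s ^ 0 * (268800 * t + 537600 * t ^ 2 + 322560 * t ^ 3 + 110848 * t ^ 4 + 153600 * t ^ 5 + 69888 * t ^ 6) := by positivity
  have h1 : 0 ≤ s ^ 1 * (67200 + 537600 * t + 927360 * t ^ 2 + 594688 * t ^ 3 + 319872 * t ^ 4 + 300288 * t ^ 5 + 104832 * t ^ 6) := by positivity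
  have h2 : 0 ≤ s ^ 2 * (100800 + 443520 * t + 667776 * t ^ 2 + 523392 * t ^ 3 + 365952 * t ^ 4 + 220032 * t ^ 5 + 52416 * t ^ 6) := by positivity
  have h3 : 0 ≤ s ^ 3 * (94080 + 283904 * t + 376224 * t ^ 2 + 331200 * t ^ 3 + 207680 * t ^ 4 + 71616 * t ^ 5 + 8736 * t ^ 6) := by positivity
  have h4 : 0 ≤ s ^ 4 * (74960 + 211776 * t + 239712 * t ^ 2 + 152672 * t ^ 3 + 58512 * t ^ 4 + 8736 * t ^ 5) := by positivity
  have h5 : 0 ≤ s ^ 5 * (53976 + 135456 * t + 115536 * t ^ 2 + 40608 * t ^ 3 + 6552 * t ^ 4) := by positivity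
  have h6 : 0 ≤ s ^ 6 * (23244 + 50752 * t + 31772 * t ^ 2 + 4264 * t ^ 3) := by positivity
  have h7 : 0 ≤ s ^ 7 * (3874 + 7748 * t + 3874 * t ^ 2) := by positivity
  have h1t : 0 < 1 + t := by linarith
  have e : chord7F s (2 * t) (t ^ 2) = (s - 2 * t) ^ 2 * (s ^ 0 * (268800 * t + 537600 * t ^ 2 + 322560 * t ^ 3 + 110848 * t ^ 4 + 153600 * t ^ 5 + 69888 * t ^ 6) +
    s ^ 1 * (67200 + 537600 * t + 927360 * t ^ 2 + 594688 * t ^ 3 + 319872 * t ^ 4 + 300288 * t ^ 5 + 104832 * t ^ 6) +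
    s ^ 2 * (100800 + 443520 * t + 667776 * t ^ 2 + 523392 * t ^ 3 + 365952 * t ^ 4 + 220032 * t ^ 5 + 52416 * t ^ 6) +
    s ^ 3 * (94080 + 283904 * t + 376224 * t ^ 2 + 331200 * t ^ 3 + 207680 * t ^ 4 + 71616 * t ^ 5 + 8736 * t ^ 6) +
    s ^ 4 * (74960 + 211776 * t + 239712 * t ^ 2 + 152672 * t ^ 3 + 58512 * t ^ 4 + 8736 * t ^ 5) +
    s ^ 5 * (53976 + 135456 * t + 115536 * t ^ 2 + 40608 * t ^ 3 + 6552 * t ^ 4) +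
    s ^ 6 * (23244 + 50752 * t + 31772 * t ^ 2 + 4264 * t ^ 3) +
    s ^ 7 * (3874 + 7748 * t + 3874 * t ^ 2)) / (1 + t) ^ 2 := by
    unfold chord7F
    rw [show 1 + 2 * t + t ^ 2 = (1 + t) ^ 2 by ring]
    field_simp
    ring
  rw [e]
  exact div_nonneg (mul_nonneg (sq_nonneg _) (by linarith)) (sq_nonneg _)

theorem chord7_term0 {s t : ℝ} (hs : 0 ≤ s) (ht : 0 ≤ t) (ht1 : t ≤ 1) :
    0 ≤ 403200 * s ^ 3 - 2822400 * s ^ 3 * t + 8467200 * s ^ 3 * t ^ 2 - 14112000 * s ^ 3 * t ^ 3 + 14112000 * s ^ 3 * t ^ 4 - 8467200 * s ^ 3 * t ^ 5 + 2822400 * s ^ 3 * t ^ 6 - 403200 * s ^ 3 * t ^ 7 + 336000 * s ^ 4 - 2352000 * s ^ 4 * t + 7056000 * s ^ 4 * t ^ 2 - 11760000 * s ^ 4 * t ^ 3 + 11760000 * s ^ 4 * t ^ 4 - 7056000 * s ^ 4 * t ^ 5 + 2352000 * s ^ 4 * t ^ 6 - 336000 * s ^ 4 * t ^ 7 + 86816 * s ^ 5 - 607712 * s ^ 5 * t + 1823136 * s ^ 5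 * t ^ 2 - 3038560 * s ^ 5 * t ^ 3 + 3038560 * s ^ 5 * t ^ 4 - 1823136 * s ^ 5 * t ^ 5 + 607712 * s ^ 5 * t ^ 6 - 86816 * s ^ 5 * t ^ 7 + 34960 * s ^ 6 - 244720 * s ^ 6 * t + 734160 * s ^ 6 * t ^ 2 - 1223600 * s ^ 6 * t ^ 3 + 1223600 * s ^ 6 * t ^ 4 - 734160 * s ^ 6 * t ^ 5 + 244720 * s ^ 6 * t ^ 6 - 34960 * s ^ 6 * t ^ 7 + 92448 * s ^ 7 - 647136 * s ^ 7 * t + 1941408 * s ^ 7 * t ^ 2 - 3235680 * s ^ 7 * t ^ 3 + 3235680 * s ^ 7 * t ^ 4 - 1941408 * s ^ 7 * t ^ 5 + 647136 * s ^ 7 * t ^ 6 - 92448 * s ^ 7 * t ^ 7 + 70512 * s ^ 8 - 493584 * s ^ 8 * t + 1480752 * s ^ 8 * t ^ 2 - 2467920 * s ^ 8 * t ^ 3 + 2467920 * s ^ 8 * t ^ 4 - 1480752 * s ^ 8 * t ^ 5 + 493584 * s ^ 8 * t ^ 6 - 70512 * s ^ 8 * t ^ 7 + 15496 * s ^ 9 - 108472 * s ^ 9 * t + 325416 * s ^ 9 * t ^ 2 - 542360 * s ^ 9 * t ^ 3 + 542360 * s ^ 9 * t ^ 4 - 325416 * s ^ 9 * t ^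 5 + 108472 * s ^ 9 * t ^ 6 - 15496 * s ^ 9 * t ^ 7 := by
  have h : 0 ≤ 1 * (t ^ 0 * (1 - t) ^ 7) * (403200 * s ^ 3 + 336000 * s ^ 4 + 86816 * s ^ 5 + 34960 * s ^ 6 + 92448 * s ^ 7 + 70512 * s ^ 8 + 15496 * s ^ 9) := mul_nonneg (mul_nonneg (by norm_num) (mul_nonneg (pow_nonneg ht _) (pow_nonneg (sub_nonneg.2 ht1) _))) (edge7_b0 hs)
  refine h.trans_eq ?_
  ring

theorem chord7_term1 {s t : ℝ} (hs : 0 ≤ s) (ht : 0 ≤ t) (ht1 : t ≤ 1) :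
    0 ≤ 1164288 * s * t - 6985728 * s * t ^ 2 + 17464320 * s * t ^ 3 - 23285760 * s * t ^ 4 + 17464320 * s * t ^ 5 - 6985728 * s * t ^ 6 + 1164288 * s * t ^ 7 - 2643456 * s ^ 2 * t + 15860736 * s ^ 2 * t ^ 2 - 39651840 * s ^ 2 * t ^ 3 + 52869120 * s ^ 2 * t ^ 4 - 39651840 * s ^ 2 * t ^ 5 + 15860736 * s ^ 2 * t ^ 6 - 2643456 * s ^ 2 * t ^ 7 + 1575424 * s ^ 3 * t - 9452544 * s ^ 3 * t ^ 2 + 23631360 * s ^ 3 * t ^ 3 - 31508480 * s ^ 3 * t ^ 4 + 23631360 * s ^ 3 * t ^ 5 - 9452544 * s ^ 3 * t ^ 6 + 1575424 * s ^ 3 * t ^ 7 + 2352000 * s ^ 4 * t - 14112000 * s ^ 4 * t ^ 2 + 35280000 * s ^ 4 * t ^ 3 - 47040000 * s ^ 4 * t ^ 4 + 35280000 * s ^ 4 * t ^ 5 - 14112000 * s ^ 4 * t ^ 6 + 2352000 * s ^ 4 * t ^ 7 + 372736 * s ^ 5 * t - 2236416 * s ^ 5 * t ^ 2 + 5591040 * s ^ 5 * t ^ 3 - 7454720 * s ^ 5 * t ^ 4 + 5591040 * s ^ 5 * t ^ 5 - 2236416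 * s ^ 5 * t ^ 6 + 372736 * s ^ 5 * t ^ 7 + 15488 * s ^ 6 * t - 92928 * s ^ 6 * t ^ 2 + 232320 * s ^ 6 * t ^ 3 - 309760 * s ^ 6 * t ^ 4 + 232320 * s ^ 6 * t ^ 5 - 92928 * s ^ 6 * t ^ 6 + 15488 * s ^ 6 * t ^ 7 + 706080 * s ^ 7 * t - 4236480 * s ^ 7 * t ^ 2 + 10591200 * s ^ 7 * t ^ 3 - 14121600 * s ^ 7 * t ^ 4 + 10591200 * s ^ 7 * t ^ 5 - 4236480 * s ^ 7 * t ^ 6 + 706080 * s ^ 7 * t ^ 7 + 612144 * s ^ 8 * t - 3672864 * s ^ 8 * t ^ 2 + 9182160 * s ^ 8 * t ^ 3 - 12242880 * s ^ 8 * t ^ 4 + 9182160 * s ^ 8 * t ^ 5 - 3672864 * s ^ 8 * t ^ 6 + 612144 * s ^ 8 * t ^ 7 + 139464 * s ^ 9 * t - 836784 * s ^ 9 * t ^ 2 + 2091960 * s ^ 9 * t ^ 3 - 2789280 * s ^ 9 * t ^ 4 + 2091960 * s ^ 9 * t ^ 5 - 836784 * s ^ 9 * t ^ 6 + 139464 * s ^ 9 * t ^ 7 + 2926592 * t - 17559552 * t ^ 2 + 43898880 * t ^ 3 - 58531840 * t ^ 4 + 43898880 * t ^ 5 - 17559552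 * t ^ 6 + 2926592 * t ^ 7 := by
  have h : 0 ≤ 7 * (t ^ 1 * (1 - t) ^ 6) * ((s - ((17 / 40) : ℝ)) ^ 2 * ((63602103065197 / 2560000000) + (289149581844697 / 512000000) * s + (19235127729043 / 44800000) * s ^ 2 + (8952911583 / 64000) * s ^ 3 + (1980371389 / 14000) * s ^ 4 + (260394891 / 1400) * s ^ 5 + (3653442 / 35) * s ^ 6 + (139464 / 7) * s ^ 7) + ((489933529764313057 / 5734400000000) : ℝ) * s + ((11858653777499106469 / 28672000000000) : ℝ)) := mul_nonneg (mul_nonneg (by norm_num) (mul_nonneg (pow_nonneg ht _) (pow_nonneg (sub_nonneg.2 ht1) _))) (edge7_b1 hs)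
  refine h.trans_eq ?_
  ring

theorem chord7_term2 {s t : ℝ} (hs : 0 ≤ s) (ht : 0 ≤ t) (ht1 : t ≤ 1) :
    0 ≤ (72152064 / 5) * s * t ^ 2 - 72152064 * s * t ^ 3 + 144304128 * s * t ^ 4 - 144304128 * s * t ^ 5 + 72152064 * s * t ^ 6 - (72152064 / 5) * s * t ^ 7 - (74007808 / 5) * s ^ 2 * t ^ 2 + 74007808 * s ^ 2 * t ^ 3 - 148015616 * s ^ 2 * t ^ 4 + 148015616 * s ^ 2 * t ^ 5 - 74007808 * s ^ 2 * t ^ 6 + (74007808 / 5) * s ^ 2 * t ^ 7 - (12592128 / 5) * s ^ 3 * t ^ 2 + 12592128 * s ^ 3 * t ^ 3 - 25184256 * s ^ 3 * t ^ 4 + 25184256 * s ^ 3 * t ^ 5 - 12592128 * s ^ 3 * t ^ 6 + (12592128 / 5) * s ^ 3 * t ^ 7 + 3902208 * s ^ 4 * t ^ 2 - 19511040 * s ^ 4 * t ^ 3 + 39022080 * s ^ 4 * t ^ 4 - 39022080 * s ^ 4 * t ^ 5 + 19511040 * s ^ 4 * t ^ 6 - 3902208 * s ^ 4 * t ^ 7 - 1645536 * s ^ 5 * t ^ 2 + 8227680 * s ^ 5 * t ^ 3 - 16455360 * s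 ^ 5 * t ^ 4 + 16455360 * s ^ 5 * t ^ 5 - 8227680 * s ^ 5 * t ^ 6 + 1645536 * s ^ 5 * t ^ 7 - (10294144 / 5) * s ^ 6 * t ^ 2 + 10294144 * s ^ 6 * t ^ 3 - 20588288 * s ^ 6 * t ^ 4 + 20588288 * s ^ 6 * t ^ 5 - 10294144 * s ^ 6 * t ^ 6 + (10294144 / 5) * s ^ 6 * t ^ 7 + (7582776 / 5) * s ^ 7 * t ^ 2 - 7582776 * s ^ 7 * t ^ 3 + 15165552 * s ^ 7 * t ^ 4 - 15165552 * s ^ 7 * t ^ 5 + 7582776 * s ^ 7 * t ^ 6 - (7582776 / 5) * s ^ 7 * t ^ 7 + (9699872 / 5) * s ^ 8 * t ^ 2 - 9699872 * s ^ 8 * t ^ 3 + 19399744 * s ^ 8 * t ^ 4 - 19399744 * s ^ 8 * t ^ 5 + 9699872 * s ^ 8 * t ^ 6 - (9699872 / 5) * s ^ 8 * t ^ 7 + (2386384 / 5) * s ^ 9 * t ^ 2 - 2386384 * s ^ 9 * t ^ 3 + 4772768 * s ^ 9 * t ^ 4 - 4772768 * s ^ 9 * t ^ 5 + 2386384 * s ^ 9 * t ^ 6 - (2386384 / 5) * s ^ 9 * t ^ 7 + (114646016 / 5) * t ^ 2 - 114646016 * t ^ 3 + 229292032 * t ^ 4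 - 229292032 * t ^ 5 + 114646016 * t ^ 6 - (114646016 / 5) * t ^ 7 := by
  have h : 0 ≤ 21 * (t ^ 2 * (1 - t) ^ 5) * ((s - (1 : ℝ)) ^ 2 * ((7446448 / 105) + (24462712 / 35) * s + (65322016 / 105) * s ^ 2 + (44663768 / 105) * s ^ 3 + (2901104 / 7) * s ^ 4 + (34141672 / 105) * s ^ 5 + (413504 / 3) * s ^ 6 + (340912 / 15) * s ^ 7) + ((13656824 / 105) : ℝ) * s + ((15314224 / 15) : ℝ)) := mul_nonneg (mul_nonneg (by norm_num) (mul_nonneg (pow_nonneg ht _) (pow_nonneg (sub_nonneg.2 ht1) _))) (edge7_b2 hs)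
  refine h.trans_eq ?_
  ring

theorem chord7_term3 {s t : ℝ} (hs : 0 ≤ s) (ht : 0 ≤ t) (ht1 : t ≤ 1) :
    0 ≤ 56898560 * s * t ^ 3 - 227594240 * s * t ^ 4 + 341391360 * s * t ^ 5 - 227594240 * s * t ^ 6 + 56898560 * s * t ^ 7 - 25202432 * s ^ 2 * t ^ 3 + 100809728 * s ^ 2 * t ^ 4 - 151214592 * s ^ 2 * t ^ 5 + 100809728 * s ^ 2 * t ^ 6 - 25202432 * s ^ 2 * t ^ 7 - 12608000 * s ^ 3 * t ^ 3 + 50432000 * s ^ 3 * t ^ 4 - 75648000 * s ^ 3 * t ^ 5 + 50432000 * s ^ 3 * t ^ 6 - 12608000 * s ^ 3 * t ^ 7 + 2231552 * s ^ 4 * t ^ 3 - 8926208 * s ^ 4 * t ^ 4 + 13389312 * s ^ 4 * t ^ 5 - 8926208 * s ^ 4 * t ^ 6 + 2231552 * s ^ 4 * t ^ 7 - 7094464 * s ^ 5 * t ^ 3 + 28377856 * s ^ 5 * t ^ 4 - 42566784 * s ^ 5 * t ^ 5 + 28377856 * s ^ 5 * t ^ 6 - 7094464 * s ^ 5 * t ^ 7 - 7361040 * s ^ 6 * t ^ 3 + 29444160 * s ^ 6 * t ^ 4 - 44166240 * s ^ 6 *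 t ^ 5 + 29444160 * s ^ 6 * t ^ 6 - 7361040 * s ^ 6 * t ^ 7 + 903560 * s ^ 7 * t ^ 3 - 3614240 * s ^ 7 * t ^ 4 + 5421360 * s ^ 7 * t ^ 5 - 3614240 * s ^ 7 * t ^ 6 + 903560 * s ^ 7 * t ^ 7 + 3087136 * s ^ 8 * t ^ 3 - 12348544 * s ^ 8 * t ^ 4 + 18522816 * s ^ 8 * t ^ 5 - 12348544 * s ^ 8 * t ^ 6 + 3087136 * s ^ 8 * t ^ 7 + 836784 * s ^ 9 * t ^ 3 - 3347136 * s ^ 9 * t ^ 4 + 5020704 * s ^ 9 * t ^ 5 - 3347136 * s ^ 9 * t ^ 6 + 836784 * s ^ 9 * t ^ 7 + 69194752 * t ^ 3 - 276779008 * t ^ 4 + 415168512 * t ^ 5 - 276779008 * t ^ 6 + 69194752 * t ^ 7 := by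
  have h : 0 ≤ 35 * (t ^ 3 * (1 - t) ^ 4) * ((s - ((57 / 40) : ℝ)) ^ 2 * ((14403913693354097 / 44800000000) + (10712382096089437 / 8960000000) * s + (130487433937729 / 112000000) * s ^ 2 + (27808301177 / 32000) * s ^ 3 + (23705961327 / 35000) * s ^ 4 + (211421159 / 500) * s ^ 5 + (27359852 / 175) * s ^ 6 + (836784 / 35) * s ^ 7) + ((1637490034144355651 / 14336000000000) : ℝ) * s + ((94912536506292538847 / 71680000000000) : ℝ)) := mul_nonneg (mul_nonneg (by norm_num) (mul_nonneg (pow_nonneg ht _) (pow_nonneg (sub_nonneg.2 ht1) _))) (edge7_b3 hs)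
  refine h.trans_eq ?_
  ring

theorem chord7_term4 {s t : ℝ} (hs : 0 ≤ s) (ht : 0 ≤ t) (ht1 : t ≤ 1) :
    0 ≤ 96187392 * s * t ^ 4 - 288562176 * s * t ^ 5 + 288562176 * s * t ^ 6 - 96187392 * s * t ^ 7 - 15597312 * s ^ 2 * t ^ 4 + 46791936 * s ^ 2 * t ^ 5 - 46791936 * s ^ 2 * t ^ 6 + 15597312 * s ^ 2 * t ^ 7 - 14261504 * s ^ 3 * t ^ 4 + 42784512 * s ^ 3 * t ^ 5 - 42784512 * s ^ 3 * t ^ 6 + 14261504 * s ^ 3 * t ^ 7 + 1653888 * s ^ 4 * t ^ 4 - 4961664 * s ^ 4 * t ^ 5 + 4961664 * s ^ 4 * t ^ 6 - 1653888 * s ^ 4 * t ^ 7 - 9148288 * s ^ 5 * t ^ 4 + 27444864 * s ^ 5 * t ^ 5 - 27444864 * s ^ 5 * t ^ 6 + 9148288 * s ^ 5 * t ^ 7 - 10277488 * s ^ 6 * t ^ 4 + 30832464 * s ^ 6 * t ^ 5 - 30832464 * s ^ 6 * t ^ 6 + 10277488 * s ^ 6 * t ^ 7 - 735384 * s ^ 7 * t ^ 4 + 2206152 * s ^ 7 * t ^ 5 - 2206152 * s ^ 7 * t ^ 6 + 735384 * s ^ 7 * t ^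 7 + 2723760 * s ^ 8 * t ^ 4 - 8171280 * s ^ 8 * t ^ 5 + 8171280 * s ^ 8 * t ^ 6 - 2723760 * s ^ 8 * t ^ 7 + 821288 * s ^ 9 * t ^ 4 - 2463864 * s ^ 9 * t ^ 5 + 2463864 * s ^ 9 * t ^ 6 - 821288 * s ^ 9 * t ^ 7 + 101282816 * t ^ 4 - 303848448 * t ^ 5 + 303848448 * t ^ 6 - 101282816 * t ^ 7 := by
  have h : 0 ≤ 35 * (t ^ 4 * (1 - t) ^ 3) * ((s - ((17 / 10) : ℝ)) ^ 2 * ((377177669083 / 1562500) + (6271389131663 / 4375000) * s + (45271778483 / 31250) * s ^ 2 + (9339300641 / 8750) * s ^ 3 + (3372144672 / 4375) * s ^ 4 + (391149174 / 875) * s ^ 5 + (27580696 / 175) * s ^ 6 + (821288 / 35) * s ^ 7) + (-(251015918083591 / 437500000) : ℝ) * s + ((2402057575445091 / 1093750000) : ℝ)) := mul_nonneg (mul_nonneg (by norm_num) (mul_nonneg (pow_nonneg ht _) (pow_nonneg (sub_nonneg.2 ht1) _))) (edge7_b4 hs)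
  refine h.trans_eq ?_
  ring

theorem chord7_term5 {s t : ℝ} (hs : 0 ≤ s) (ht : 0 ≤ t) (ht1 : t ≤ 1) :
    0 ≤ 75340800 * s * t ^ 5 - 150681600 * s * t ^ 6 + 75340800 * s * t ^ 7 - 3276032 * s ^ 2 * t ^ 5 + 6552064 * s ^ 2 * t ^ 6 - 3276032 * s ^ 2 * t ^ 7 - 7374080 * s ^ 3 * t ^ 5 + 14748160 * s ^ 3 * t ^ 6 - 7374080 * s ^ 3 * t ^ 7 + 2370432 * s ^ 4 * t ^ 5 - 4740864 * s ^ 4 * t ^ 6 + 2370432 * s ^ 4 * t ^ 7 - 5100928 * s ^ 5 * t ^ 5 + 10201856 * s ^ 5 * t ^ 6 - 5100928 * s ^ 5 * t ^ 7 - 6752464 * s ^ 6 * t ^ 5 + 13504928 * s ^ 6 * t ^ 6 - 6752464 * s ^ 6 * t ^ 7 - 1111752 * s ^ 7 * t ^ 5 + 2223504 * s ^ 7 * t ^ 6 - 1111752 * s ^ 7 * t ^ 7 + 1346800 * s ^ 8 * t ^ 5 - 2693600 * s ^ 8 * t ^ 6 + 1346800 * s ^ 8 * t ^ 7 + 449384 * s ^ 9 * t ^ 5 - 898768 * s ^ 9 * t ^ 6 + 449384 * s ^ 9 * t ^ 7 + 74959872 * t ^ 5 - 149919744 * t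 ^ 6 + 74959872 * t ^ 7 := by
  have h : 0 ≤ 21 * (t ^ 5 * (1 - t) ^ 2) * ((s - ((19 / 10) : ℝ)) ^ 2 * ((4420576348669 / 6562500) + (656569002913 / 375000) * s + (70577104977 / 43750) * s ^ 2 + (5858081393 / 5250) * s ^ 3 + (1992252728 / 2625) * s ^ 4 + (221822918 / 525) * s ^ 5 + (15272296 / 105) * s ^ 6 + (449384 / 21) * s ^ 7) + (-(45462265363463 / 262500000) : ℝ) * s + ((746667938130491 / 656250000) : ℝ)) := mul_nonneg (mul_nonneg (by norm_num) (mul_nonneg (pow_nonneg ht _) (pow_nonneg (sub_nonneg.2 ht1) _))) (edge7_b5 hs)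
  refine h.trans_eq ?_
  ring

theorem chord7_term6 {s t : ℝ} (hs : 0 ≤ s) (ht : 0 ≤ t) (ht1 : t ≤ 1) :
    0 ≤ 26390528 * s * t ^ 6 - 26390528 * s * t ^ 7 - 1501184 * s ^ 2 * t ^ 6 + 1501184 * s ^ 2 * t ^ 7 - 3019776 * s ^ 3 * t ^ 6 + 3019776 * s ^ 3 * t ^ 7 + 954368 * s ^ 4 * t ^ 6 - 954368 * s ^ 4 * t ^ 7 - 1278464 * s ^ 5 * t ^ 6 + 1278464 * s ^ 5 * t ^ 7 - 1974272 * s ^ 6 * t ^ 6 + 1974272 * s ^ 6 * t ^ 7 - 396544 * s ^ 7 * t ^ 6 + 396544 * s ^ 7 * t ^ 7 + 350272 * s ^ 8 * t ^ 6 - 350272 * s ^ 8 * t ^ 7 + 123968 * s ^ 9 * t ^ 6 - 123968 * s ^ 9 * t ^ 7 + 26992640 * t ^ 6 - 26992640 * t ^ 7 := by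
  have h : 0 ≤ 7 * (t ^ 6 * (1 - t) ^ 1) * ((s - (2 : ℝ)) ^ 2 * ((6748160 / 7) + (13345792 / 7) * s + (11283456 / 7) * s ^ 2 + (7192064 / 7) * s ^ 3 + (4609792 / 7) * s ^ 4 + (2492160 / 7) * s ^ 5 + (846144 / 7) * s ^ 6 + (123968 / 7) * s ^ 7) + (0 : ℝ) * s + (0 : ℝ)) := mul_nonneg (mul_nonneg (by norm_num) (mul_nonneg (pow_nonneg ht _) (pow_nonneg (sub_nonneg.2 ht1) _))) (edge7_b6 hs)
  refine h.trans_eq ?_
  ring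

theorem chord7_term7 {s t : ℝ} (hs : 0 ≤ s) (ht : 0 ≤ t) (ht1 : t ≤ 1) :
    0 ≤ (22216704 / 5) * s * t ^ 7 - (1794048 / 5) * s ^ 2 * t ^ 7 - (4599808 / 5) * s ^ 3 * t ^ 7 - 107520 * s ^ 4 * t ^ 7 - 162816 * s ^ 5 * t ^ 7 - (888064 / 5) * s ^ 6 * t ^ 7 - (104064 / 5) * s ^ 7 * t ^ 7 + (192192 / 5) * s ^ 8 * t ^ 7 + (61984 / 5) * s ^ 9 * t ^ 7 + (23412736 / 5) * t ^ 7 := by
  have h : 0 ≤ 1 * (t ^ 7 * (1 - t) ^ 0) * ((s - (2 : ℝ)) ^ 2 * ((5853184 / 5) + 2281472 * s + (9495552 / 5) * s ^ 2 + 1098752 * s ^ 3 + (2985472 / 5) * s ^ 4 + (1408512 / 5) * s ^ 5 + (440128 / 5) * s ^ 6 + (61984 / 5) * s ^ 7) + (0 : ℝ) * s + (0 : ℝ)) := mul_nonneg (mul_nonneg (by norm_num) (mul_nonneg (pow_nonneg ht _) (pow_nonneg (sub_nonneg.2 ht1) _))) (edge7_b7 hs)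
  refine h.trans_eq ?_
  ring

theorem chord7_term8 {s t : ℝ} (hs : 0 ≤ s) (ht : 0 ≤ t) (ht1 : t ≤ 1) :
    0 ≤ -(9452544 / 5) * s * t ^ 2 + 5404672 * s * t ^ 3 + 14259200 * s * t ^ 4 - (23666432 / 5) * s ^ 2 * t ^ 2 - 8571392 * s ^ 2 * t ^ 3 + 11869440 * s ^ 2 * t ^ 4 + (1017088 / 5) * s ^ 3 * t ^ 2 - 10750464 * s ^ 3 * t ^ 3 + 6867200 * s ^ 3 * t ^ 4 + 2347392 * s ^ 4 * t ^ 2 - 6509312 * s ^ 4 * t ^ 3 + 3731840 * s ^ 4 * t ^ 4 + 1446272 * s ^ 5 * t ^ 2 - 3858176 * s ^ 5 * t ^ 3 + 1760640 * s ^ 5 * t ^ 4 + (4481104 / 5) * s ^ 6 * t ^ 2 - 2156832 * s ^ 6 * t ^ 3 + 550160 * s ^ 6 * t ^ 4 + (3132744 / 5) * s ^ 7 * t ^ 2 - 787280 * s ^ 7 * t ^ 3 + 77480 * s ^ 7 * t ^ 4 + (1388608 / 5) * s ^ 8 * t ^ 2 - 123968 * s ^ 8 * t ^ 3 + (247936 / 5) * s ^ 9 * t ^ 2 + (13169664 / 5) * t ^ 2 + 8779776 * t ^ 3 + 7316480 * t ^ 4 := by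
  have h : 0 ≤ (4 / 5 : ℝ) * (5853184 + 11407360 * s + 9495552 * s ^ 2 + 5493760 * s ^ 3 + 2985472 * s ^ 4 + 1408512 * s ^ 5 + 440128 * s ^ 6 + 61984 * s ^ 7) * t ^ 2 * (s - 2 + 5 / 4 * (1 - t)) ^ 2 := by positivity
  refine h.trans_eq ?_
  ring

theorem chord7_edge_poly {s t : ℝ} (hs : 0 ≤ s) (ht : 0 ≤ t) (ht1 : t ≤ 1) :
    0 ≤ 1164288 * s * t + 5554176 * s * t ^ 2 + 7615488 * s * t ^ 3 + 3870720 * s * t ^ 4 + 1330176 * s * t ^ 5 + 1843200 * s * t ^ 6 + 838656 * s * t ^ 7 - 2643456 * s ^ 2 * t - 3674112 * s ^ 2 * t ^ 2 + 582144 * s ^ 2 * t ^ 3 + 1935360 * s ^ 2 * t ^ 4 + 665088 * s ^ 2 * t ^ 5 + 921600 * s ^ 2 * t ^ 6 + 419328 * s ^ 2 * t ^ 7 + 403200 * s ^ 3 - 1246976 * s ^ 3 * t - 3300352 * s ^ 3 * t ^ 2 - 1246976 * s ^ 3 * t ^ 3 + 456960 * s ^ 3 * t ^ 4 + 110848 * s ^ 3 * t ^ 5 + 153600 * s ^ 3 * t ^ 6 + 69888 * s ^ 3 * t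 ^ 7 + 336000 * s ^ 4 - 806400 * s ^ 4 * t ^ 2 - 268800 * s ^ 4 * t ^ 3 + 201600 * s ^ 4 * t ^ 4 + 86816 * s ^ 5 - 234976 * s ^ 5 * t - 612544 * s ^ 5 * t ^ 2 - 172480 * s ^ 5 * t ^ 3 + 118688 * s ^ 5 * t ^ 4 + 416 * s ^ 5 * t ^ 5 + 34960 * s ^ 6 - 229232 * s ^ 6 * t - 521376 * s ^ 6 * t ^ 2 - 215008 * s ^ 6 * t ^ 3 + 42384 * s ^ 6 * t ^ 4 + 208 * s ^ 6 * t ^ 5 + 92448 * s ^ 7 + 58944 * s ^ 7 * t - 151968 * s ^ 7 * t ^ 2 - 110976 * s ^ 7 * t ^ 3 + 7488 * s ^ 7 * t ^ 4 + 70512 * s ^ 8 + 118560 * s ^ 8 * t + 25584 * s ^ 8 * t ^ 2 - 22464 * s ^ 8 * t ^ 3 + 15496 * s ^ 9 + 30992 * s ^ 9 * t + 15496 * s ^ 9 * t ^ 2 + 2926592 * t + 8003584 * t ^ 2 + 7227392 * t ^ 3 + 2580480 * t ^ 4 + 886784 * t ^ 5 + 1228800 * t ^ 6 + 559104 * t ^ 7 := by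
  have h0 := chord7_term0 hs ht ht1
  have h1 := chord7_term1 hs ht ht1
  have h2 := chord7_term2 hs ht ht1
  have h3 := chord7_term3 hs ht ht1
  have h4 := chord7_term4 hs ht ht1
  have h5 := chord7_term5 hs ht ht1
  have h6 := chord7_term6 hs ht ht1
  have h7 := chord7_term7 hs ht ht1
  have h8 := chord7_term8 hs ht ht1
  linarith

theorem chord7_edge {s t : ℝ} (hs : 0 ≤ s) (ht : 0 ≤ t) (ht1 : t ≤ 1) :
    0 ≤ chord7F s (1 + t) t := by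
  have h1t : 0 < 1 + t := by linarith
  have e : chord7F s (1 + t) t = (1164288 * s * t + 5554176 * s * t ^ 2 + 7615488 * s * t ^ 3 + 3870720 * s * t ^ 4 + 1330176 * s * t ^ 5 + 1843200 * s * t ^ 6 + 838656 * s * t ^ 7 - 2643456 * s ^ 2 * t - 3674112 * s ^ 2 * t ^ 2 + 582144 * s ^ 2 * t ^ 3 + 1935360 * s ^ 2 * t ^ 4 + 665088 * s ^ 2 * t ^ 5 + 921600 * s ^ 2 * t ^ 6 + 419328 * s ^ 2 * t ^ 7 + 403200 * s ^ 3 - 1246976 * s ^ 3 * t - 3300352 * s ^ 3 * t ^ 2 - 1246976 * s ^ 3 * t ^ 3 + 456960 * s ^ 3 * t ^ 4 + 110848 * s ^ 3 * t ^ 5 + 153600 * s ^ 3 * t ^ 6 + 69888 * s ^ 3 * t ^ 7 + 336000 * s ^ 4 - 806400 * s ^ 4 * t ^ 2 - 268800 * s ^ 4 * t ^ 3 + 201600 * s ^ 4 * t ^ 4 + 86816 * s ^ 5 - 234976 * s ^ 5 * t - 612544 * s ^ 5 * t ^ 2 - 172480 * s ^ 5 * t ^ 3 + 118688 * s ^ 5 * t ^ 4 + 416 * s ^ 5 * t ^ 5 + 34960 * s ^ 6 - 229232 * s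 ^ 6 * t - 521376 * s ^ 6 * t ^ 2 - 215008 * s ^ 6 * t ^ 3 + 42384 * s ^ 6 * t ^ 4 + 208 * s ^ 6 * t ^ 5 + 92448 * s ^ 7 + 58944 * s ^ 7 * t - 151968 * s ^ 7 * t ^ 2 - 110976 * s ^ 7 * t ^ 3 + 7488 * s ^ 7 * t ^ 4 + 70512 * s ^ 8 + 118560 * s ^ 8 * t + 25584 * s ^ 8 * t ^ 2 - 22464 * s ^ 8 * t ^ 3 + 15496 * s ^ 9 + 30992 * s ^ 9 * t + 15496 * s ^ 9 * t ^ 2 + 2926592 * t + 8003584 * t ^ 2 + 7227392 * t ^ 3 + 2580480 * t ^ 4 + 886784 * t ^ 5 + 1228800 * t ^ 6 + 559104 * t ^ 7) / (4 * (1 + t) ^ 2) := by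
    unfold chord7F
    rw [show 1 + (1 + t) + t = 2 * (1 + t) by ring]
    field_simp
    ring
  rw [e]
  exact div_nonneg (chord7_edge_poly hs ht ht1) (by positivity)

/-- The second divided difference of the boundary part is nonpositive. -/
theorem chord7_curv {σ a b p : ℝ} (hσ : 0 ≤ σ) (ha : 0 ≤ a) (hap : a ≤ p) (hpb : p ≤ b)
    (hbσ : b ≤ σ ^ 2 / 4)
    (hcoef : 3 * (104 * (2 + σ) ^ 2 * (1 + σ)) ≤
      (682 * σ ^ 2 + 162 * σ + 104) * (1 + σ + a) ^ 4 +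
        ((260 * σ + 728) * (1 + σ) + 104 * (2 + σ) ^ 2) * (1 + σ + a)) :
    0 ≤ 1092 * σ ^ 2 + 162 * σ + 104 - 546 * (a + b + p) +
      ((260 * σ + 728) * (1 + σ) + 104 * (2 + σ) ^ 2) /
        ((1 + σ + a) * (1 + σ + b) * (1 + σ + p)) -
      104 * (2 + σ) ^ 2 * (1 + σ) * ((1 + σ + a) * (1 + σ + b) + (1 + σ + b) * (1 + σ + p) +
        (1 + σ + p) * (1 + σ + a)) / ((1 + σ + a) * (1 + σ + b) * (1 + σ + p)) ^ 2 := by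
  obtain ⟨X, hX⟩ : ∃ X, X = 1 + σ + a := ⟨_, rfl⟩
  obtain ⟨Y, hY⟩ : ∃ Y, Y = 1 + σ + b := ⟨_, rfl⟩
  obtain ⟨Z, hZ⟩ : ∃ Z, Z = 1 + σ + p := ⟨_, rfl⟩
  obtain ⟨W, hW⟩ : ∃ W, W = 682 * σ ^ 2 + 162 * σ + 104 := ⟨_, rfl⟩
  obtain ⟨B, hB⟩ : ∃ B, B = 104 * (2 + σ) ^ 2 * (1 + σ) := ⟨_, rfl⟩
  obtain ⟨M, hM⟩ : ∃ M, M = (260 * σ + 728) * (1 + σ) + 104 * (2 + σ) ^ 2 := ⟨_, rfl⟩
  rw [← hX, ← hY, ← hZ, ← hB, ← hM]
  rw [← hX, ← hW, ← hB, ← hM] at hcoef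
  have hW0 : W ≤ 1092 * σ ^ 2 + 162 * σ + 104 - 546 * (a + b + p) := by
    rw [hW]; linarith [sq_nonneg σ]
  have hB0 : 0 ≤ B := by rw [hB]; positivity
  have hX0 : 0 < X := by linarith
  have hXY : X ≤ Y := by linarith
  have hXZ : X ≤ Z := by linarith
  have hY0 : 0 < Y := by linarith
  have hZ0 : 0 < Z := by linarith
  have h3 : X * (X * Y + Y * Z + Z * X) ≤ 3 * (X * Y * Z) := by
    have h31 := mul_nonneg (mul_nonneg hX0.le hY0.le) (sub_nonneg.2 hXZ)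
    have h32 := mul_nonneg (mul_nonneg hX0.le hZ0.le) (sub_nonneg.2 hXY)
    linarith
  have hWp : 0 ≤ W := by rw [hW]; positivity
  have h4 : W * X ^ 4 ≤ W * (X * (X * Y * Z)) := by
    refine mul_le_mul_of_nonneg_left ?_ hWp
    rw [show X ^ 4 = X * (X * X * X) by ring]
    gcongr
  have h5 : B * (X * Y + Y * Z + Z * X) ≤ (W * (X * Y * Z) + M) * (X * Y * Z) := by
    refine le_of_mul_le_mul_left ?_ hX0
    calc X * (B * (X * Y + Y * Z + Z * X)) = B * (X * (X * Y + Y * Z + Z * X)) := by ring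
      _ ≤ B * (3 * (X * Y * Z)) := mul_le_mul_of_nonneg_left h3 hB0
      _ = 3 * B * (X * Y * Z) := by ring
      _ ≤ (W * (X * (X * Y * Z)) + M * X) * (X * Y * Z) :=
          mul_le_mul_of_nonneg_right (by linarith) (by positivity)
      _ = X * ((W * (X * Y * Z) + M) * (X * Y * Z)) := by ring
  have h6 : B * (X * Y + Y * Z + Z * X) / (X * Y * Z) ^ 2 ≤ W + M / (X * Y * Z) := by
    rw [div_le_iff₀ (by positivity)]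
    refine h5.trans (le_of_eq ?_)
    field_simp
  linarith

theorem dd_one {K a b p : ℝ} (ha : K + a ≠ 0) (hb : K + b ≠ 0) (hp : K + p ≠ 0) :
    (b - a) * (p / (K + p)) - (b - p) * (a / (K + a)) - (p - a) * (b / (K + b)) =
      (b - a) * (p - a) * (b - p) * (K / ((K + a) * (K + b) * (K + p))) := by
  field_simp
  ring

theorem dd_two {K a b p : ℝ} (ha : K + a ≠ 0) (hb : K + b ≠ 0) (hp : K + p ≠ 0) :
    (b - a) * (p / (K + p) ^ 2) - (b - p) * (a / (K + a) ^ 2) - (p - a) * (b / (K + b) ^ 2) =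
      (b - a) * (p - a) * (b - p) * (K * ((K + a) * (K + b) + (K + b) * (K + p) +
        (K + p) * (K + a)) / ((K + a) * (K + b) * (K + p)) ^ 2 -
          1 / ((K + a) * (K + b) * (K + p))) := by
  field_simp
  ring

/-- Concavity in the product, through a chord identity. -/
theorem chord7_secant {s σ a b p : ℝ} (hs : 0 ≤ s) (hσ : 0 ≤ σ) (ha : 0 ≤ a) (hap : a ≤ p)
    (hpb : p ≤ b) (hbσ : b ≤ σ ^ 2 / 4)
    (hcoef : 3 * (104 * (2 + σ) ^ 2 * (1 + σ)) ≤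
      (682 * σ ^ 2 + 162 * σ + 104) * (1 + σ + a) ^ 4 +
        ((260 * σ + 728) * (1 + σ) + 104 * (2 + σ) ^ 2) * (1 + σ + a))
    (hFa : 0 ≤ chord7F s σ a) (hFb : 0 ≤ chord7F s σ b) : 0 ≤ chord7F s σ p := by
  rcases hap.eq_or_lt with h | h
  · exact h ▸ hFa
  have hab : 0 < b - a := by linarith
  have hA : 0 < 1 + σ + a := by linarith
  have hB : 0 < 1 + σ + b := by linarith
  have hP : 0 < 1 + σ + p := by linarith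
  have hbr := chord7_curv hσ ha hap hpb hbσ hcoef
  obtain ⟨br, hbrdef⟩ : ∃ br, br = 1092 * σ ^ 2 + 162 * σ + 104 - 546 * (a + b + p) +
      ((260 * σ + 728) * (1 + σ) + 104 * (2 + σ) ^ 2) /
        ((1 + σ + a) * (1 + σ + b) * (1 + σ + p)) -
      104 * (2 + σ) ^ 2 * (1 + σ) * ((1 + σ + a) * (1 + σ + b) + (1 + σ + b) * (1 + σ + p) +
        (1 + σ + p) * (1 + σ + a)) / ((1 + σ + a) * (1 + σ + b) * (1 + σ + p)) ^ 2 := ⟨_, rfl⟩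
  rw [← hbrdef] at hbr
  have e1 := dd_one (K := 1 + σ) hA.ne' hB.ne' hP.ne'
  have e2 := dd_two (K := 1 + σ) hA.ne' hB.ne' hP.ne'
  have e : (b - a) * chord7F s σ p = (b - p) * chord7F s σ a + (p - a) * chord7F s σ b +
      (b - a) * (p - a) * (b - p) * (64 * (2 + s) ^ 3) * br := by
    rw [hbrdef]
    unfold chord7F
    linear_combination (64 * (2 + s) ^ 3 * (260 * σ + 728)) * e1 -
      (64 * (2 + s) ^ 3 * (104 * (2 + σ) ^ 2)) * e2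
  refine nonneg_of_mul_nonneg_right ?_ hab
  rw [e]
  exact add_nonneg (add_nonneg (mul_nonneg (by linarith) hFa) (mul_nonneg (by linarith) hFb))
    (mul_nonneg (mul_nonneg (mul_nonneg (mul_nonneg hab.le (by linarith)) (by linarith))
      (by positivity)) hbr)

theorem coef7_low {σ : ℝ} (hσ : 0 ≤ σ) :
    3 * (104 * (2 + σ) ^ 2 * (1 + σ)) ≤
      (682 * σ ^ 2 + 162 * σ + 104) * (1 + σ + 0) ^ 4 +
        ((260 * σ + 728) * (1 + σ) + 104 * (2 + σ) ^ 2) * (1 + σ + 0) := by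
  have h : 0 ≤ σ ^ 2 := sq_nonneg σ
  have h3 : 0 ≤ σ ^ 3 := by positivity
  have h4 : 0 ≤ σ ^ 4 := by positivity
  have h5 : 0 ≤ σ ^ 5 := by positivity
  have h6 : 0 ≤ σ ^ 6 := by positivity
  nlinarith

theorem coef7_high {σ : ℝ} (h1 : 1 ≤ σ) :
    3 * (104 * (2 + σ) ^ 2 * (1 + σ)) ≤
      (682 * σ ^ 2 + 162 * σ + 104) * (1 + σ + (σ - 1)) ^ 4 +
        ((260 * σ + 728) * (1 + σ) + 104 * (2 + σ) ^ 2) * (1 + σ + (σ - 1)) := by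
  obtain ⟨u, hu, rfl⟩ : ∃ u : ℝ, 0 ≤ u ∧ σ = 1 + u := ⟨σ - 1, by linarith, by ring⟩
  have h : 0 ≤ u ^ 2 := sq_nonneg u
  have h3 : 0 ≤ u ^ 3 := by positivity
  have h4 : 0 ≤ u ^ 4 := by positivity
  have h5 : 0 ≤ u ^ 5 := by positivity
  have h6 : 0 ≤ u ^ 6 := by positivity
  nlinarith

theorem chord7F_nonneg {s c d : ℝ} (hs : 0 ≤ s) (hc : 0 ≤ c) (hd : 0 ≤ d) (hc1 : c ≤ 1)
    (hd1 : d ≤ 1) : 0 ≤ chord7F s (c + d) (c * d) := by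
  obtain ⟨t, ht⟩ : ∃ t : ℝ, c + d = 2 * t := ⟨(c + d) / 2, by ring⟩
  have ht0 : 0 ≤ t := by linarith
  have hp : c * d ≤ t ^ 2 := by nlinarith [sq_nonneg (c - d)]
  have hb : t ^ 2 ≤ (2 * t) ^ 2 / 4 := le_of_eq (by ring)
  rw [ht]
  rcases le_total (2 * t) 1 with h | h
  · exact chord7_secant hs (by linarith) le_rfl (mul_nonneg hc hd) hp hb
      (coef7_low (by linarith)) (chord7_zero hs (by linarith) h) (chord7_diag hs ht0)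
  · refine chord7_secant (a := 2 * t - 1) hs (by linarith) (by linarith)
      (by nlinarith [mul_nonneg (sub_nonneg.2 hc1) (sub_nonneg.2 hd1)]) hp hb
      (coef7_high h) ?_ (chord7_diag hs ht0)
    have h3 := chord7_edge (t := 2 * t - 1) hs (by linarith) (by linarith)
    rwa [show 1 + (2 * t - 1) = 2 * t by ring] at h3

theorem chord7 {s c d : ℝ} (hs : 0 < s) (hc : 0 < c) (hc1 : c ≤ 1) (hd : 0 < d) (hd1 : d ≤ 1) :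
    s ≤ 1937 / 50400 * s ^ 6 * (kerMin 6 P7 s c d + kerMin 6 P7 s d c) / (2 * (c * d)) +
      g7 c + g7 d := by
  have h := chord7F_nonneg hs.le hc.le hd.le hc1 hd1
  rw [kerMin7 hs, kerMin7 hs, abs_of_pos hc, abs_of_pos hd]
  have h2 : 0 < 2 + s := by linarith
  have e : 1937 / 50400 * s ^ 6 * ((num7 s c c d + 104 * s ^ 2 * (2 + s) * c * d ^ 2 / 2) /
      (1937 * s ^ 3 * (2 + s) ^ 3) + (num7 s d d c + 104 * s ^ 2 * (2 + s) * d * c ^ 2 / 2) /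
      (1937 * s ^ 3 * (2 + s) ^ 3)) / (2 * (c * d)) + g7 c + g7 d - s =
      chord7F s (c + d) (c * d) / (100800 * (2 + s) ^ 3 * (c * d)) := by
    have : 0 < 1 + c := by linarith
    have : 0 < 1 + d := by linarith
    simp only [num7, g7, G7n, chord7F]
    rw [show 1 + (c + d) + c * d = (1 + c) * (1 + d) by ring]
    field_simp
    ring
  have := div_nonneg h (show 0 ≤ 100800 * (2 + s) ^ 3 * (c * d) by positivity)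
  linarith

theorem g7_cont : ContinuousOn g7 (Icc 0 1) := by
  refine ContinuousOn.mul (ContinuousOn.div (by fun_prop) (by fun_prop) fun t ht => ?_)
    (by unfold G7n; fun_prop)
  have : 0 < 1 + t := by linarith [ht.1]
  positivity

theorem g7_nonneg : ∀ t ∈ Icc (0 : ℝ) 1, 0 ≤ g7 t := fun t ⟨ht, _⟩ => by
  unfold g7 G7n
  positivity

theorem g7_mono : MonotoneOn g7 (Icc 0 1) := by
  intro x hx y hy hxy
  obtain ⟨hx0, hx1⟩ := hx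
  obtain ⟨hy0, hy1⟩ := hy
  refine mul_le_mul ?_ (by unfold G7n; gcongr) (by unfold G7n; positivity) (by positivity)
  rw [div_le_div_iff₀ (by positivity) (by positivity)]
  have := mul_nonneg (sub_nonneg.2 hxy) (sub_nonneg.2 (mul_le_one₀ hx1 hy0 hy1))
  linarith

theorem g7_moment : ∫ t in (0 : ℝ)..1, g7 t * t * √(1 - t ^ 2) ^ 4 = 5263 / 94500 := by
  have e : EqOn (fun t => g7 t * t * √(1 - t ^ 2) ^ 4)
      (fun t : ℝ => t ^ 2 * G7n t * (1 - t) ^ 2 / 1575) (uIcc (0 : ℝ) 1) := by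
    intro t ht
    rw [uIcc_of_le zero_le_one] at ht
    have : 0 < 1 + t := by linarith [ht.1]
    dsimp only
    rw [show √(1 - t ^ 2) ^ 4 = (√(1 - t ^ 2) ^ 2) ^ 2 by ring,
      Real.sq_sqrt (by nlinarith [ht.1, ht.2]), g7]
    field_simp
    ring
  rw [intervalIntegral.integral_congr e]
  have hd : ∀ t : ℝ, HasDerivAt (fun t : ℝ => (350 * t ^ 3 - 378 * t ^ 5 + (13 / 6) * t ^ 6 + 142 * t ^ 7 - (247 / 4) * t ^ 8 + 6 * t ^ 9 + (273 / 10) * t ^ 10) / 1575)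
      (t ^ 2 * G7n t * (1 - t) ^ 2 / 1575) t := fun t => by
    refine HasDerivAt.congr_deriv ((((((((((hasDerivAt_pow 3 t).const_mul (350 : ℝ))).sub ((hasDerivAt_pow 5 t).const_mul (378 : ℝ))).add ((hasDerivAt_pow 6 t).const_mul ((13 / 6) : ℝ))).add ((hasDerivAt_pow 7 t).const_mul (142 : ℝ))).sub ((hasDerivAt_pow 8 t).const_mul ((247 / 4) : ℝ))).add ((hasDerivAt_pow 9 t).const_mul (6 : ℝ))).add ((hasDerivAt_pow 10 t).const_mul ((273 / 10) : ℝ))).div_const 1575) ?_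
    unfold G7n
    norm_num
    ring
  rw [intervalIntegral.integral_eq_sub_of_hasDerivAt (fun t _ => hd t)
    (Continuous.intervalIntegrable (by unfold G7n; fun_prop) _ _)]
  norm_num

theorem a7_deriv (r : ℝ) (hr : 0 < r) : HasDerivAt a7 (a7' r) r := by
  have hd : 1937 * r ^ 3 * (2 + r) ^ 2 ≠ 0 := by positivity
  refine ((((((hasDerivAt_id r).const_mul 5600).const_add 5600).add
    ((hasDerivAt_pow 2 r).const_mul 3584)).add ((hasDerivAt_pow 3 r).const_mul 936)).div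
    (((hasDerivAt_pow 3 r).const_mul 1937).mul (((hasDerivAt_id r).const_add 2).pow 2))
    hd).congr_deriv ?_
  simp only [a7', id_eq, Pi.add_apply, Pi.mul_apply, Pi.pow_apply]
  field_simp
  ring

theorem b7_deriv (r : ℝ) (hr : 0 < r) : HasDerivAt b7 (b7' r) r := by
  have hd : 1937 * r ^ 2 * (2 + r) ^ 2 ≠ 0 := by positivity
  refine ((hasDerivAt_const r (104 : ℝ)).div
    (((hasDerivAt_pow 2 r).const_mul 1937).mul (((hasDerivAt_id r).const_add 2).pow 2))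
    hd).congr_deriv ?_
  simp only [b7', id_eq, Pi.mul_apply, Pi.pow_apply]
  field_simp
  ring

/-- The certificate in dimension seven. -/
theorem cert7 : Cert 7 P7 (1937 / 50400) (6 * omega 6 * (5263 / 94500)) g7 where
  smoothA := contDiffOn_radial (a := a7) fun r hr => by
    unfold a7
    exact ContDiffAt.div (by fun_prop) (by fun_prop) (by positivity)
  smoothB := contDiffOn_radial (a := b7) fun r hr => by
    unfold b7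
    exact ContDiffAt.div (by fun_prop) (by fun_prop) (by positivity)
  derivA := fun q hq => hasDerivAt_radial a7_deriv hq
  derivB := fun q hq => hasDerivAt_radial b7_deriv hq
  B_nonneg := fun q hq => by
    have := Real.sqrt_pos.2 hq
    simp only [P7, ofRadial, b7]
    positivity
  eta_nonneg := fun q hq => by
    have hr := Real.sqrt_pos.2 hq
    simp only [P7, ofRadial, a7, b7]
    generalize Real.sqrt q = r at hr ⊢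
    rw [show r * (104 / (1937 * r ^ 2 * (2 + r) ^ 2)) =
      104 * r ^ 2 / (1937 * r ^ 3 * (2 + r) ^ 2) by field_simp]
    gcongr
    have : 0 ≤ 5600 + 5600 * r + 3480 * r ^ 2 + 936 * r ^ 3 := by positivity
    linarith
  decreasing := fun q hq => decreasing_radial (a' := a7') (b' := b7') (fun r hr => by
    have h2 : 0 < 2 + r := by linarith
    rw [a7', b7', abs_div, abs_neg, abs_of_pos (by positivity), abs_of_pos (by positivity)]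
    have e : ((5600 + 7168 * r + 2808 * r ^ 2) * r * (2 + r) -
        (5600 + 5600 * r + 3584 * r ^ 2 + 936 * r ^ 3) * (6 + 5 * r)) /
        (1937 * r ^ 4 * (2 + r) ^ 3) + r * (104 * (4 + 4 * r) / (1937 * r ^ 3 * (2 + r) ^ 3)) =
        -(33600 * r ^ 0 + 50400 * r ^ 1 + 29152 * r ^ 2 + 10336 * r ^ 3 + 1872 * r ^ 4) / (1937 * r ^ 4 * (2 + r) ^ 3) := by
      field_simp; ring
    rw [e, neg_div, neg_nonpos]
    positivity) hq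
  ker_nonneg := fun s w v hs hw hv => by
    rw [show ((7 : ℕ) : ℝ) - 1 = 6 by norm_num]
    exact add_nonneg (ker7_nonneg hs hw hv) (ker7_nonneg hs hv hw)
  chord := fun s c d hs hc hc1 hd hd1 => by
    rw [show ((7 : ℕ) : ℝ) - 1 = 6 by norm_num]
    exact chord7 hs hc hc1 hd hd1
  alpha_pos := by norm_num
  g_cont := g7_cont
  g_nonneg := g7_nonneg
  g_mono := g7_mono
  G_nonneg := mul_nonneg (mul_nonneg (by norm_num) (omega_nonneg 6)) (by norm_num)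
  moment := fun e he => by
    have h := half_sphere (n := 7) (by omega) (h := fun t => g7 t * t)
      (g7_cont.mul continuousOn_id) (fun t ht => mul_nonneg (g7_nonneg t ht) ht.1) e he
    rw [g7_moment] at h
    refine h.trans_eq (congrArg ENNReal.ofReal ?_)
    norm_num
  balance := by
    rw [omega_six, omega_seven]
    ring

end

end Vale.Agent.P219.Aff
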