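import Mathlib
import Vale.Agent.P219.Six.Geo
import Vale.Agent.P219.Aff.Defs

/-!
# The logarithm does not expand, and the mixed term of the kernel
-/

open MeasureTheory Set Filter Topology
open scoped ENNReal ContDiff RealInnerProductSpace

namespace Vale.Agent.P219.Aff

open Vale.Agent.P219 Vale.Agent.P219.Univ Vale.Agent.P219.Univ.Geo Vale.Agent.P219.Six

noncomputable section

variable {n : ℕ} {g : MetricField n} {Exp Log : Space n → Space n → Space n}
  (hg : IsMetric g) (hc : JointCharts g Exp Log)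

include hg hc in
/-- The differential of the logarithm does not expand. -/
theorem dLog_norm_sq (hs : SecBound g 0) (x y W : Space n) :
    ‖fderiv ℝ (Log x) y W‖ ^ 2 ≤ g y W W := by
  have h := hc.chart x
  set u := Log x y
  set w := fderiv ℝ (Log x) y W
  set f : ℝ → ℝ := fun t => g (Exp x (t • u)) (Geo.Y (Exp x) u w t) (Geo.Y (Exp x) u w t)
  have hd : ∀ t, HasDerivAt f
      (2 * g (Exp x (t • u)) (Geo.DY g (Exp x) u w t) (Geo.Y (Exp x) u w t)) t := fun t => by
    refine (hasDerivAt_g hg (h.deriv_ray u t) (h.deriv_Y u w t) (h.deriv_Y u w t)).congr_deriv ?_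
    rw [hg.symm _ (Geo.Y (Exp x) u w t) (Geo.Y' (Exp x) u w t + _)]
    simp only [Geo.DY]
    ring
  have hmono : MonotoneOn f (Icc 0 1) := by
    refine monotoneOn_of_deriv_nonneg (convex_Icc 0 1)
      (fun t _ => (hd t).continuousAt.continuousWithinAt)
      (fun t _ => (hd t).differentiableAt.differentiableWithinAt) fun t ht => ?_
    rw [(hd t).deriv]
    rw [interior_Icc] at ht
    have h1 := expand_one hg h le_rfl hs (t • u) w
    have e : Geo.DY g (Exp x) (t • u) w 1 = t • Geo.DY g (Exp x) u w t := by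
      simp [Geo.DY, Geo.Y, Geo.Y', gam_smul₁, smul_add]
    rw [e, show Geo.Y (Exp x) (t • u) w 1 = Geo.Y (Exp x) u w t by simp [Geo.Y], map_smul,
      smul_apply, smul_eq_mul] at h1
    have := nonneg_of_mul_nonneg_right h1 ht.1
    linarith
  have h1 := hmono (left_mem_Icc.2 zero_le_one) (right_mem_Icc.2 zero_le_one) zero_le_one
  simp only [f, Geo.Y, zero_smul, one_smul, hc.zero, hc.iso] at h1
  rw [hc.dExp_dLog, hc.right, real_inner_self_eq_norm_sq] at h1
  exact h1

omit hg hc in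
/-- The elementary bound behind the mixed term. -/
theorem mixed_le {y e P : Space n} (he : ‖e‖ ≤ 1) (hP : ‖P‖ ≤ 1) :
    (‖y‖ ^ 2 * ⟪e, P⟫ - ⟪y, P⟫ * ⟪e, y⟫) ^ 2 ≤
      (‖y‖ ^ 2 - ⟪e, y⟫ ^ 2) * (‖y‖ ^ 2 - ⟪y, P⟫ ^ 2) := by
  rcases eq_or_ne y 0 with rfl | hy
  · simp
  set ρ := ‖y‖ ^ 2 with hρ
  have hρ0 : 0 < ρ := by rw [hρ]; positivity
  have hyy : ⟪y, y⟫ = ρ := real_inner_self_eq_norm_sq y
  set L := ⟪e, y⟫
  set u := ⟪y, P⟫
  set a := ρ • e - L • y with ha
  set b := P - (u / ρ) • y with hb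
  have hab : ⟪a, b⟫ = ρ * ⟪e, P⟫ - u * L := by
    simp only [ha, hb, inner_sub_left, inner_sub_right, real_inner_smul_left, real_inner_smul_right,
      hyy, u, L]
    field_simp
    ring
  have haa : ⟪a, a⟫ ≤ ρ * (ρ - L ^ 2) := by
    have e1 : ⟪a, a⟫ = ρ ^ 2 * ⟪e, e⟫ - ρ * L ^ 2 := by
      simp only [ha, inner_sub_left, inner_sub_right, real_inner_smul_left, real_inner_smul_right,
        hyy, real_inner_comm e y, L]
      ring
    have e2 : ⟪e, e⟫ ≤ 1 := by
      rw [real_inner_self_eq_norm_sq]; exact pow_le_one₀ (norm_nonneg _) he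
    rw [e1]
    have := mul_le_mul_of_nonneg_left e2 (sq_nonneg ρ)
    linarith
  have hbb : ⟪b, b⟫ ≤ (ρ - u ^ 2) / ρ := by
    have e1 : ⟪b, b⟫ = ⟪P, P⟫ - u ^ 2 / ρ := by
      simp only [hb, inner_sub_left, inner_sub_right, real_inner_smul_left, real_inner_smul_right,
        hyy, real_inner_comm y P, u]
      field_simp
      ring
    have e2 : ⟪P, P⟫ ≤ 1 := by
      rw [real_inner_self_eq_norm_sq]; exact pow_le_one₀ (norm_nonneg _) hP
    rw [e1, sub_div, div_self hρ0.ne']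
    linarith
  have hcs : ⟪a, b⟫ ^ 2 ≤ ⟪a, a⟫ * ⟪b, b⟫ := by
    rw [sq]; exact real_inner_mul_inner_self_le a b
  have := hcs.trans (mul_le_mul haa hbb real_inner_self_nonneg (le_trans real_inner_self_nonneg haa))
  rw [hab] at this
  refine this.trans (le_of_eq ?_)
  field_simp

include hc in
theorem contDiff_farL (a e : Space n) : ContDiff ℝ ∞ (farL Log a e) :=
  contDiff_const.inner ℝ (hc.smooth_log_at a)

include hc in
theorem dfarL (a e z W : Space n) :
    fderiv ℝ (farL Log a e) z W = ⟪e, fderiv ℝ (Log a) z W⟫ := by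
  have h := (hasFDerivAt_const e z).inner ℝ (hc.hasFDerivAt_log a z)
  have h' : HasFDerivAt (farL Log a e) _ z := h
  rw [h'.fderiv]
  simp

include hc in
theorem dpsi_eq (a z W : Space n) :
    fderiv ℝ (psi Log a) z W = ⟪Log a z, fderiv ℝ (Log a) z W⟫ := by
  have h2 := ((hc.hasFDerivAt_log a z).norm_sq).mul_const (1 / 2 : ℝ)
  rw [show psi Log a = fun x => ‖Log a x‖ ^ 2 * (1 / 2 : ℝ) from funext fun x => by
    simp [psi]; ring, h2.fderiv]
  simp

include hg hc in
/-- `∇ψ` is radial for `L`. -/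
theorem farL_radial (a e z : Space n) :
    fderiv ℝ (farL Log a e) z (gGrad g (psi Log a) z) = farL Log a e z := by
  rw [dfarL hc]
  rw [hc.grad_psi hg, farL]
  have e2 := hc.dLog_dExp a (Log a z) (Log a z)
  rw [hc.right] at e2
  rw [e2]

include hg hc in
/-- The data of a pole satisfy the constraints of the scalar inequalities. -/
theorem pole_bounds (hs : SecBound g 0) (a e z N : Space n) (he : ‖e‖ ≤ 1) (hN : g z N N ≤ 1)
    (l : ℝ) :
    (l * fderiv ℝ (psi Log a) z N) ^ 2 ≤ l ^ 2 * (2 * psi Log a z) ∧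
    (l * farL Log a e z) ^ 2 ≤ l ^ 2 * (2 * psi Log a z) ∧
    (l ^ 2 * (2 * psi Log a z) * fderiv ℝ (farL Log a e) z N -
        l * fderiv ℝ (psi Log a) z N * (l * farL Log a e z)) ^ 2 ≤
      (l ^ 2 * (2 * psi Log a z) - (l * farL Log a e z) ^ 2) *
        (l ^ 2 * (2 * psi Log a z) - (l * fderiv ℝ (psi Log a) z N) ^ 2) := by
  set y := l • Log a z
  set P := fderiv ℝ (Log a) z N
  have hP : ‖P‖ ≤ 1 := (pow_le_one_iff_of_nonneg (norm_nonneg _) two_ne_zero).1
    ((dLog_norm_sq hg hc hs a z N).trans hN)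
  have e1 : l ^ 2 * (2 * psi Log a z) = ‖y‖ ^ 2 := by
    simp only [y, norm_smul, psi, Real.norm_eq_abs, mul_pow, sq_abs]; ring
  have e2 : l * fderiv ℝ (psi Log a) z N = ⟪y, P⟫ := by
    simp [dpsi_eq hc, y, P, real_inner_smul_left]
  have e3 : l * farL Log a e z = ⟪e, y⟫ := by simp [farL, y, real_inner_smul_right]
  rw [e1, e2, e3, dfarL hc]
  refine ⟨?_, ?_, mixed_le he hP⟩
  · refine sq_le_sq.2 ((abs_real_inner_le_norm _ _).trans ?_)
    rw [abs_norm]
    exact mul_le_of_le_one_right (norm_nonneg _) hP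
  · refine sq_le_sq.2 ((abs_real_inner_le_norm _ _).trans ?_)
    rw [abs_norm]
    exact mul_le_of_le_one_left (norm_nonneg _) he

end

end Vale.Agent.P219.Aff
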