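import Mathlib
import Vale.Agent.P219.Six.FirstVar.Field
import Vale.Agent.P219.Aff.Geo

/-!
# Deformation fields affine in the far cosine and their first variation integrands
-/

open Filter Topology Set
open scoped ContDiff RealInnerProductSpace

namespace Vale.Agent.P219.Aff

open Vale.Agent.P219 Vale.Agent.P219.Univ Vale.Agent.P219.Six

noncomputable section

variable {n : ℕ} {g : MetricField n} {Exp Log : Space n → Space n → Space n} {P : Kern}
  {α G : ℝ} {gF : ℝ → ℝ}

/-- The parameters of a deformation: pole, vector, scale. -/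
abbrev Par (n : ℕ) : Type := Space n × Space n × ℝ

/-- Admissible parameters. -/
structure ParOK (q : Par n) : Prop where
  dir : ‖q.2.1‖ ≤ 1
  scale : 0 < q.2.2

/-- The squared distance plus `ε`, scaled. -/
def qArg (Log : Space n → Space n → Space n) (ε : ℝ) (q : Par n) (x : Space n) : ℝ :=
  q.2.2 ^ 2 * (2 * psi Log q.1 x) + q.2.2 ^ 2 * ε

/-- The multiplier of the field. -/
def mult (P : Kern) (Log : Space n → Space n → Space n) (ε : ℝ) (q : Par n) (x : Space n) : ℝ :=
  etaF P (q.2.2 ^ 2 * ε) (q.2.2 ^ 2 * (2 * psi Log q.1 x)) (q.2.2 * farL Log q.1 q.2.1 x)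

/-- The radial field at the pole. -/
def radial (g : MetricField n) (P : Kern) (Log : Space n → Space n → Space n) (ε : ℝ) (q : Par n)
    (x : Space n) : Space n :=
  mult P Log ε q x • gGrad g (psi Log q.1) x

/-- The deformation field: radial, a little towards the centre `o`, cut off outside. -/
def field (g : MetricField n) (P : Kern) (Log : Space n → Space n → Space n) (ε κ : ℝ)
    (o : Space n) (M : ℝ) (q : Par n) (x : Space n) : Space n :=
  Real.smoothTransition (M + 2 - psi Log o x) •
    (radial g P Log ε q x + κ • gGrad g (psi Log o) x)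

theorem qArg_pos {ε : ℝ} (hε : 0 < ε) {q : Par n} (hq : ParOK q) (x : Space n) :
    0 < qArg Log ε q x := by
  have h := pow_pos hq.scale 2
  have h1 := JointCharts.psi_nonneg (Log := Log) q.1 x
  unfold qArg
  exact add_pos_of_nonneg_of_pos (mul_nonneg h.le (by linarith)) (mul_pos h hε)

variable (hg : IsMetric g) (hc : JointCharts g Exp Log) (hs : SecBound g 0)
  (hC : CertK n P α G gF) {ε : ℝ} (hε : 0 < ε) {q : Par n} (hq : ParOK q)

include hg hc hs hC hε hq in
theorem mult_nonneg (x : Space n) : 0 ≤ mult P Log ε q x := by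
  refine hC.eta_nonneg _ _ (qArg_pos (Log := Log) hε hq x) ?_
  have h3 := (pole_bounds hg hc hs q.1 q.2.1 x 0 hq.dir (by simp) q.2.2).2.1
  have : 0 ≤ q.2.2 ^ 2 * ε := by positivity
  linarith

include hc hC hε hq in
theorem contDiff_mult : ContDiff ℝ ∞ (mult P Log ε q) := by
  have hp : ContDiff ℝ ∞ (qArg Log ε q) :=
    (contDiff_const.mul (contDiff_const.mul (hc.smooth_psi_at q.1))).add contDiff_const
  exact hC.smooth.comp_contDiff (hp.prodMk (contDiff_const.mul (contDiff_farL hc q.1 q.2.1)))
    fun x => ⟨qArg_pos hε hq x, mem_univ _⟩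

include hc hC hε hq in
theorem dmult (x W : Space n) :
    fderiv ℝ (mult P Log ε q) x W =
      2 * q.2.2 ^ 2 * P.F1 (qArg Log ε q x) (q.2.2 * farL Log q.1 q.2.1 x) *
          fderiv ℝ (psi Log q.1) x W +
        q.2.2 * P.F2 (qArg Log ε q x) (q.2.2 * farL Log q.1 q.2.1 x) *
          fderiv ℝ (farL Log q.1 q.2.1) x W := by
  have hp : HasFDerivAt (qArg Log ε q) ((q.2.2 ^ 2 * 2) • fderiv ℝ (psi Log q.1) x) x := by
    have h := (((((hc.smooth_psi_at q.1).differentiable (by simp)) x).hasFDerivAt.const_mul 2).const_mul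
      (q.2.2 ^ 2)).add_const (q.2.2 ^ 2 * ε)
    refine h.congr_fderiv ?_
    rw [smul_smul]
  have hL := (((contDiff_farL hc q.1 q.2.1).differentiable (by simp)) x).hasFDerivAt.const_mul q.2.2
  have h0 := (hC.deriv (qArg Log ε q x, q.2.2 * farL Log q.1 q.2.1 x) (qArg_pos hε hq x)).comp x
    (f := fun x => (qArg Log ε q x, q.2.2 * farL Log q.1 q.2.1 x)) (hp.prodMk hL)
  have h : HasFDerivAt (mult P Log ε q) _ x := h0
  rw [h.fderiv]
  simp
  ring

include hg hc hC hε hq in
theorem contDiff_radial : ContDiff ℝ ∞ (radial g P Log ε q) :=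
  (contDiff_mult hc hC hε hq).smul (contDiff_gGrad hg (hc.smooth_psi_at q.1))

include hg hc hC hε hq in
theorem contDiff_field (κ : ℝ) (o : Space n) (M : ℝ) :
    ContDiff ℝ ∞ (field g P Log ε κ o M q) :=
  (Real.smoothTransition.contDiff.comp (contDiff_const.sub (hc.smooth_psi_at o))).smul
    ((contDiff_radial hg hc hC hε hq).add
      ((contDiff_gGrad hg (hc.smooth_psi_at o)).const_smul κ))

include hg hc hs in
theorem compact_field (hn : 2 ≤ n) (ε κ : ℝ) (o : Space n) (M : ℝ) (q : Par n) :
    HasCompactSupport (field g P Log ε κ o M q) := by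
  refine HasCompactSupport.intro ((FV.pot_psi hn hg hc hs o).compact (M + 2)) fun x hx => ?_
  have hx' : ¬ psi Log o x ≤ M + 2 := hx
  rw [field, Real.smoothTransition.zero_of_nonpos (by linarith [not_le.1 hx']), zero_smul]

include hc in
theorem field_eventually {κ : ℝ} {o : Space n} {M : ℝ} {x : Space n} (hx : psi Log o x ≤ M) :
    field g P Log ε κ o M q =ᶠ[𝓝 x]
      fun y => radial g P Log ε q y + κ • gGrad g (psi Log o) y := by
  filter_upwards [(hc.smooth_psi_at o).continuous.continuousAt.eventually_lt_const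
    (show psi Log o x < M + 1 by linarith)] with y hy
  rw [field, Real.smoothTransition.one_of_one_le (by linarith), one_smul]

include hg hc hs hC hε hq in
/-- The first variation integrand of the field is at least `thetaF`. -/
theorem theta_lower (hn : 2 ≤ n) {κ : ℝ} (hκ : 0 ≤ κ) {o : Space n} {M : ℝ} {x : Space n}
    (hx : psi Log o x ≤ M) {N : Space n} (hN : g x N N = 1) :
    thetaF ((n : ℝ) - 1) P (q.2.2 ^ 2 * ε) (q.2.2 ^ 2 * (2 * psi Log q.1 x))
        (q.2.2 * fderiv ℝ (psi Log q.1) x N) (q.2.2 * farL Log q.1 q.2.1 x)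
        (fderiv ℝ (farL Log q.1 q.2.1) x N) ≤
      gDiv g (field g P Log ε κ o M q) x - g x (cov g (field g P Log ε κ o M q) x N) N := by
  have hpa := FV.pot_psi hn hg hc hs q.1
  have hpo := FV.pot_psi hn hg hc hs o
  have hm : DifferentiableAt ℝ (mult P Log ε q) x :=
    (contDiff_mult hc hC hε hq).differentiable (by simp) x
  have hr : DifferentiableAt ℝ (radial g P Log ε q) x :=
    (contDiff_radial hg hc hC hε hq).differentiable (by simp) x
  have hG : ∀ p : Space n, DifferentiableAt ℝ (gGrad g (psi Log p)) x := fun p =>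
    (contDiff_gGrad hg (hc.smooth_psi_at p)).differentiable (by simp) x
  have hF : DifferentiableAt ℝ (field g P Log ε κ o M q) x :=
    (contDiff_field hg hc hC hε hq κ o M).differentiable (by simp) x
  have hev := field_eventually (g := g) (P := P) hc (ε := ε) (κ := κ) (q := q) hx
  rw [FV.cov_congr hev, FV.gDiv_congr hg hF hev, FV.cov_add hr ((hG o).fun_const_smul κ),
    FV.gDiv_add hg hr ((hG o).fun_const_smul κ), gDiv_smul hg (differentiableAt_const κ) (hG o),
    cov_smul hg (differentiableAt_const κ) (hG o)]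
  have hH : ∀ p : Space n, (n : ℝ) - 1 ≤
      gDiv g (gGrad g (psi Log p)) x - g x (cov g (gGrad g (psi Log p)) x N) N := fun p => by
    have h2 := (radial_div hg (FV.pot_psi hn hg hc hs p) (η := fun _ => 1) contDiff_const x
      zero_le_one (by simp)).1 N
    simp only [one_smul, deriv_const', hN, mul_one] at h2
    linarith
  have e1 : gDiv g (radial g P Log ε q) x - g x (cov g (radial g P Log ε q) x N) N =
      mult P Log ε q x * (gDiv g (gGrad g (psi Log q.1)) x -
        g x (cov g (gGrad g (psi Log q.1)) x N) N) +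
      (fderiv ℝ (mult P Log ε q) x (gGrad g (psi Log q.1) x) -
        fderiv ℝ (mult P Log ε q) x N * fderiv ℝ (psi Log q.1) x N) := by
    rw [show radial g P Log ε q = fun y => mult P Log ε q y • gGrad g (psi Log q.1) y from rfl,
      gDiv_smul hg hm (hG q.1), cov_smul hg hm (hG q.1)]
    simp only [map_add, map_smul, _root_.add_apply, smul_apply, smul_eq_mul, gGrad_dual hg]
    ring
  have e2 : fderiv ℝ (psi Log q.1) x (gGrad g (psi Log q.1) x) = 2 * psi Log q.1 x := by
    rw [← gGrad_dual hg (psi Log q.1) x (gGrad g (psi Log q.1) x), grad_psi_sq hg hc]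
  have h1 := mul_le_mul_of_nonneg_left (hH q.1) (mult_nonneg hg hc hs hC hε hq x)
  have h3 : 0 ≤ gDiv g (gGrad g (psi Log o)) x - g x (cov g (gGrad g (psi Log o)) x N) N := by
    have : (2 : ℝ) ≤ n := by exact_mod_cast hn
    linarith [hH o]
  have h4 := mul_nonneg hκ h3
  simp only [fderiv_fun_const, Pi.zero_apply, zero_apply, zero_smul, add_zero, map_add, map_smul,
    _root_.add_apply, smul_apply, smul_eq_mul]
  have e3 : thetaF ((n : ℝ) - 1) P (q.2.2 ^ 2 * ε) (q.2.2 ^ 2 * (2 * psi Log q.1 x))
        (q.2.2 * fderiv ℝ (psi Log q.1) x N) (q.2.2 * farL Log q.1 q.2.1 x)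
        (fderiv ℝ (farL Log q.1 q.2.1) x N) =
      mult P Log ε q x * ((n : ℝ) - 1) +
      (fderiv ℝ (mult P Log ε q) x (gGrad g (psi Log q.1) x) -
        fderiv ℝ (mult P Log ε q) x N * fderiv ℝ (psi Log q.1) x N) := by
    rw [dmult hc hC hε hq, dmult hc hC hε hq, e2, farL_radial hg hc]
    simp only [thetaF, mult, qArg]
    ring
  linarith

end

end Vale.Agent.P219.Aff
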