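import Mathlib
import Vale.Agent.P219.Six.FirstVar
import Vale.Agent.P219.Aff.Field

/-!
# First variation with the fields affine in the far cosine, uniformly in the parameters
-/

open MeasureTheory Set Filter Topology
open scoped ENNReal ContDiff RealInnerProductSpace

namespace Vale.Agent.P219.Aff

open Vale.Agent.P219 Vale.Agent.P219.Univ Vale.Agent.P219.Univ.FirstVar
open Vale.Agent.P219.Six hiding areaKer volKer
open Vale.Agent.P219.Six.Surf
open Vale.Agent.P219.Six.FV (normal_bound ratio_bounds stays_inside image_domain mem_closure_sub psi_nonneg area_affine pot_psi coercive)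

noncomputable section

variable {n : ℕ} {g : MetricField n} {Exp Log : Space n → Space n → Space n} {P : Kern}
  {α G : ℝ} {gF : ℝ → ℝ} {φ : Space n → ℝ} {η : ℝ}

/-- The two kernels, in terms of the parameters, the point and the direction. -/
def ker (P : Kern) (Log : Space n → Space n → Space n) (ε : ℝ)
    (p : Par n × Space n × Space n) : ℝ × ℝ :=
  (thetaF ((n : ℝ) - 1) P (p.1.2.2 ^ 2 * ε) (p.1.2.2 ^ 2 * (2 * psi Log p.1.1 p.2.1))
      (p.1.2.2 * fderiv ℝ (psi Log p.1.1) p.2.1 p.2.2) (p.1.2.2 * farL Log p.1.1 p.1.2.1 p.2.1)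
      (fderiv ℝ (farL Log p.1.1 p.1.2.1) p.2.1 p.2.2),
    etaF P (p.1.2.2 ^ 2 * ε) (p.1.2.2 ^ 2 * (2 * psi Log p.1.1 p.2.1))
        (p.1.2.2 * farL Log p.1.1 p.1.2.1 p.2.1) *
      fderiv ℝ (psi Log p.1.1) p.2.1 p.2.2)

theorem areaKer_eq (φ : Space n → ℝ) (ε : ℝ) (q : Par n) (z : Space n) :
    areaKer P Log g φ q.2.2 ε q.1 q.2.1 z = (ker P Log ε (q, z, unitN g φ z)).1 := rfl

theorem volKer_eq (φ : Space n → ℝ) (ε : ℝ) (q : Par n) (z : Space n) :
    volKer P Log g φ q.2.2 ε q.1 q.2.1 z = (ker P Log ε (q, z, unitN g φ z)).2 := rfl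

variable {E : Type*} [NormedAddCommGroup E] [NormedSpace ℝ E]

/-- Smoothness of the two integrands as functions of their scalar data. -/
theorem contDiffOn_data (hC : CertK n P α G gF) {k : ℝ} {S : Set E} {ε ρ u L m : E → ℝ}
    (hε : ContDiffOn ℝ ∞ ε S) (hρ : ContDiffOn ℝ ∞ ρ S) (hu : ContDiffOn ℝ ∞ u S)
    (hL : ContDiffOn ℝ ∞ L S) (hm : ContDiffOn ℝ ∞ m S) (hpos : ∀ x ∈ S, 0 < ρ x + ε x) :
    ContDiffOn ℝ ∞ (fun x => thetaF k P (ε x) (ρ x) (u x) (L x) (m x)) S ∧
      ContDiffOn ℝ ∞ (fun x => etaF P (ε x) (ρ x) (L x)) S := by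
  have hp := (hρ.add hε).prodMk hL
  have hto : MapsTo (fun x => ((fun x => ρ x + ε x) x, L x)) S (Ioi 0 ×ˢ univ) := fun x hx =>
    ⟨hpos x hx, mem_univ _⟩
  have ceta : ContDiffOn ℝ ∞ (fun x => etaF P (ε x) (ρ x) (L x)) S := hC.smooth.comp hp hto
  have cF1 : ContDiffOn ℝ ∞ (fun x => P.F1 (ρ x + ε x) (L x)) S :=
    (contDiffOn_F12 hC).1.comp hp hto
  have cF2 : ContDiffOn ℝ ∞ (fun x => P.F2 (ρ x + ε x) (L x)) S :=
    (contDiffOn_F12 hC).2.comp hp hto
  refine ⟨?_, ceta⟩
  exact ((((contDiffOn_const (c := (2 : ℝ))).mul cF1).mul (hρ.sub (hu.pow 2))).add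
    (cF2.mul (hL.sub (hu.mul hm)))).add ((contDiffOn_const (c := k)).mul ceta)

theorem contDiff_dLogPar (hc : JointCharts g Exp Log) :
    ContDiff ℝ ∞ fun p : Par n × Space n × Space n => fderiv ℝ (Log p.1.1) p.2.1 p.2.2 := by
  have h1 : ContDiff ℝ ∞ fun q : Space n × Space n => fderiv ℝ (Log q.1) q.2 :=
    ContDiff.fderiv (f := fun (q : Space n × Space n) (y : Space n) => Log q.1 y)
      (m := ∞) (n := ∞) (hc.smooth_log.comp ((contDiff_fst.comp contDiff_fst).prodMk contDiff_snd))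
      contDiff_snd (by simp)
  exact (h1.comp ((contDiff_fst.comp contDiff_fst).prodMk (contDiff_fst.comp contDiff_snd))).clm_apply
    (contDiff_snd.comp contDiff_snd)

theorem contDiff_parData (hc : JointCharts g Exp Log) :
    (ContDiff ℝ ∞ fun p : Par n × Space n × Space n => p.1.2.2) ∧
    (ContDiff ℝ ∞ fun p : Par n × Space n × Space n => psi Log p.1.1 p.2.1) ∧
    ContDiff ℝ ∞ fun p : Par n × Space n × Space n => farL Log p.1.1 p.1.2.1 p.2.1 := by
  have ha : ContDiff ℝ ∞ fun p : Par n × Space n × Space n => (p.1.1, p.2.1) :=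
    (contDiff_fst.comp contDiff_fst).prodMk (contDiff_fst.comp contDiff_snd)
  have he : ContDiff ℝ ∞ fun p : Par n × Space n × Space n => p.1.2.1 :=
    contDiff_fst.comp (contDiff_snd.comp contDiff_fst)
  have hl : ContDiff ℝ ∞ fun p : Par n × Space n × Space n => Log p.1.1 p.2.1 :=
    hc.smooth_log.comp ha
  refine ⟨contDiff_snd.comp (contDiff_snd.comp contDiff_fst), ?_, ?_⟩
  · unfold psi
    exact (hl.norm_sq ℝ).div_const 2
  · unfold farL
    exact he.inner ℝ hl

theorem contDiff_parDeriv (hc : JointCharts g Exp Log) :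
    (ContDiff ℝ ∞ fun p : Par n × Space n × Space n => fderiv ℝ (psi Log p.1.1) p.2.1 p.2.2) ∧
    ContDiff ℝ ∞ fun p : Par n × Space n × Space n =>
      fderiv ℝ (farL Log p.1.1 p.1.2.1) p.2.1 p.2.2 := by
  have hd := contDiff_dLogPar (g := g) (Exp := Exp) hc
  have ha : ContDiff ℝ ∞ fun p : Par n × Space n × Space n => (p.1.1, p.2.1) :=
    (contDiff_fst.comp contDiff_fst).prodMk (contDiff_fst.comp contDiff_snd)
  have he : ContDiff ℝ ∞ fun p : Par n × Space n × Space n => p.1.2.1 :=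
    contDiff_fst.comp (contDiff_snd.comp contDiff_fst)
  have hl : ContDiff ℝ ∞ fun p : Par n × Space n × Space n => Log p.1.1 p.2.1 :=
    hc.smooth_log.comp ha
  simp only [dpsi_eq hc, dfarL hc]
  exact ⟨hl.inner ℝ hd, he.inner ℝ hd⟩

theorem contDiffOn_ker (hc : JointCharts g Exp Log) (hC : CertK n P α G gF) {ε : ℝ} (hε : 0 < ε) :
    ContDiffOn ℝ ∞ (ker P Log ε) {p : Par n × Space n × Space n | 0 < p.1.2.2} := by
  obtain ⟨hl, hψ, hL⟩ := contDiff_parData hc
  obtain ⟨hu, hm⟩ := contDiff_parDeriv hc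
  have h := contDiffOn_data hC (k := (n : ℝ) - 1)
    (S := {p : Par n × Space n × Space n | 0 < p.1.2.2})
    ((hl.pow 2).mul (contDiff_const (c := ε))).contDiffOn
    ((hl.pow 2).mul ((contDiff_const (c := (2 : ℝ))).mul hψ)).contDiffOn
    (hl.mul hu).contDiffOn (hl.mul hL).contDiffOn hm.contDiffOn
    fun p hp => by
      have h2 := pow_pos (show 0 < p.1.2.2 from hp) 2
      have h3 := psi_nonneg Log p.1.1 p.2.1
      exact add_pos_of_nonneg_of_pos (mul_nonneg h2.le (by linarith)) (mul_pos h2 hε)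
  exact h.1.prodMk (h.2.mul hu.contDiffOn)

theorem contDiffOn_kers (hg : IsMetric g) (hc : JointCharts g Exp Log) (hC : CertK n P α G gF)
    (hd : Defining φ) {ε : ℝ} (hε : 0 < ε) {q : Par n} (hq : ParOK q) :
    ContDiffOn ℝ 1 (areaKer P Log g φ q.2.2 ε q.1 q.2.1) (regSet φ) ∧
      ContDiffOn ℝ 1 (volKer P Log g φ q.2.2 ε q.1 q.2.1) (regSet φ) := by
  have h : ContDiffOn ℝ 1 (fun z => ker P Log ε (q, z, unitN g φ z)) (regSet φ) :=
    ((contDiffOn_ker hc hC hε).of_le (by simp)).comp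
      (contDiffOn_const.prodMk (contDiffOn_id.prodMk (contDiffOn_unitN hg hd)))
      fun z _ => hq.scale
  exact ⟨h.fst, h.snd⟩

/-- The variation at one parameter. -/
theorem variation_one (hn : 2 ≤ n) (hg : IsMetric g) (hc : JointCharts g Exp Log)
    (hs : SecBound g 0) (hC : CertK n P α G gF) (o : Space n) {M : ℝ} (hM : 0 < M) {ε e : ℝ} (hε : 0 < ε)
    (he : 0 < e) {q : Par n} (hq : ParOK q) (ha : psi Log o q.1 ≤ M) :
    ∀ᶠ t in 𝓝[>] (0 : ℝ), ∀ φ : Space n → ℝ, ∀ η : ℝ, Defining φ → RegWindow φ η →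
      sub φ 0 ⊆ {x | psi Log o x ≤ M} →
      ∃ φ', Defining φ' ∧ sub φ' 0 ⊆ {x | psi Log o x ≤ M} ∧
        (Univ.gPer g (sub φ' 0)).toReal ≤ (1 + t * e) * area g φ η 0 (fun _ => 1) -
          t * area g φ η 0 (areaKer P Log g φ q.2.2 ε q.1 q.2.1) ∧
        (1 - t * e) * Univ.gVol g (sub φ 0) - t * area g φ η 0 (volKer P Log g φ q.2.2 ε q.1 q.2.1) -
          t * e * area g φ η 0 (fun _ => 1) ≤ Univ.gVol g (sub φ' 0) := by
  set κ := e / (Real.sqrt (2 * M) + 1)
  have hκ : 0 < κ := by positivity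
  set X := field g P Log ε κ o M q
  have hXs : ContDiff ℝ ∞ X := contDiff_field hg hc hC hε hq κ o M
  have hX : ContDiff ℝ 2 X := hXs.of_le (WithTop.coe_le_coe.2 le_top)
  have hX1 : ContDiff ℝ 1 X := hX.of_le (by norm_num)
  have hXc : HasCompactSupport X := compact_field hg hc hs hn ε κ o M q
  have hpo := pot_psi hn hg hc hs o
  have hK : IsCompact {x | psi Log o x ≤ M} := hpo.compact M
  -- the field points outwards on the boundary of the ball
  have hout : ∀ x, psi Log o x = M → 0 < fderiv ℝ (psi Log o) x (X x) := by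
    intro x hx
    rw [show X x = radial g P Log ε q x + κ • gGrad g (psi Log o) x from
      (field_eventually (g := g) (P := P) hc (ε := ε) (κ := κ) (q := q) hx.le).eq_of_nhds, map_add,
      radial, map_smul, map_smul, smul_eq_mul, smul_eq_mul,
      ← gGrad_dual hg (psi Log o) x (gGrad g (psi Log o) x), grad_psi_sq hg hc]
    have h1 := psi_convex hg hc hs o q.1 x
    have h2 := mult_nonneg hg hc hs hC hε hq x
    have h3 := mul_nonneg h2 (show 0 ≤ fderiv ℝ (psi Log o) x (gGrad g (psi Log q.1) x) by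
      linarith [psi_nonneg Log q.1 x])
    rw [hx]
    have := mul_pos hκ (show 0 < 2 * M by linarith)
    linarith
  filter_upwards [(eventually_good hX hXc).filter_mono nhdsWithin_le_nhds,
    normal_bound hg hX hK he, ratio_bounds hg hX hK he, stays_inside hpo.smooth hX hK hout,
    eventually_mem_nhdsWithin] with t hgood hnb hrb hin htpos φ η hd hw hsub
  have ht : 0 < t := htpos
  obtain ⟨φ', hd', hsub'⟩ := image_domain hX hXc hgood hd
  have hE : MeasurableSet (sub φ 0) := Surf.measurableSet_sub hd.smooth.continuous 0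
  have hlev : ∀ z, φ z = 0 → psi Log o z ≤ M ∧ g z (unitN g φ z) (unitN g φ z) = 1 := by
    intro z hz
    refine ⟨(closure_minimal hsub hK.isClosed)
      (mem_closure_sub (hd.smooth.differentiable (by norm_num) z) hz (hd.reg z hz)), ?_⟩
    rw [← gNorm_sq hg, Surf.gNorm_unitN hg (hd.reg z hz), one_pow]
  have hτ : |(0 : ℝ)| < η / 2 := by rw [abs_zero]; linarith [hw.1]
  obtain ⟨hka, hkv⟩ := contDiffOn_kers hg hc hC hd hε hq
  have hc1 : ContDiffOn ℝ 1 (fun _ : Space n => (1 : ℝ)) (regSet φ) := contDiffOn_const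
  refine ⟨φ', hd', ?_, ?_, ?_⟩
  · rw [hsub']
    rintro _ ⟨x, hx, rfl⟩
    exact hin x (hsub hx)
  · set B := (1 + t * e) * area g φ η 0 (fun _ => 1) - t * area g φ η 0 (areaKer P Log g φ q.2.2 ε q.1 q.2.1)
    have key : ∀ Y : Space n → Space n, ContDiff ℝ 1 Y → HasCompactSupport Y →
        (∀ x, gNorm g x (Y x) ≤ 1) →
        ∫ x in sub φ' 0, divg (fun y => dens g y • Y y) x ≤ B := by
      intro Y hY1 hYc hYn
      obtain ⟨W, hW⟩ : ∃ W : Space n → Space n, W = fun y => dens g y • Y y := ⟨_, rfl⟩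
      have hW1 : ContDiff ℝ 1 W := hW ▸ contDiff_weighted hg hY1
      have hWc : HasCompactSupport W := hW ▸ hasCompactSupport_weighted (g := g) hYc
      obtain ⟨hV, hVc, hpi⟩ := hgood.piola_spec hX hW1 hWc
      obtain ⟨Z, hZ⟩ : ∃ Z : Space n → Space n, Z = fun x => (dens g x)⁻¹ • piola X t W x :=
        ⟨_, rfl⟩
      have hZd : (fun y => dens g y • Z y) = piola X t W := by
        funext y
        rw [hZ, smul_smul, mul_inv_cancel₀ (dens_pos hg y).ne', one_smul]
      have hZ1 : ContDiff ℝ 1 Z := by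
        rw [hZ]
        exact (((contDiff_dens hg).of_le (by simp)).inv fun x => (dens_pos hg x).ne').smul hV
      have hBeq : B = area g φ η 0 fun z => (1 + t * e) + -t * areaKer P Log g φ q.2.2 ε q.1 q.2.1 z := by
        rw [area_affine hg hd hw hka]; ring
      rw [hsub', hgood.integral_image hX hE, ← hW, hBeq]
      simp only [← hpi]
      rw [← hZd, ← gInt_gDiv hg, flux hg hd hw hτ hZ1]
      refine area_mono hg hd hw hτ (contDiffOn_normalPart hg hd hZ1)
        (contDiffOn_const.add (contDiffOn_const.mul hka)) fun z hz => ?_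
      obtain ⟨hzK, hN⟩ := hlev z hz
      obtain ⟨w, hw'⟩ : ∃ w, w = (dDisp X t z).inverse (Y (disp X t z)) := ⟨_, rfl⟩
      have hwY : dDisp X t z w = Y (disp X t z) := by
        rw [hw', (hgood.dDisp_inverse hX z).self_apply_inverse]
      have hZx : Z z = ratio g X t z • w := by
        rw [hZ, hw']
        simp only [piola, hW, map_smul, smul_smul, ratio]
        congr 1
        rw [inv_mul_eq_div]
      have hY2 : sqPush g X t (z, w) ≤ 1 := by
        simp only [sqPush, hwY]
        exact Real.sqrt_le_one.1 (hYn _)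
      have h := hnb z hzK _ hN w hY2
      have hth : areaKer P Log g φ q.2.2 ε q.1 q.2.1 z ≤
          gDiv g X z - g z (cov g X z (unitN g φ z)) (unitN g φ z) :=
        theta_lower hg hc hs hC hε hq hn hκ.le hzK hN
      have h2 := mul_le_mul_of_nonneg_left hth ht.le
      rw [hZx, map_smul, smul_apply, smul_eq_mul]
      linarith
    have hB : 0 ≤ B := by
      have := key (fun _ => 0) contDiff_const HasCompactSupport.zero fun x => by simp [gNorm_zero]
      simpa [divg, pd] using this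
    have hle : Univ.gPer g (sub φ' 0) ≤ ENNReal.ofReal B := iSup₂_le fun Y hY =>
      ENNReal.ofReal_le_ofReal (key Y hY.1 hY.2.1 hY.2.2)
    exact (ENNReal.toReal_mono ENNReal.ofReal_ne_top hle).trans_eq (ENNReal.toReal_ofReal hB)
  · have hdc : Continuous fun x => gDiv g X x * dens g x := by
      simp only [gDiv_mul_dens hg]
      exact continuous_divg (contDiff_weighted hg hX1)
    have hi1 : IntegrableOn (dens g) (sub φ 0) :=
      Surf.integrableOn_sub hd zero_le_one (contDiff_dens hg).continuous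
    have hi2 : IntegrableOn (fun x => gDiv g X x * dens g x) (sub φ 0) :=
      Surf.integrableOn_sub hd zero_le_one hdc
    have hir : IntegrableOn (fun x => ratio g X t x * dens g x) (sub φ 0) :=
      Surf.integrableOn_sub hd zero_le_one
        (((contDiff_ratio hg hX).continuous.comp (continuous_const.prodMk continuous_id)).mul
          (contDiff_dens hg).continuous)
    have hV' : Univ.gVol g (sub φ' 0) = ∫ x in sub φ 0, ratio g X t x * dens g x := by
      rw [Univ.gVol, hsub', hgood.integral_image hX hE]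
      refine setIntegral_congr_fun hE fun x _ => ?_
      simp only [ratio]
      field_simp [(dens_pos hg x).ne']
    have hlow : (1 - t * e) * Univ.gVol g (sub φ 0) - t * gInt g (sub φ 0) (gDiv g X) ≤
        Univ.gVol g (sub φ' 0) := by
      rw [hV']
      simp only [Univ.gVol, gInt]
      rw [← integral_const_mul, ← integral_const_mul t, ← integral_sub (hi1.const_mul _) (hi2.const_mul _)]
      refine setIntegral_mono_on ((hi1.const_mul _).sub (hi2.const_mul _)) hir hE fun x hx => ?_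
      have h := mul_le_mul_of_nonneg_right (hrb x (hsub hx)).1 (dens_pos hg x).le
      linarith
    have hflux : gInt g (sub φ 0) (gDiv g X) ≤
        area g φ η 0 (volKer P Log g φ q.2.2 ε q.1 q.2.1) + e * area g φ η 0 (fun _ => 1) := by
      have e1 := area_affine hg hd hw hkv e 1
      rw [flux hg hd hw hτ hX1]
      refine le_trans (area_mono hg hd hw hτ (contDiffOn_normalPart hg hd hX1)
        (contDiffOn_const.add (contDiffOn_const.mul hkv)) fun z hz => ?_) (by linarith)
      obtain ⟨hzK, hN⟩ := hlev z hz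
      rw [show X z = radial g P Log ε q z + κ • gGrad g (psi Log o) z from
        (field_eventually (g := g) (P := P) hc (ε := ε) (κ := κ) (q := q) hzK).eq_of_nhds, map_add,
        _root_.add_apply, radial, map_smul, map_smul, smul_apply, smul_apply, smul_eq_mul,
        smul_eq_mul, gGrad_dual hg, gGrad_dual hg, volKer]
      have hb : |fderiv ℝ (psi Log o) z (unitN g φ z)| ≤ Real.sqrt (2 * M) := by
        rw [← gGrad_dual hg (psi Log o) z]
        refine (abs_g_le hg z _ _).trans ?_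
        simp only [gNorm, hN, Real.sqrt_one, mul_one]
        refine Real.sqrt_le_sqrt ?_
        rw [grad_psi_sq hg hc]; linarith
      have hb2 : κ * fderiv ℝ (psi Log o) z (unitN g φ z) ≤ e := by
        refine (mul_le_mul_of_nonneg_left ((le_abs_self _).trans hb) hκ.le).trans ?_
        simp only [κ]
        rw [div_mul_eq_mul_div, div_le_iff₀ (by positivity)]
        exact mul_le_mul_of_nonneg_left (by linarith) he.le
      simp only [mult]
      linarith
    have h2 := mul_le_mul_of_nonneg_left hflux ht.le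
    linarith


/-- The variation, uniformly in the parameters. -/
theorem variation (hn : 2 ≤ n) (hg : IsMetric g) (hc : JointCharts g Exp Log)
    (hs : SecBound g 0) (hC : CertK n P α G gF) (o : Space n) {M : ℝ} (hM : 0 < M) {ε e : ℝ} (hε : 0 < ε)
    (he : 0 < e) {l₀ l₁ : ℝ} (hl₀ : 0 < l₀) :
    ∀ᶠ t in 𝓝[>] (0 : ℝ), ∀ q : Par n, psi Log o q.1 ≤ M → ‖q.2.1‖ ≤ 1 → q.2.2 ∈ Icc l₀ l₁ → ∀ φ : Space n → ℝ, ∀ η : ℝ, Defining φ →
      RegWindow φ η → sub φ 0 ⊆ {x | psi Log o x ≤ M} →
      ∃ φ', Defining φ' ∧ sub φ' 0 ⊆ {x | psi Log o x ≤ M} ∧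
        (Univ.gPer g (sub φ' 0)).toReal ≤ (1 + t * e) * area g φ η 0 (fun _ => 1) -
          t * area g φ η 0 (areaKer P Log g φ q.2.2 ε q.1 q.2.1) ∧
        (1 - t * e) * Univ.gVol g (sub φ 0) - t * area g φ η 0 (volKer P Log g φ q.2.2 ε q.1 q.2.1) -
          t * e * area g φ η 0 (fun _ => 1) ≤ Univ.gVol g (sub φ' 0) := by
  have hK := (pot_psi hn hg hc hs o).compact M
  obtain ⟨m, hm, hmK⟩ := coercive hg hK
  set U := {p : Space n × Space n | psi Log o p.1 ≤ M ∧ g p.1 p.2 p.2 = 1}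
  have hU : IsCompact U := by
    refine (hK.prod (isCompact_closedBall (0 : Space n) (Real.sqrt (1 / m)))).of_isClosed_subset
      ((hK.isClosed.preimage continuous_fst).inter (isClosed_eq
        (contDiff_quad hg (F := Space n × Space n) contDiff_fst contDiff_snd).continuous
        continuous_const)) fun p hp => ⟨hp.1, mem_closedBall_zero_iff.2 ?_⟩
    refine Real.le_sqrt_of_sq_le ?_
    rw [le_div_iff₀ hm]
    linarith [hmK p.1 hp.1 p.2, hp.2]
  set Q := {q : Par n | psi Log o q.1 ≤ M ∧ ‖q.2.1‖ ≤ 1 ∧ q.2.2 ∈ Icc l₀ l₁}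
  have hQ : IsCompact Q := by
    have hp : IsCompact ({a : Space n | psi Log o a ≤ M} ×ˢ
        Metric.closedBall (0 : Space n) 1 ×ˢ Icc l₀ l₁) :=
      hK.prod ((isCompact_closedBall _ _).prod isCompact_Icc)
    convert hp using 1
    ext q
    simp [Q]
  have hQok : ∀ q ∈ Q, ParOK q := fun q hq => ⟨hq.2.1, hl₀.trans_le hq.2.2.1⟩
  have hnear : ∀ a₀ ∈ Q, ∀ᶠ a in 𝓝 a₀, ∀ p ∈ U,
      dist (ker P Log ε (a, p)) (ker P Log ε (a₀, p)) < e / 2 :=
    fun a₀ ha₀ => hU.eventually_forall_of_forall_eventually (x₀ := a₀) fun p _ => by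
      have hS : IsOpen {p : Par n × Space n × Space n | 0 < p.1.2.2} :=
        isOpen_lt continuous_const (continuous_snd.comp (continuous_snd.comp continuous_fst))
      have hcont := fun r (hr : r ∈ {p : Par n × Space n × Space n | 0 < p.1.2.2}) =>
        ((contDiffOn_ker hc hC hε).continuousOn.continuousAt (hS.mem_nhds hr))
      have h1 := hcont (a₀, p) (hQok a₀ ha₀).scale
      have h2 : ContinuousAt (fun q : Par n × (Space n × Space n) => ker P Log ε (a₀, q.2)) (a₀, p) :=
        ContinuousAt.comp_of_eq h1 (continuous_const.prodMk continuous_snd).continuousAt rfl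
      refine Tendsto.eventually_lt_const (f := fun q : Par n × (Space n × Space n) =>
        dist (ker P Log ε q) (ker P Log ε (a₀, q.2))) ?_ (h1.dist h2)
      simp; linarith
  obtain ⟨S, hS, hcov⟩ := hQ.elim_nhds_subcover _ hnear
  filter_upwards [(S.eventually_all).2 fun a₀ ha₀ =>
    variation_one hn hg hc hs hC o hM hε (half_pos he) (hQok a₀ (hS a₀ ha₀)) (hS a₀ ha₀).1, eventually_mem_nhdsWithin]
    with t hall htpos a ha hae hal φ η hd hw hsub
  have ht : 0 < t := htpos
  obtain ⟨a₀, ha₀, ha₀'⟩ := mem_iUnion₂.1 (hcov (show a ∈ Q from ⟨ha, hae, hal⟩))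
  obtain ⟨φ', hd', hsub', hP, hV⟩ := hall a₀ ha₀ φ η hd hw hsub
  have hτ : |(0 : ℝ)| < η / 2 := by rw [abs_zero]; linarith [hw.1]
  obtain ⟨hka, hkv⟩ := contDiffOn_kers hg hc hC hd hε (hQok a ⟨ha, hae, hal⟩)
  obtain ⟨hka₀, hkv₀⟩ := contDiffOn_kers hg hc hC hd hε (hQok a₀ (hS a₀ ha₀))
  have hclose : ∀ z, φ z = 0 → |areaKer P Log g φ a.2.2 ε a.1 a.2.1 z - areaKer P Log g φ a₀.2.2 ε a₀.1 a₀.2.1 z| < e / 2 ∧
      |volKer P Log g φ a.2.2 ε a.1 a.2.1 z - volKer P Log g φ a₀.2.2 ε a₀.1 a₀.2.1 z| < e / 2 := by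
    intro z hz
    have h := ha₀' (z, unitN g φ z) ⟨(closure_minimal hsub hK.isClosed)
      (mem_closure_sub (hd.smooth.differentiable (by norm_num) z) hz (hd.reg z hz)), by
      rw [← gNorm_sq hg, Surf.gNorm_unitN hg (hd.reg z hz), one_pow]⟩
    rw [Prod.dist_eq, max_lt_iff, Real.dist_eq, Real.dist_eq] at h
    exact h
  have e1 := area_affine hg hd hw hka₀ (e / 2) 1
  have h1 := area_mono hg hd hw hτ hka (contDiffOn_const.add (contDiffOn_const.mul hka₀))
    (h' := fun z => e / 2 + 1 * areaKer P Log g φ a₀.2.2 ε a₀.1 a₀.2.1 z) fun z hz => by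
      linarith [(abs_lt.1 (hclose z hz).1).2]
  have e2 := area_affine hg hd hw hkv (e / 2) 1
  have h2 := area_mono hg hd hw hτ hkv₀ (contDiffOn_const.add (contDiffOn_const.mul hkv))
    (h' := fun z => e / 2 + 1 * volKer P Log g φ a.2.2 ε a.1 a.2.1 z) fun z hz => by
      linarith [(abs_lt.1 (hclose z hz).2).1]
  rw [e1] at h1
  rw [e2] at h2
  have h1' := mul_le_mul_of_nonneg_left h1 ht.le
  have h2' := mul_le_mul_of_nonneg_left h2 ht.le
  have hA : 0 ≤ area g φ η 0 (fun _ => 1) :=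
    area_nonneg hg hd hw hτ contDiffOn_const fun _ _ => zero_le_one
  have hV0 : 0 ≤ Univ.gVol g (sub φ 0) :=
    integral_nonneg fun x => (dens_pos hg x).le
  have h3 := mul_nonneg (mul_nonneg ht.le he.le) hV0
  exact ⟨φ', hd', hsub', by linarith, by linarith⟩

end

end Vale.Agent.P219.Aff
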