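import Mathlib
import Vale.Agent.P219.Six.Near
import Vale.Agent.P219.Aff.FirstVar

/-!
# Near minimisers for the kernels affine in the far cosine
-/

open MeasureTheory Set Filter Topology
open scoped ENNReal ContDiff RealInnerProductSpace

namespace Vale.Agent.P219.Aff

open Vale.Agent.P219 Vale.Agent.P219.Univ Vale.Agent.P219.Univ.FirstVar
open Vale.Agent.P219.Six hiding areaKer volKer
open Vale.Agent.P219.Six.Surf
open Vale.Agent.P219.Six.FV (mem_closure_sub psi_nonneg area_affine pot_psi rpow_tangent near_alg gVol_mono gVol_nonneg exists_window coercive)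

noncomputable section

variable {n : ℕ} {g : MetricField n} {Exp Log : Space n → Space n → Space n} {P : Kern}
  {α G : ℝ} {gF : ℝ → ℝ}

/-- The variation at a nearby level, seen in the window of the zero level. -/
theorem level_vary (hg : IsMetric g) (hc : JointCharts g Exp Log) (hC : CertK n P α G gF) {φ : Space n → ℝ} {η τ : ℝ}
    (hd : Defining φ) (hw : RegWindow φ η) (hτ0 : τ < 0) (habs : |τ| < η / 2) {K : Set (Space n)}
    (hsub : sub φ τ ⊆ K) (hK : IsClosed K) {ε t e₁ Cv : ℝ} (hε : 0 < ε) {q : Par n} (hq0 : ParOK q)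
    (hCv : ∀ z ∈ K, ∀ N, g z N N = 1 → |(ker P Log ε (q, z, N)).2| ≤ Cv)
    (hvar : ∀ ψ : Space n → ℝ, ∀ η : ℝ, Defining ψ → RegWindow ψ η → sub ψ 0 ⊆ K →
      ∃ φ', Defining φ' ∧ sub φ' 0 ⊆ K ∧
        (Univ.gPer g (sub φ' 0)).toReal ≤ (1 + t * e₁) * area g ψ η 0 (fun _ => 1) -
          t * area g ψ η 0 (areaKer P Log g ψ q.2.2 ε q.1 q.2.1) ∧
        (1 - t * e₁) * Univ.gVol g (sub ψ 0) - t * area g ψ η 0 (volKer P Log g ψ q.2.2 ε q.1 q.2.1) -
          t * e₁ * area g ψ η 0 (fun _ => 1) ≤ Univ.gVol g (sub φ' 0)) :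
    ∃ φ', Defining φ' ∧ sub φ' 0 ⊆ K ∧
      (Univ.gPer g (sub φ' 0)).toReal ≤ (1 + t * e₁) * area g φ η τ (fun _ => 1) -
          t * area g φ η τ (areaKer P Log g φ q.2.2 ε q.1 q.2.1) ∧
      (1 - t * e₁) * Univ.gVol g (sub φ τ) - t * area g φ η τ (volKer P Log g φ q.2.2 ε q.1 q.2.1) -
          t * e₁ * area g φ η τ (fun _ => 1) ≤ Univ.gVol g (sub φ' 0) ∧
      |area g φ η τ (volKer P Log g φ q.2.2 ε q.1 q.2.1)| ≤ Cv * area g φ η τ (fun _ => 1) := by
  have hc1 : ContDiffOn ℝ 1 (fun _ : Space n => (1 : ℝ)) (regSet φ) := contDiffOn_const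
  obtain ⟨hP10, -⟩ := gPer_sub hg hd hw habs
  set ψ : Space n → ℝ := fun x => φ x - τ
  have hd' : Defining ψ := by
    obtain ⟨R', hR'⟩ := hd.far
    refine ⟨hd.smooth.sub contDiff_const, ⟨R', fun x hx => ?_⟩, fun x hx => ?_⟩
    · show 1 ≤ φ x - τ
      linarith [hR' x hx]
    · simp only [ψ, fderiv_sub_const]
      have hxτ : φ x = τ := by simp only [ψ] at hx; linarith
      exact hw.2.2 x (by rw [hxτ]; linarith [hw.1])
  set η' := (η / 2 - |τ|) / 2
  have hη' : 0 < η' := by simp only [η']; linarith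
  have hτη : |τ| + η' < η / 2 := by simp only [η']; linarith
  have hw' : RegWindow ψ η' := by
    refine ⟨hη', by linarith [hw.2.1, abs_nonneg τ, hw.1], fun x hx => ?_⟩
    simp only [ψ, fderiv_sub_const]
    refine hw.2.2 x ?_
    have h1 := abs_sub_abs_le_abs_sub (φ x) τ
    have hx' : |φ x - τ| ≤ η' := hx
    linarith [hw.1]
  have hsub0 : sub ψ 0 = sub φ τ := by ext x; simp [sub, ψ]
  have hN : ∀ z, unitN g ψ z = unitN g φ z := fun z => by
    simp only [unitN, gradLen, gGrad, ψ, fderiv_sub_const]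
  have hka : areaKer P Log g ψ q.2.2 ε q.1 q.2.1 = areaKer P Log g φ q.2.2 ε q.1 q.2.1 := by
    funext z; simp only [areaKer, hN]
  have hkv : volKer P Log g ψ q.2.2 ε q.1 q.2.1 = volKer P Log g φ q.2.2 ε q.1 q.2.1 := by
    funext z; simp only [volKer, hN]
  obtain ⟨hcka, hckv⟩ := contDiffOn_kers hg hc hC hd hε hq0
  obtain ⟨φ', hd'', hφ'K, hP', hV'⟩ := hvar ψ η' hd' hw' (by rw [hsub0]; exact hsub)
  rw [hka, area_shift hg hd hw hη' hτη hc1, area_shift hg hd hw hη' hτη hcka] at hP'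
  rw [hkv, hsub0, area_shift hg hd hw hη' hτη hc1, area_shift hg hd hw hη' hτη hckv] at hV'
  set Aq := area g φ η τ (volKer P Log g φ q.2.2 ε q.1 q.2.1)
  set P1 := area g φ η τ fun _ => 1
  have hq : ∀ z, φ z = τ → |volKer P Log g φ q.2.2 ε q.1 q.2.1 z| ≤ Cv := by
    intro z hz
    have hreg : fderiv ℝ φ z ≠ 0 := hw.2.2 z (by rw [hz]; linarith [hw.1])
    have hzψ : ψ z = 0 := by simp [ψ, hz]
    have hzK : z ∈ K := (closure_minimal (hsub0.trans_subset hsub) hK)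
      (mem_closure_sub (hd'.smooth.differentiable (by norm_num) z) hzψ (hd'.reg z hzψ))
    exact hCv z hzK (unitN g φ z) (by rw [← gNorm_sq hg, Surf.gNorm_unitN hg hreg, one_pow])
  have hτ1' := (lt_one_of_window hw habs).le
  have hAq : |Aq| ≤ Cv * P1 := by
    have hu := area_mono hg hd hw habs hckv
      (h' := fun x => Cv * (fun _ : Space n => (1 : ℝ)) x) (contDiffOn_const.mul hc1)
      fun z hz => by simpa using (abs_le.1 (hq z hz)).2
    have hl := area_mono hg hd hw habs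
      (h := fun x => -Cv * (fun _ : Space n => (1 : ℝ)) x) (contDiffOn_const.mul hc1) hckv
      fun z hz => by simpa using (abs_le.1 (hq z hz)).1
    rw [area_smul hg hd hw hc1] at hu hl
    rw [abs_le]
    constructor <;> linarith
  exact ⟨φ', hd'', hφ'K, hP', hV', hAq⟩


/-- Near minimisers with almost stationary nearby levels. -/
theorem near (hn : 2 ≤ n) (hg : IsMetric g) (hc : JointCharts g Exp Log) (hs : SecBound g 0)
    (hC : CertK n P α G gF)
    {c : ℝ} (hc0 : 0 < c) {φ₀ : Space n → ℝ} (h₀ : Defining φ₀)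
    (hneg : deficitN g c (sub φ₀ 0) < 0) :
    ∃ m Vmax : ℝ, 0 < m ∧ ∀ ε e : ℝ, 0 < ε → 0 < e → ∃ φ η, Defining φ ∧ RegWindow φ η ∧
      deficitN g c (sub φ 0) ≤ -m ∧ Univ.gVol g (sub φ 0) ≤ Vmax ∧
      ∀ τ ∈ Ioo (-(η / 2)) 0, ∀ a, φ a = τ → ∀ v : Space n, ‖v‖ ≤ 1 → ∀ l : ℝ,
        l = c * (1 - (n : ℝ)⁻¹) * Univ.gVol g (sub φ 0) ^ (-(n : ℝ)⁻¹) / ((n : ℝ) - 1) →
        area g φ η τ (fun z => areaKer P Log g φ l ε a v z -
          ((n : ℝ) - 1) * l * volKer P Log g φ l ε a v z) ≤ e := by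
  obtain ⟨o, ho⟩ : ∃ o : Space n, o = 0 := ⟨0, rfl⟩
  have hpo := pot_psi hn hg hc hs o
  obtain ⟨R, hR⟩ := Surf.sub_subset_ball h₀ (τ := 0) zero_le_one
  obtain ⟨Mb, hMb⟩ := (isCompact_closedBall (0 : Space n) R).exists_bound_of_continuousOn
    hpo.smooth.continuous.continuousOn
  set M := max Mb 0 + 1
  have hM : 0 < M := by positivity
  set K := {x | psi Log o x ≤ M}
  have hKb : Bornology.IsBounded K := (hpo.compact M).isBounded
  have h₀K : sub φ₀ 0 ⊆ K := fun x hx => by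
    have := (le_abs_self _).trans ((hMb x (hR hx)).trans (le_max_left Mb 0))
    show psi Log o x ≤ max Mb 0 + 1
    linarith
  set Vmax := Univ.gVol g K
  refine ⟨-deficitN g c (sub φ₀ 0), Vmax, by linarith, fun ε e hε he => ?_⟩
  set p : ℝ := 1 - (n : ℝ)⁻¹
  have hn2 : (2 : ℝ) ≤ n := by exact_mod_cast hn
  have hp1 : p ≤ 1 := by simp [p]
  have hp0 : 0 < p := by
    have : (n : ℝ)⁻¹ ≤ 2⁻¹ := inv_anti₀ two_pos hn2
    simp only [p]; linarith
  set m := -deficitN g c (sub φ₀ 0)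
  have hm : 0 < m := by simp only [m]; linarith
  set v0 := (m / c) ^ p⁻¹
  have hv0 : 0 < v0 := Real.rpow_pos_of_pos (by positivity) _
  set Pm := c * Vmax ^ p + 1
  have hVmax : 0 ≤ Vmax := gVol_nonneg hg K
  have hPm : 0 < Pm := by positivity
  set b : ℝ → ℝ := fun s => c * p * s ^ (p - 1)
  set H := b (v0 / 4)
  have hn1 : (0 : ℝ) < (n : ℝ) - 1 := by linarith
  set l₀ := b (Vmax + v0) / ((n : ℝ) - 1)
  set l₁ := b v0 / ((n : ℝ) - 1)
  have hl₀ : 0 < l₀ := by simp only [l₀, b]; positivity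
  set U := {p : Space n × Space n | psi Log o p.1 ≤ M ∧ g p.1 p.2 p.2 = 1}
  set Q := {q : Par n | psi Log o q.1 ≤ M ∧ ‖q.2.1‖ ≤ 1 ∧ q.2.2 ∈ Icc l₀ l₁}
  obtain ⟨Cv, hCv0, hCv⟩ : ∃ Cv : ℝ, 0 ≤ Cv ∧
      ∀ q ∈ Q, ∀ p ∈ U, |(ker P Log ε (q, p)).2| ≤ Cv := by
    have hK' := hpo.compact M
    obtain ⟨mc, hmc, hmK⟩ := Six.FV.coercive hg hK'
    have hU : IsCompact U := by
      refine (hK'.prod (isCompact_closedBall (0 : Space n) (Real.sqrt (1 / mc)))).of_isClosed_subset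
        ((hK'.isClosed.preimage continuous_fst).inter (isClosed_eq
          (contDiff_quad hg (F := Space n × Space n) contDiff_fst contDiff_snd).continuous
          continuous_const)) fun p hp => ⟨hp.1, mem_closedBall_zero_iff.2 ?_⟩
      refine Real.le_sqrt_of_sq_le ?_
      rw [le_div_iff₀ hmc]
      linarith [hmK p.1 hp.1 p.2, hp.2]
    have hQ : IsCompact Q := by
      convert hK'.prod ((isCompact_closedBall (0 : Space n) 1).prod (isCompact_Icc (a := l₀) (b := l₁)))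
        using 1
      ext q
      simp [Q]
    obtain ⟨C, hC'⟩ := (hQ.prod hU).exists_bound_of_continuousOn
      (((contDiffOn_ker hc hC hε).continuousOn.mono fun p hp => hl₀.trans_le hp.1.2.2.1).snd)
    exact ⟨max C 0, le_max_right _ _, fun q hq p hp =>
      (hC' (q, p) ⟨hq, hp⟩).trans (le_max_left _ _)⟩
  set K0 := Pm + 1 + H * (Vmax + Pm) + Cv * Pm
  have hK0 : 0 < K0 := by positivity
  set e₁ := e / K0
  have he₁ : 0 < e₁ := by positivity
  -- the mean curvature is uniformly continuous in the volume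
  have hbc : ContinuousOn b (Icc (v0 / 4) (Vmax + v0)) := by
    refine continuousOn_const.mul (continuousOn_id.rpow_const fun s hs => Or.inl ?_)
    have : v0 / 4 ≤ s := hs.1
    exact (lt_of_lt_of_le (by linarith) this).ne'
  obtain ⟨ρ, hρ, hbu⟩ := Metric.uniformContinuousOn_iff.1
    (isCompact_Icc.uniformContinuousOn_of_continuous hbc) e₁ he₁
  set Dm := e₁ * Vmax + (Cv + e₁) * Pm
  have hDm : 0 < Dm := by positivity
  obtain ⟨t, hvar, ht⟩ := ((variation hn hg hc hs hC o hM hε he₁ hl₀ (l₁ := l₁)).and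
    (Ioo_mem_nhdsGT (show 0 < min (v0 / 4) (ρ / 2) / Dm by positivity))).exists
  have ht0 : 0 < t := ht.1
  have htD : t * Dm < min (v0 / 4) (ρ / 2) := (lt_div_iff₀ hDm).1 ht.2
  -- a near minimiser
  set D := {φ : Space n → ℝ | Defining φ ∧ sub φ 0 ⊆ K}
  have hbdd : BddBelow ((fun φ => deficitN g c (sub φ 0)) '' D) := by
    refine ⟨-(c * Vmax ^ p), ?_⟩
    rintro _ ⟨φ, hφ, rfl⟩
    have h1 : Univ.gVol g (sub φ 0) ^ p ≤ Vmax ^ p :=
      Real.rpow_le_rpow (gVol_nonneg hg _) (gVol_mono hg hKb hφ.2) hp0.le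
    simp only [deficitN]
    have h2 := (Univ.gPer g (sub φ 0)).toReal_nonneg
    nlinarith
  set d := sInf ((fun φ => deficitN g c (sub φ 0)) '' D)
  have hdle : ∀ φ ∈ D, d ≤ deficitN g c (sub φ 0) := fun φ hφ => csInf_le hbdd ⟨φ, hφ, rfl⟩
  obtain ⟨φ, hφD, hφ1, hφ2⟩ : ∃ φ ∈ D, deficitN g c (sub φ 0) < d + t * e₁ / 2 ∧
      deficitN g c (sub φ 0) ≤ -m := by
    obtain ⟨_, ⟨φ₁, hφ₁, rfl⟩, h1⟩ := exists_lt_of_csInf_lt
      (s := (fun φ => deficitN g c (sub φ 0)) '' D) ⟨_, φ₀, ⟨h₀, h₀K⟩, rfl⟩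
      (show d < d + t * e₁ / 2 by linarith [mul_pos ht0 he₁])
    rcases le_total (deficitN g c (sub φ₁ 0)) (deficitN g c (sub φ₀ 0)) with h | h
    · exact ⟨φ₁, hφ₁, h1, by simpa [m] using h⟩
    · exact ⟨φ₀, ⟨h₀, h₀K⟩, h.trans_lt h1, by simp [m]⟩
  obtain ⟨hd, hφK⟩ := hφD
  obtain ⟨η₀, hw₀⟩ := exists_window hd
  set V0 := Univ.gVol g (sub φ 0)
  have hV0m : V0 ≤ Vmax := gVol_mono hg hKb hφK
  have hV00 : 0 ≤ V0 := gVol_nonneg hg _
  have hdef : (Univ.gPer g (sub φ 0)).toReal - c * V0 ^ p ≤ -m := hφ2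
  have hV0 : v0 ≤ V0 := by
    have h1 : m / c ≤ V0 ^ p := by
      rw [div_le_iff₀ hc0]
      linarith [(Univ.gPer g (sub φ 0)).toReal_nonneg]
    calc v0 ≤ (V0 ^ p) ^ p⁻¹ := Real.rpow_le_rpow (by positivity) h1 (by positivity)
      _ = V0 := by rw [← Real.rpow_mul hV00, mul_inv_cancel₀ hp0.ne', Real.rpow_one]
  have hP0 : (Univ.gPer g (sub φ 0)).toReal < Pm := by
    have h1 : V0 ^ p ≤ Vmax ^ p := Real.rpow_le_rpow hV00 hV0m hp0.le
    have := mul_le_mul_of_nonneg_left h1 hc0.le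
    simp only [Pm]; linarith
  -- nearby levels
  have hz : (0 : ℝ) ∈ Ioo (-(η₀ / 2)) (η₀ / 2) := by
    constructor <;> linarith [hw₀.1]
  have hc1 : ContDiffOn ℝ 1 (fun _ : Space n => (1 : ℝ)) (regSet φ) := contDiffOn_const
  have hcA := (area_continuous hg hd hw₀ hc1).continuousAt (isOpen_Ioo.mem_nhds hz)
  have hcV := (gVol_continuous hg hd hw₀).continuousAt (isOpen_Ioo.mem_nhds hz)
  have hP0eq : (Univ.gPer g (sub φ 0)).toReal = area g φ η₀ 0 fun _ => 1 := by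
    obtain ⟨h1, h2⟩ := gPer_sub hg hd hw₀ (τ := 0) (by rw [abs_zero]; linarith [hw₀.1])
    rw [h2, ENNReal.toReal_ofReal h1]
  have hev : ∀ᶠ τ in 𝓝 (0 : ℝ), |τ| < η₀ / 2 ∧ dist (Univ.gVol g (sub φ τ)) V0 < min (v0 / 2) (ρ / 2) ∧
      area g φ η₀ τ (fun _ => 1) < Pm ∧
      area g φ η₀ τ (fun _ => 1) - c * Univ.gVol g (sub φ τ) ^ p < d + t * e₁ := by
    refine ((continuous_abs.tendsto' (0 : ℝ) 0 abs_zero).eventually_lt_const
      (by linarith [hw₀.1])).and ((Metric.tendsto_nhds.1 hcV _ (by positivity)).and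
      ((hcA.eventually_lt_const (show area g φ η₀ 0 (fun _ => 1) < Pm by rw [← hP0eq]; exact hP0)).and ?_))
    refine (hcA.sub ((hcV.rpow_const (Or.inr hp0.le)).const_mul c)).eventually_lt_const ?_
    show area g φ η₀ 0 (fun _ => 1) - c * V0 ^ p < d + t * e₁
    rw [← hP0eq]
    have : (Univ.gPer g (sub φ 0)).toReal - c * V0 ^ p < d + t * e₁ / 2 := hφ1
    linarith [mul_pos ht0 he₁]
  obtain ⟨r, hr, hball⟩ := Metric.eventually_nhds_iff.1 hev
  set η := min r (η₀ / 2)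
  have hη0 : 0 < η := lt_min hr (by linarith [hw₀.1])
  have hηle : η ≤ η₀ := (min_le_right _ _).trans (by linarith [hw₀.1])
  have hw : RegWindow φ η := ⟨hη0, hηle.trans_lt hw₀.2.1, fun x hx => hw₀.2.2 x (hx.trans hηle)⟩
  refine ⟨φ, η, hd, hw, hφ2, hV0m, fun τ hτ a ha v hv l hl => ?_⟩
  have hτ0 : τ < 0 := hτ.2
  have habs : |τ| < η / 2 := by rw [abs_of_neg hτ0]; linarith [hτ.1]
  obtain ⟨hτ1, hVd, hP1', hF1⟩ := hball (y := τ) (by
    rw [Real.dist_eq, sub_zero]; linarith [min_le_left r (η₀ / 2)])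
  obtain ⟨hVd1, hVd2⟩ := lt_min_iff.1 hVd
  rw [Real.dist_eq, abs_lt] at hVd1
  rw [Real.dist_eq, abs_lt] at hVd2
  set V1 := Univ.gVol g (sub φ τ)
  set P1 := area g φ η τ fun _ => 1
  obtain ⟨hP10, hPer1⟩ := gPer_sub hg hd hw habs
  have hPeq : area g φ η₀ τ (fun _ => 1) = P1 := by
    obtain ⟨h1, h2⟩ := gPer_sub hg hd hw₀ hτ1
    rw [hPer1, ENNReal.ofReal_eq_ofReal_iff hP10 h1] at h2
    exact h2.symm
  rw [hPeq] at hP1' hF1
  have hsub : sub φ τ ⊆ K := fun x hx => hφK (lt_trans (show φ x < τ from hx) hτ0)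
  have haK : psi Log o a ≤ M := hφK (show φ a < 0 by rw [ha]; exact hτ0)
  have hV10 : 0 ≤ V1 := gVol_nonneg hg _
  have hV1m : V1 ≤ Vmax := gVol_mono hg hKb hsub
  have hlI : l ∈ Icc l₀ l₁ := by
    have hb : ∀ x y : ℝ, 0 < x → x ≤ y → b y ≤ b x := fun x y hx hxy =>
      mul_le_mul_of_nonneg_left (Real.rpow_le_rpow_of_nonpos hx hxy (by linarith)) (by positivity)
    have e : l = b V0 / ((n : ℝ) - 1) := by
      rw [hl, show -(n : ℝ)⁻¹ = p - 1 by simp [p]]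
    have h1 := hb V0 (Vmax + v0) (lt_of_lt_of_le (by positivity) hV0) (by linarith)
    have h2 := hb v0 V0 (by positivity) hV0
    rw [e]
    exact ⟨div_le_div_of_nonneg_right h1 hn1.le, div_le_div_of_nonneg_right h2 hn1.le⟩
  obtain ⟨q, rfl, rfl, rfl⟩ : ∃ q : Par n, q.1 = a ∧ q.2.1 = v ∧ q.2.2 = l := ⟨(a, v, l), rfl, rfl, rfl⟩
  have hq0 : ParOK q := ⟨hv, hl₀.trans_le hlI.1⟩
  obtain ⟨φ', hd'', hφ'K, hP', hV', hAq⟩ := level_vary hg hc hC hd hw hτ0 habs hsub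
    (hpo.compact M).isClosed hε hq0 (Cv := Cv)
    (fun z hz N hN => hCv q ⟨haK, hv, hlI⟩ (z, N) ⟨hz, hN⟩) (hvar q haK hv hlI)
  set A0 := area g φ η τ (areaKer P Log g φ q.2.2 ε q.1 q.2.1)
  set Aq := area g φ η τ (volKer P Log g φ q.2.2 ε q.1 q.2.1)
  obtain ⟨hcka, hckv⟩ := contDiffOn_kers hg hc hC hd hε hq0
  have hτ1' := (lt_one_of_window hw habs).le
  have hd1 : d ≤ (Univ.gPer g (sub φ' 0)).toReal - c * Univ.gVol g (sub φ' 0) ^ p :=
    hdle φ' ⟨hd'', hφ'K⟩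
  obtain ⟨hAq1, hAq2⟩ := abs_le.1 hAq
  set W := V1 - t * (e₁ * V1 + Aq + e₁ * P1)
  have hΔ : |t * (e₁ * V1 + Aq + e₁ * P1)| ≤ t * Dm := by
    rw [abs_mul, abs_of_pos ht0]
    refine mul_le_mul_of_nonneg_left ?_ ht0.le
    have a1 := mul_le_mul_of_nonneg_left hV1m he₁.le
    have a2 := mul_le_mul_of_nonneg_left hP1'.le he₁.le
    have a3 := mul_nonneg he₁.le hV10
    have a4 := mul_nonneg he₁.le hP10
    have a5 : Cv * P1 ≤ Cv * Pm := mul_le_mul_of_nonneg_left hP1'.le (by positivity)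
    have a6 := mul_nonneg he₁.le hVmax
    have a7 := mul_nonneg he₁.le hPm.le
    simp only [Dm]
    rw [abs_le]
    constructor <;> linarith
  obtain ⟨hΔ1, hΔ2⟩ := abs_le.1 hΔ
  obtain ⟨htD1, htD2⟩ := lt_min_iff.1 htD
  have hW4 : v0 / 4 ≤ W := by simp only [W]; linarith
  have hWm : W ≤ Vmax + v0 := by simp only [W]; linarith
  have hH : c * p * W ^ (p - 1) ≤ H := by
    simp only [H, b]
    refine mul_le_mul_of_nonneg_left ?_ (by positivity)
    exact Real.rpow_le_rpow_of_nonpos (by positivity) hW4 (by linarith)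
  have hbb : |b W - b V0| ≤ e₁ := by
    have := hbu W ⟨hW4, hWm⟩ V0 ⟨by linarith, by linarith⟩ (by
      rw [Real.dist_eq, abs_lt]
      constructor <;> simp only [W] <;> linarith)
    rw [Real.dist_eq] at this
    exact this.le
  have main := near_alg hc0.le hp0.le hp1 ht0 he₁ (lt_of_lt_of_le (by positivity) hW4) hP' hV' hd1
    hF1.le hP1'.le hP10 hV1m hV10 hAq hH hbb (by positivity)
  have hlb : ((n : ℝ) - 1) * q.2.2 = c * p * V0 ^ (p - 1) := by
    rw [hl, show -(n : ℝ)⁻¹ = p - 1 by simp [p]]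
    field_simp
    rfl
  have hlin : area g φ η τ (fun z => areaKer P Log g φ q.2.2 ε q.1 q.2.1 z -
      c * p * V0 ^ (p - 1) * volKer P Log g φ q.2.2 ε q.1 q.2.1 z) = A0 + -(b V0) * Aq := by
    rw [← area_smul hg hd hw hckv, ← area_add hg hd hw hτ1' hcka (contDiffOn_const.mul hckv)]
    congr 1
    funext z
    simp only [b]; ring
  rw [hlb, hlin]
  have e2 : e₁ * K0 = e := by simp only [e₁]; field_simp
  simp only [K0] at e2
  linarith

end

end Vale.Agent.P219.Aff
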