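import Vale.Agent.P219.Aff.Switch
import Vale.Agent.P219.Aff.Near
import Vale.Agent.P219.Six.Bridge.Smooth
import Vale.Agent.P219.Univ.CoordBridge
import Vale.Agent.P219.Aff.Affine

/-!
# A certificate gives the sharp isoperimetric inequality
-/

open MeasureTheory Set Filter Topology
open scoped ENNReal ContDiff RealInnerProductSpace

namespace Vale.Agent.P219.Aff

open Vale.Agent.P219 Vale.Agent.P219.Univ
open Vale.Agent.P219.Six
open Vale.Agent.P219.Six.Surf

noncomputable section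

variable {n : ℕ} {P : Kern} {α G : ℝ} {gF : ℝ → ℝ} {g : MetricField n} {Ex Lo : Space n → Space n → Space n} {φ : Space n → ℝ}

/-- A defining function can be normalised at infinity without changing the domain. -/
theorem exists_defining (hφ : ContDiff ℝ 2 φ) (hb : Bornology.IsBounded (sub φ 0))
    (hr : ∀ x, φ x = 0 → fderiv ℝ φ x ≠ 0) :
    ∃ ψ : Space n → ℝ, Defining ψ ∧ sub ψ 0 = sub φ 0 := by
  have hz : {x | φ x = 0} ⊆ closure (sub φ 0) := by
    intro x hx
    by_contra hcl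
    have hev : ∀ᶠ y in 𝓝 x, 0 ≤ φ y := by
      filter_upwards [isClosed_closure.isOpen_compl.mem_nhds hcl] with y hy
      exact not_lt.1 fun h => hy (subset_closure h)
    have hmin : IsLocalMin φ x := by
      filter_upwards [hev] with y hy
      rw [show φ x = 0 from hx]
      exact hy
    exact hr x hx hmin.fderiv_eq_zero
  obtain ⟨R, hR⟩ := hb.closure.subset_closedBall (0 : Space n)
  set ρ := max R 0 + 1 with hρ
  have hρ0 : 0 < ρ := by rw [hρ]; linarith [le_max_right R 0]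
  let b : ContDiffBump (0 : Space n) := ⟨ρ, ρ + 1, hρ0, by linarith⟩
  set ψ : Space n → ℝ := fun x => b x * φ x + (1 - b x) with hψ
  have hin : ∀ x ∈ closure (sub φ 0), ψ =ᶠ[𝓝 x] φ := fun x hx => by
    have hx' : x ∈ Metric.ball (0 : Space n) ρ := by
      have := hR hx
      rw [Metric.mem_closedBall] at this
      rw [Metric.mem_ball, hρ]
      linarith [le_max_left R 0]
    filter_upwards [b.eventuallyEq_one_of_mem_ball hx'] with y hy
    simp [hψ, hy]
  have hout : ∀ x, x ∉ closure (sub φ 0) → 0 < ψ x := fun x hx => by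
    have h0 : 0 ≤ φ x := not_lt.1 fun h => hx (subset_closure h)
    have h1 : φ x ≠ 0 := fun h => hx (hz h)
    have h2 : 0 < φ x := lt_of_le_of_ne h0 (Ne.symm h1)
    have h3 := b.nonneg (x := x)
    have h4 := b.le_one (x := x)
    simp only [hψ]
    rcases h3.eq_or_lt with h | h
    · rw [← h]; norm_num
    · have := mul_pos h h2
      linarith
  refine ⟨ψ, ⟨?_, ⟨ρ + 1, fun x hx => ?_⟩, fun x hx => ?_⟩, ?_⟩
  · exact (b.contDiff.mul hφ).add (contDiff_const.sub b.contDiff)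
  · have : b x = 0 := b.zero_of_le_dist (by rwa [dist_zero_right])
    simp [hψ, this]
  · by_cases hcl : x ∈ closure (sub φ 0)
    · rw [(hin x hcl).fderiv_eq]
      exact hr x ((hin x hcl).self_of_nhds ▸ hx)
    · exact absurd hx (hout x hcl).ne'
  · ext x
    simp only [sub, Set.mem_ofPred_eq]
    by_cases hcl : x ∈ closure (sub φ 0)
    · rw [(hin x hcl).self_of_nhds]
    · exact iff_of_false (not_lt.2 (hout x hcl).le) fun h => hcl (subset_closure h)

theorem kernel_area (hg : IsMetric g) (hc : JointCharts g Ex Lo) (hC : CertK n P α G gF) {η τ : ℝ}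
    (hd : Defining φ) (hw : RegWindow φ η) (hτ : |τ| < η / 2) {l ε : ℝ} (hl : 0 < l) (hε : 0 < ε)
    (a : Space n) :
    area g φ η τ (kernel P g Lo φ l ε a) =
      (1 + 2 * P.D * (l ^ 2 * ε)) * area g φ η τ (fun _ => 1) + area g φ η τ (fun z =>
      areaKer P Lo g φ l ε a (inDir g Lo φ a) z -
        ((n : ℝ) - 1) * l * volKer P Lo g φ l ε a (inDir g Lo φ a) z) := by
  obtain ⟨h1, h2⟩ := contDiffOn_kers hg hc hC hd hε (q := (a, inDir g Lo φ a, l))
    ⟨inDir_norm hg hc a, hl⟩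
  rw [← area_smul hg hd hw contDiffOn_const, ← area_add hg hd hw (lt_one_of_window hw hτ).le
    (contDiffOn_const.mul contDiffOn_const) (h1.sub (contDiffOn_const.mul h2))]
  refine congrArg (area g φ η τ) (funext fun z => ?_)
  simp only [kernel, kerF, areaKer, volKer]
  ring

/-- The final arithmetic, `k = n - 1`. -/
theorem algebra {k : ℕ} {c u l A Q ε e L N w α G : ℝ} (hl : c = N * (l * u))
    (hQ : Q = l ^ (k + 1) * u ^ (k + 1)) (hQ0 : 0 < Q) (hl0 : 0 < l) (hlL : l ≤ L)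
    (hA0 : 0 ≤ A) (hA : A ≤ c * u ^ k) (hN : 0 < N) (hw : 0 ≤ w) (hα : 0 ≤ α) (hG : 0 ≤ G)
    (he : 0 ≤ e) (hbal : α * (N * w) + 2 * G = w)
    (hsw : N * w * (l * u ^ (k + 1)) ≤
      A * (α * l ^ k * (A + 2 * e) + 2 * G + N * w * (N + 1) * (l * Real.sqrt ε))) :
    α * N * (w - Q) ≤ 2 * (α * L ^ k * e) + N * w * (N + 1) * (L * Real.sqrt ε) := by
  set A' := l ^ k * A
  have hA' : A' ≤ N * Q := by
    refine (mul_le_mul_of_nonneg_left hA (pow_nonneg hl0.le k)).trans (le_of_eq ?_)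
    rw [hl, hQ]
    ring
  have hA'0 : 0 ≤ A' := by positivity
  set err := 2 * (α * L ^ k * e) + N * w * (N + 1) * (L * Real.sqrt ε)
  have herr : 0 ≤ err := by
    have : 0 ≤ L := hl0.le.trans hlL
    positivity
  have h1 : α * l ^ k * (A + 2 * e) + 2 * G + N * w * (N + 1) * (l * Real.sqrt ε) ≤
      α * (N * Q) + 2 * G + err := by
    have e2 : α * l ^ k * e ≤ α * L ^ k * e := by gcongr
    have e3 : N * w * (N + 1) * (l * Real.sqrt ε) ≤ N * w * (N + 1) * (L * Real.sqrt ε) := by gcongr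
    have e4 := mul_le_mul_of_nonneg_left hA' hα
    have e5 : α * l ^ k * (A + 2 * e) = α * A' + 2 * (α * l ^ k * e) := by simp only [A']; ring
    simp only [err]
    linarith
  have h2 : w * (N * Q) ≤ (α * (N * Q) + 2 * G + err) * (N * Q) := by
    have h3 := mul_le_mul_of_nonneg_left hsw (pow_nonneg hl0.le k)
    rw [← mul_assoc (l ^ k) A, show l ^ k * (N * w * (l * u ^ (k + 1))) = w * (N * Q) by
      rw [hQ]; ring] at h3
    refine h3.trans ((mul_le_mul_of_nonneg_left h1 hA'0).trans ?_)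
    rw [mul_comm (α * (N * Q) + 2 * G + err)]
    exact mul_le_mul_of_nonneg_right hA' (by positivity)
  have h4 := le_of_mul_le_mul_right h2 (by positivity)
  have h5 : α * N * (w - Q) = α * (N * w) - α * (N * Q) := by ring
  linarith

theorem omega_pos (hn : 2 ≤ n) : 0 < omega n := by
  have : NeZero n := ⟨by omega⟩
  exact ENNReal.toReal_pos (Metric.measure_ball_pos volume _ one_pos).ne' measure_ball_lt_top.ne

/-- The kernel at the levels just below zero has area at most that of the level zero, up to `e`. -/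
theorem kernel_bound (hg : IsMetric g) (hc : JointCharts g Ex Lo) (hC : CertK n P α G gF) {η : ℝ}
    (hd : Defining φ) (hw : RegWindow φ η) {l ε e : ℝ} (hl : 0 < l) (hε : 0 < ε) (he : 0 < e)
    (hext : 2 * P.D * (l ^ 2 * ε) * (area g φ η 0 (fun _ => 1) + e) ≤ e)
    (hb : ∀ τ ∈ Ioo (-(η / 2)) 0, ∀ a, φ a = τ → area g φ η τ (fun z =>
      areaKer P Lo g φ l ε a (inDir g Lo φ a) z -
        ((n : ℝ) - 1) * l * volKer P Lo g φ l ε a (inDir g Lo φ a) z) ≤ e / 2) :
    ∀ᶠ τ in 𝓝[<] (0 : ℝ), ∀ a, φ a = τ →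
      area g φ η τ (kernel P g Lo φ l ε a) ≤ area g φ η 0 (fun _ => 1) + 2 * e := by
  have hone : ContDiffOn ℝ 1 (fun _ : Space n => (1 : ℝ)) (regSet φ) := contDiffOn_const
  have hcont : ContinuousAt (fun τ => area g φ η τ (fun _ => 1)) 0 :=
    (area_continuous hg hd hw hone).continuousAt
      (isOpen_Ioo.mem_nhds ⟨by linarith [hw.1], by linarith [hw.1]⟩)
  have h1 : ∀ᶠ τ in 𝓝 (0 : ℝ), area g φ η τ (fun _ => 1) < area g φ η 0 (fun _ => 1) + e / 2 :=
    hcont.eventually_lt_const (by linarith)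
  filter_upwards [nhdsWithin_le_nhds h1,
    Ioo_mem_nhdsLT (show -(η / 2) < 0 by linarith [hw.1])] with τ hτ1 hτ2 a ha
  rw [kernel_area hg hc hC hd hw (abs_lt.2 ⟨hτ2.1, by linarith [hτ2.2, hw.1]⟩) hl hε a]
  have hD := hC.D_nonneg
  have hs0 : 0 ≤ 2 * P.D * (l ^ 2 * ε) := by positivity
  have h3 := mul_le_mul_of_nonneg_left
    (show area g φ η τ (fun _ => 1) ≤ area g φ η 0 (fun _ => 1) + e by linarith) hs0
  linarith [hb τ hτ2 a ha]

/-- The room for the regularisation is at most `e`. -/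
theorem slack_le {D l L ε A M e : ℝ} (hD : 0 ≤ D) (hl : 0 ≤ l) (hlL : l ≤ L) (hε : 0 ≤ ε)
    (hεe : ε ≤ e / (2 * D * L ^ 2 * (M + e) + 1)) (hA : 0 ≤ A) (hAM : A ≤ M) (he : 0 < e) :
    2 * D * (l ^ 2 * ε) * (A + e) ≤ e := by
  have hM : 0 ≤ M + e := by linarith
  have hden : 0 < 2 * D * L ^ 2 * (M + e) + 1 := by positivity
  have h1 : 2 * D * (l ^ 2 * ε) * (A + e) ≤ 2 * D * (L ^ 2 * ε) * (M + e) := by gcongr
  have h2 := (le_div_iff₀ hden).1 hεe
  linarith

/-- The sharp inequality in jointly smooth normal coordinates. -/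
theorem sharp (hn : 2 ≤ n) (hC : CertK n P α G gF) (hg : IsMetric g) (hc : JointCharts g Ex Lo)
    (hs : SecBound g 0) (hd : Defining φ) :
    ENNReal.ofReal ((n : ℝ) * omega n ^ ((n : ℝ)⁻¹) *
        Univ.gVol g (sub φ 0) ^ (1 - (n : ℝ)⁻¹)) ≤ Univ.gPer g (sub φ 0) := by
  obtain ⟨k, rfl⟩ : ∃ k, n = k + 1 := ⟨n - 1, by omega⟩
  have hk0 : k ≠ 0 := by omega
  set N : ℝ := ((k + 1 : ℕ) : ℝ) with hN
  have hN1 : N = (k : ℝ) + 1 := by rw [hN]; push_cast; rfl
  have hN0 : 0 < N := by rw [hN1]; positivity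
  by_contra hcon
  rw [not_le] at hcon
  have hfin : Univ.gPer g (sub φ 0) ≠ ⊤ := hcon.ne_top
  have hV : ∀ E, 0 ≤ Univ.gVol g E := fun E => integral_nonneg fun x => (dens_pos hg x).le
  set w := omega (k + 1)
  have hw0 : 0 < w := omega_pos hn
  set S := w ^ N⁻¹
  have hS0 : 0 < S := Real.rpow_pos_of_pos hw0 _
  have hSn : S ^ (k + 1) = w := Real.rpow_inv_natCast_pow hw0.le (Nat.succ_ne_zero k)
  set W := Univ.gVol g (sub φ 0) ^ (1 - N⁻¹)
  set P₀ := (Univ.gPer g (sub φ 0)).toReal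
  have hP0 : P₀ < N * S * W := (ENNReal.lt_ofReal_iff_toReal_lt hfin).1 hcon
  have hP00 : 0 ≤ P₀ := ENNReal.toReal_nonneg
  have hWnn : 0 ≤ W := Real.rpow_nonneg (hV _) _
  have hW : 0 < W := by
    rcases hWnn.eq_or_lt with h | h
    · rw [← h, mul_zero] at hP0; linarith
    · exact h
  set c := (P₀ / W + N * S) / 2 with hc_def
  have hPW : P₀ / W < N * S := (div_lt_iff₀ hW).2 hP0
  have hNS : 0 < N * S := mul_pos hN0 hS0
  have hcS : c < N * S := by rw [hc_def]; linarith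
  have hc0 : 0 < c := by
    rw [hc_def]
    have : 0 ≤ P₀ / W := by positivity
    linarith
  have hneg : deficitN g c (sub φ 0) < 0 := by
    have h1 : P₀ / W * W < c * W := mul_lt_mul_of_pos_right (by rw [hc_def]; linarith) hW
    rw [div_mul_cancel₀ _ hW.ne'] at h1
    unfold deficitN
    linarith
  obtain ⟨m, Vmax, hm, hnear⟩ := near hn hg hc hs hC hc0 hd hneg
  set Q := (c / N) ^ (k + 1) with hQ
  have hQw : Q < w := by
    rw [hQ, ← hSn]
    exact pow_lt_pow_left₀ ((div_lt_iff₀ hN0).2 (by linarith)) (by positivity) (Nat.succ_ne_zero k)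
  set γ := α * N * (w - Q) with hγ
  have hγ0 : 0 < γ := mul_pos (mul_pos hC.alpha_pos hN0) (sub_pos.2 hQw)
  set u₀ := (m / c) ^ ((k : ℝ)⁻¹)
  have hu00 : 0 < u₀ := by positivity
  set L := c * u₀⁻¹ / N with hL
  have hL0 : 0 < L := by positivity
  set e := γ / (8 * (α * L ^ k + 1)) with he
  have hα := hC.alpha_pos
  have he0 : 0 < e := by positivity
  set Amax := c * (max Vmax 0 ^ N⁻¹) ^ k
  have hAmax : 0 ≤ Amax := by positivity
  have hD := hC.D_nonneg
  set ε₁ := e / (2 * P.D * L ^ 2 * (Amax + e) + 1)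
  have hε₁ : 0 < ε₁ := by positivity
  set ε := min ((γ / (4 * (N * w * (N + 1) * L + 1))) ^ 2) ε₁ with hε
  have hε0 : 0 < ε := lt_min (by positivity) hε₁
  obtain ⟨ψ, η, hψ, hwin, hdef, hVle, hbeta⟩ := hnear ε (e / 2) hε0 (by positivity)
  have h0 : |(0 : ℝ)| < η / 2 := by rw [abs_zero]; linarith [hwin.1]
  obtain ⟨hA1, hper⟩ := gPer_sub hg hψ hwin h0
  set V := Univ.gVol g (sub ψ 0)
  set A := area g ψ η 0 (fun _ => 1)
  set u := V ^ N⁻¹
  have hpw : ∀ j : ℕ, u ^ j = V ^ ((j : ℝ) * N⁻¹) := fun j => by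
    rw [← Real.rpow_natCast u j, ← Real.rpow_mul (hV _), mul_comm]
  have huk : V ^ (1 - N⁻¹) = u ^ k := by
    rw [hpw]; congr 1; rw [hN1]; field_simp; ring
  have hun : u ^ (k + 1) = V := Real.rpow_inv_natCast_pow (hV _) (Nat.succ_ne_zero k)
  have hcu : m + A ≤ c * u ^ k := by
    have h1 := hdef
    unfold deficitN at h1
    rw [hper, ENNReal.toReal_ofReal hA1, huk] at h1
    linarith
  have hunn : 0 ≤ u := Real.rpow_nonneg (hV _) _
  have hu : u₀ ≤ u := by
    rw [← Real.pow_rpow_inv_natCast hunn hk0]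
    exact Real.rpow_le_rpow (by positivity) ((div_le_iff₀ hc0).2 (by linarith)) (by positivity)
  have hupos : 0 < u := hu00.trans_le hu
  set l := c * u⁻¹ / N with hl
  have hl0 : 0 < l := by positivity
  have hlL : l ≤ L := by rw [hl, hL]; gcongr
  have hcl : c = N * (l * u) := by rw [hl]; field_simp
  have hl' : l = c * (1 - N⁻¹) * V ^ (-N⁻¹) / (N - 1) := by
    rw [hl, Real.rpow_neg (hV _)]
    change c * u⁻¹ / N = c * (1 - N⁻¹) * u⁻¹ / (N - 1)
    have : (k : ℝ) ≠ 0 := Nat.cast_ne_zero.2 hk0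
    rw [hN1, add_sub_cancel_right]
    field_simp
    ring
  have hAle : A ≤ Amax := by
    have h1 : u ^ k ≤ (max Vmax 0 ^ N⁻¹) ^ k :=
      pow_le_pow_left₀ hunn (Real.rpow_le_rpow (hV _) (hVle.trans (le_max_left _ _)) (by positivity)) k
    have h2 := mul_le_mul_of_nonneg_left h1 hc0.le
    linarith
  have hext : 2 * P.D * (l ^ 2 * ε) * (A + e) ≤ e :=
    slack_le hD hl0.le hlL hε0.le (min_le_right _ _) hA1 hAle he0
  set B := A + 2 * e with hB
  have hB0 : 0 ≤ B := by positivity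
  have hev : ∀ᶠ τ in 𝓝[<] (0 : ℝ), ∀ a, ψ a = τ →
      area g ψ η τ (kernel P g Lo ψ l ε a) ≤ B :=
    kernel_bound hg hc hC hψ hwin hl0 hε0 he0 hext fun τ hτ a ha =>
      hbeta τ hτ a ha (inDir g Lo ψ a) (inDir_norm hg hc a) l hl'
  have hsw := switch hn hC hg hc hs hψ hwin hl0 hε0 hB0 hev
  rw [show Univ.gVol g (sub ψ 0) = u ^ (k + 1) from hun.symm, hB, Nat.add_sub_cancel] at hsw
  have hQ' : Q = l ^ (k + 1) * u ^ (k + 1) := by
    rw [hQ, ← mul_pow, hcl, mul_div_cancel_left₀ _ hN0.ne']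
  have hfinal := algebra (L := L) hcl hQ' (by rw [hQ']; positivity) hl0 hlL hA1 (by linarith) hN0
    hw0.le hα.le hC.G_nonneg he0.le hC.balance hsw
  have hsq : Real.sqrt ε ≤ γ / (4 * (N * w * (N + 1) * L + 1)) :=
    Real.sqrt_le_iff.2 ⟨by positivity, min_le_left _ _⟩
  have h1 : 2 * (α * L ^ k * e) ≤ γ / 4 := by
    rw [he, ← mul_assoc, ← mul_div_assoc, div_le_iff₀ (by positivity)]
    linarith
  have h2 : N * w * (N + 1) * (L * Real.sqrt ε) ≤ γ / 4 := by
    refine (mul_le_mul_of_nonneg_left (mul_le_mul_of_nonneg_left hsq hL0.le) (by positivity)).trans ?_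
    rw [← mul_assoc, ← mul_div_assoc, div_le_iff₀ (by positivity)]
    linarith
  linarith

/-- The sharp isoperimetric inequality in any dimension with a certificate, for bounded domains
with defining functions in metrics of nonpositive curvature with normal coordinates at every
point. -/
theorem cartan_hadamard (hn : 2 ≤ n) (hC : CertK n P α G gF) (hg : IsMetric g) (hn' : NormalCharts g)
    (hs : SecBound g 0) (hφ : ContDiff ℝ 2 φ) (hb : Bornology.IsBounded (sub φ 0))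
    (hr : ∀ x, φ x = 0 → fderiv ℝ φ x ≠ 0) :
    ENNReal.ofReal ((n : ℝ) * omega n ^ ((n : ℝ)⁻¹) *
        Univ.gVol g (sub φ 0) ^ (1 - (n : ℝ)⁻¹)) ≤ Univ.gPer g (sub φ 0) := by
  obtain ⟨Ex, Lo, hc⟩ := Bridge.exists_jointCharts hg hn'
  obtain ⟨ψ, hd, hsub⟩ := exists_defining hφ hb hr
  rw [← hsub]
  exact sharp hn hC hg hc hs hd

/-- The same in coordinate notation. -/
theorem coord_sharpK (hn : 2 ≤ n) (hC : CertK n P α G gF) {M : Fin n → Fin n → Space n → ℝ}
    (hG : Coord.IsMetric M) (hs : Coord.SecLE M 0) (hc : Coord.NormalCharts M)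
    (hφ : ContDiff ℝ 2 φ) (hb : Bornology.IsBounded {x | φ x < 0})
    (hr : ∀ x, φ x = 0 → fderiv ℝ φ x ≠ 0) :
    ENNReal.ofReal ((n : ℝ) * omega n ^ ((n : ℝ)⁻¹) *
        Coord.vol M {x | φ x < 0} ^ (1 - (n : ℝ)⁻¹)) ≤ Coord.per M {x | φ x < 0} := by
  have hv : Coord.vol M {x | φ x < 0} = Univ.gVol (Coord.toField M) {x | φ x < 0} := by
    rw [Coord.vol, Univ.gVol, Coord.dens_eq]
  rw [hv, Coord.per_eq hG]
  exact cartan_hadamard hn hC (Coord.isMetric hG) (Coord.normalCharts hG hc)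
    (Coord.secBound hG hs) hφ hb hr

/-- The same for an affine certificate. -/
theorem coord_sharp {P : Profile} (hn : 2 ≤ n) (hC : Cert n P α G gF) {M : Fin n → Fin n → Space n → ℝ}
    (hG : Coord.IsMetric M) (hs : Coord.SecLE M 0) (hc : Coord.NormalCharts M)
    (hφ : ContDiff ℝ 2 φ) (hb : Bornology.IsBounded {x | φ x < 0})
    (hr : ∀ x, φ x = 0 → fderiv ℝ φ x ≠ 0) :
    ENNReal.ofReal ((n : ℝ) * omega n ^ ((n : ℝ)⁻¹) *
        Coord.vol M {x | φ x < 0} ^ (1 - (n : ℝ)⁻¹)) ≤ Coord.per M {x | φ x < 0} :=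
  coord_sharpK hn hC.toK hG hs hc hφ hb hr

end

end Vale.Agent.P219.Aff
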