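import Mathlib
import Vale.Agent.P219.Aff.Defs

/-!
# The regularised scalar inequalities follow from the exact ones
-/

open MeasureTheory Set
open scoped ENNReal ContDiff

namespace Vale.Agent.P219.Aff

noncomputable section

variable {n : ℕ} {P : Kern} {α G : ℝ} {gF : ℝ → ℝ}

/-- The share of a chord of length `r` at its end with cosine `c`, in scaled lengths. -/
def share (n : ℕ) (P : Kern) (α : ℝ) (gF : ℝ → ℝ) (ε r c d : ℝ) : ℝ :=
  α * r ^ (n - 1) *
      (kerSharp ((n : ℝ) - 1) P (Real.sqrt (r ^ 2 + ε)) (r * d / Real.sqrt (r ^ 2 + ε))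
          (r * c / Real.sqrt (r ^ 2 + ε)) +
        kerSharp ((n : ℝ) - 1) P (Real.sqrt (r ^ 2 + ε)) (r * c / Real.sqrt (r ^ 2 + ε))
          (r * d / Real.sqrt (r ^ 2 + ε))) / (4 * (c * d)) +
    gF c + ((n : ℝ) + 1) / 2 * Real.sqrt ε

/-- The kernel dominates the exact lower bound at the regularised distance. -/
theorem kerSharp_le (hC : CertK n P α G gF) {ε ρ u L m : ℝ} (hε : 0 < ε) (hρ : 0 < ρ)
    (hu : u ^ 2 ≤ ρ) (hL : L ^ 2 ≤ ρ)
    (hm : (ρ * m - u * L) ^ 2 ≤ (ρ - L ^ 2) * (ρ - u ^ 2)) :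
    kerSharp ((n : ℝ) - 1) P (Real.sqrt (ρ + ε)) (u / Real.sqrt (ρ + ε)) (L / Real.sqrt (ρ + ε)) ≤
      kerF ((n : ℝ) - 1) P ε ρ u L m := by
  set q := ρ + ε with hq
  have hq0 : 0 < q := by linarith
  set s := Real.sqrt q with hsdef
  have hs : 0 < s := Real.sqrt_pos.2 hq0
  have hsq : s ^ 2 = q := Real.sq_sqrt hq0.le
  set k := (n : ℝ) - 1
  have hdec : P.F1 q L ≤ P.D := hC.F1_le q L hq0 (by linarith)
  -- the mixed term: the bound says that a Gram determinant is nonnegative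
  have habs : |ρ * m - u * L| ≤ ρ - |u| * |L| := by
    have h0 : |u| * |L| ≤ ρ := by nlinarith [sq_nonneg (|u| - |L|), sq_abs u, sq_abs L]
    refine abs_le_of_sq_le_sq (hm.trans ?_) (by linarith)
    nlinarith [mul_nonneg hρ.le (sq_nonneg (|u| - |L|)), sq_abs u, sq_abs L]
  have hm1 : m ^ 2 ≤ 1 := by
    refine (sq_le_one_iff_abs_le_one m).2 (le_of_mul_le_mul_left ?_ hρ)
    have h4 := abs_add_le (ρ * m - u * L) (u * L)
    rw [sub_add_cancel, abs_mul, abs_of_pos hρ, abs_mul] at h4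
    linarith
  have hgram : (q * m - u * L) ^ 2 ≤ (q - L ^ 2) * (q - u ^ 2) := by
    have h4 : ρ * (m ^ 2 - 1) - 2 * u * L * m + u ^ 2 + L ^ 2 ≤ 0 := by
      refine le_of_mul_le_mul_left ?_ hρ
      linarith
    have h5 : q * (m ^ 2 - 1) - 2 * u * L * m + u ^ 2 + L ^ 2 ≤ 0 := by
      have : 0 ≤ ε * (1 - m ^ 2) := mul_nonneg hε.le (by linarith)
      rw [hq]; linarith
    have := mul_le_mul_of_nonneg_left h5 hq0.le
    linarith
  set S := Real.sqrt ((1 - (u / s) ^ 2) * (1 - (L / s) ^ 2))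
  have hbd : |u * m - u ^ 2 * L / q| ≤ |u| * S := by
    rw [show u * m - u ^ 2 * L / q = u * ((q * m - u * L) / q) by field_simp, abs_mul]
    refine mul_le_mul_of_nonneg_left (Real.abs_le_sqrt (le_trans ?_ (le_of_eq
      (show (q - L ^ 2) * (q - u ^ 2) / q ^ 2 = (1 - (u / s) ^ 2) * (1 - (L / s) ^ 2) by
        rw [div_pow, div_pow, hsq]; field_simp)))) (abs_nonneg u)
    rw [div_pow]
    exact div_le_div_of_nonneg_right hgram (by positivity)
  have hsL : s * (L / s) = L := by field_simp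
  have e : kerF k P ε ρ u L m - kerSharp k P s (u / s) (L / s) =
      2 * (P.D - P.F1 q L) * ε + (|P.F2 q L| * (|u| * S) -
        P.F2 q L * (u * m - u ^ 2 * L / q)) := by
    simp only [kerF, thetaF, kerSharp, etaF, hsq, hsL, ← hq, abs_div, abs_of_pos hs, S]
    rw [show ε = q - ρ by rw [hq]; ring, ← hsq]
    field_simp
    ring
  have h1 : 0 ≤ 2 * (P.D - P.F1 q L) * ε := mul_nonneg (by linarith) hε.le
  have h2 : P.F2 q L * (u * m - u ^ 2 * L / q) ≤ |P.F2 q L| * (|u| * S) :=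
    (le_abs_self _).trans (by rw [abs_mul]; exact mul_le_mul_of_nonneg_left hbd (abs_nonneg _))
  linarith

/-- The kernel and its transpose have nonnegative sum. -/
theorem kerF_pair_nonneg (hn : 1 ≤ n) (hC : CertK n P α G gF) {ε ρ u L m m' : ℝ} (hε : 0 < ε)
    (hρ : 0 ≤ ρ) (hu : u ^ 2 ≤ ρ) (hL : L ^ 2 ≤ ρ)
    (hm : (ρ * m - u * L) ^ 2 ≤ (ρ - L ^ 2) * (ρ - u ^ 2))
    (hm' : (ρ * m' - L * u) ^ 2 ≤ (ρ - u ^ 2) * (ρ - L ^ 2)) :
    0 ≤ kerF ((n : ℝ) - 1) P ε ρ u L m + kerF ((n : ℝ) - 1) P ε ρ L u m' := by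
  rcases hρ.eq_or_lt with h | h
  · subst h
    obtain rfl : u = 0 := by nlinarith
    obtain rfl : L = 0 := by nlinarith
    have h1 := hC.eta_nonneg ε 0 hε (by simpa using hε.le)
    have h3 : (0 : ℝ) ≤ (n : ℝ) - 1 := by
      have : (1 : ℝ) ≤ n := by exact_mod_cast hn
      linarith
    have h4 := mul_nonneg h3 h1
    have h5 := mul_nonneg hC.D_nonneg hε.le
    simp [kerF, thetaF, etaF]
    linarith
  · have hq0 : 0 < ρ + ε := by linarith
    have hs : 0 < Real.sqrt (ρ + ε) := Real.sqrt_pos.2 hq0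
    refine le_trans (hC.ker_nonneg _ (u / Real.sqrt (ρ + ε)) (L / Real.sqrt (ρ + ε)) hs ?_ ?_)
      (add_le_add (kerSharp_le hC hε h hu hL hm) (kerSharp_le hC hε h hL hu hm')) <;>
    · rw [abs_div, abs_of_pos hs, div_le_one hs]
      exact Real.abs_le_sqrt (by linarith)

theorem share_nonneg (hC : CertK n P α G gF) {ε r c d : ℝ} (hε : 0 < ε) (hr : 0 ≤ r) (hc : 0 < c)
    (hd : 0 < d) (hc1 : c ≤ 1) (hd1 : d ≤ 1) : 0 ≤ share n P α gF ε r c d := by
  have hs : 0 < Real.sqrt (r ^ 2 + ε) := Real.sqrt_pos.2 (by positivity)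
  have hle : ∀ x : ℝ, 0 ≤ x → x ≤ 1 → |r * x / Real.sqrt (r ^ 2 + ε)| ≤ 1 := fun x hx hx1 => by
    rw [abs_of_nonneg (by positivity), div_le_one hs]
    refine (mul_le_of_le_one_right hr hx1).trans (Real.le_sqrt_of_sq_le (by linarith))
  have h1 := hC.ker_nonneg _ _ _ hs (hle d hd.le hd1) (hle c hc.le hc1)
  have h2 := hC.g_nonneg c ⟨hc.le, hc1⟩
  have h3 := hC.alpha_pos
  unfold share
  positivity

/-- The two shares of a chord cover its length. -/
theorem chord_share (hn : 1 ≤ n) (hC : CertK n P α G gF) {ε r c d : ℝ} (hε : 0 < ε) (hr : 0 < r)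
    (hc : 0 < c) (hd : 0 < d) (hc1 : c ≤ 1) (hd1 : d ≤ 1) :
    r ≤ share n P α gF ε r c d + share n P α gF ε r d c := by
  set s := Real.sqrt (r ^ 2 + ε) with hsdef
  have hs : 0 < s := Real.sqrt_pos.2 (by positivity)
  have hrs : r ≤ s := Real.le_sqrt_of_sq_le (by linarith)
  set μ := r / s with hμ
  have hμ0 : 0 < μ := div_pos hr hs
  have hμ1 : μ ≤ 1 := (div_le_one hs).2 hrs
  have hc' : r * c / s = μ * c := by rw [hμ]; ring
  have hd' : r * d / s = μ * d := by rw [hμ]; ring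
  have hμc : μ * c ≤ 1 := mul_le_one₀ hμ1 hc.le hc1
  have hμd : μ * d ≤ 1 := mul_le_one₀ hμ1 hd.le hd1
  have h := hC.chord s (μ * c) (μ * d) hs (by positivity) hμc (by positivity) hμd
  have hg1 : gF (μ * c) ≤ gF c := hC.g_mono ⟨by positivity, hμc⟩ ⟨hc.le, hc1⟩
    (mul_le_of_le_one_left hc.le hμ1)
  have hg2 : gF (μ * d) ≤ gF d := hC.g_mono ⟨by positivity, hμd⟩ ⟨hd.le, hd1⟩
    (mul_le_of_le_one_left hd.le hμ1)
  set R1 := kerSharp ((n : ℝ) - 1) P s (μ * c) (μ * d)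
  set R2 := kerSharp ((n : ℝ) - 1) P s (μ * d) (μ * c)
  set Y := gF c + gF d
  have hY : 0 ≤ Y := add_nonneg (hC.g_nonneg c ⟨hc.le, hc1⟩) (hC.g_nonneg d ⟨hd.le, hd1⟩)
  have hpow : μ ^ (n + 1) = μ ^ (n - 1) * μ ^ 2 := by
    rw [← pow_add]; congr 1; omega
  have hX : μ ^ (n + 1) * (α * s ^ (n - 1) * (R1 + R2) / (2 * (μ * c * (μ * d)))) =
      α * r ^ (n - 1) * (R1 + R2) / (2 * (c * d)) := by
    have e : r ^ (n - 1) = μ ^ (n - 1) * s ^ (n - 1) := by
      rw [← mul_pow, hμ, div_mul_cancel₀ _ hs.ne']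
    rw [e, hpow]
    field_simp
  have hp1 : μ ^ (n + 1) ≤ 1 := pow_le_one₀ hμ0.le hμ1
  have h2 := mul_le_mul_of_nonneg_left (show r ≤ α * s ^ (n - 1) * (R1 + R2) /
    (2 * (μ * c * (μ * d))) + Y by simp only [Y]; linarith) (pow_nonneg hμ0.le (n + 1))
  rw [mul_add, hX] at h2
  have hB : (1 - μ ^ (n + 1)) ≤ ((n : ℝ) + 1) * (1 - μ) := by
    have := one_add_mul_le_pow (a := μ - 1) (by linarith) (n + 1)
    rw [add_sub_cancel] at this
    push_cast at this
    linarith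
  have herr : r * (1 - μ) ≤ Real.sqrt ε := by
    have h3 : s ≤ r + Real.sqrt ε := by
      rw [hsdef, Real.sqrt_le_iff]
      refine ⟨by positivity, ?_⟩
      nlinarith [Real.sq_sqrt hε.le, Real.sqrt_nonneg ε]
    have h4 : r * (1 - μ) = μ * (s - r) := by rw [hμ]; field_simp
    rw [h4]
    exact (mul_le_of_le_one_left (by linarith) hμ1).trans (by linarith)
  have hrem : r * (1 - μ ^ (n + 1)) ≤ ((n : ℝ) + 1) * Real.sqrt ε :=
    (mul_le_mul_of_nonneg_left hB hr.le).trans (by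
      rw [mul_left_comm]; exact mul_le_mul_of_nonneg_left herr (by positivity))
  have hY' : μ ^ (n + 1) * Y ≤ Y := mul_le_of_le_one_left hY hp1
  have e : share n P α gF ε r c d + share n P α gF ε r d c =
      α * r ^ (n - 1) * (R1 + R2) / (2 * (c * d)) + Y + ((n : ℝ) + 1) * Real.sqrt ε := by
    simp only [share, ← hsdef, hc', hd', R1, R2, Y]
    ring
  rw [e]
  linarith

end

end Vale.Agent.P219.Aff
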