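import Mathlib
import Vale.Agent.P219.Six.Surf

/-!
# Swapping the two points of a weighted double surface integral

A kernel is integrated over pairs of points on the same level, the level carrying a weight. Both
orders of integration are limits of one double integral over space with a tent in the difference
of the two levels, so they agree. If the kernel plus its transpose is nonnegative, the area of
that sum is then controlled by the area of the kernel alone.
-/

open MeasureTheory Filter Topology Set Metric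
open scoped ENNReal ContDiff

namespace Vale.Agent.P219.Aff

open Vale.Agent.P219 Vale.Agent.P219.Univ Vale.Agent.P219.Six Vale.Agent.P219.Six.Surf

noncomputable section

namespace Swap

variable {n : ℕ} {g : MetricField n} {φ : Space n → ℝ} {η : ℝ}

/-- The closed slab of regular levels. -/
def slab (φ : Space n → ℝ) (η : ℝ) : Set (Space n) := {x | |φ x| ≤ η / 2}

theorem slab_reg (hw : RegWindow φ η) : slab φ η ⊆ regSet φ := fun _ hx => fderiv_ne_window hw hx

theorem slab_compact (hd : Defining φ) (hw : RegWindow φ η) : IsCompact (slab φ η) := by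
  obtain ⟨R, hR⟩ := sub_subset_ball hd (le_refl (1 : ℝ))
  refine (isCompact_closedBall (0 : Space n) R).of_isClosed_subset
    (isClosed_le (continuous_abs.comp hd.smooth.continuous) continuous_const) fun x hx => hR ?_
  have hx' : |φ x| ≤ η / 2 := hx
  show φ x < 1
  linarith [le_abs_self (φ x), hw.1, hw.2.1]

theorem area_bound (hg : IsMetric g) (hd : Defining φ) (hw : RegWindow φ η) :
    ∃ C : ℝ, 0 ≤ C ∧ ∀ (s : ℝ) (h : Space n → ℝ) (M : ℝ), |s| < η / 2 →
      ContDiffOn ℝ 1 h (regSet φ) → 0 ≤ M → (∀ x ∈ slab φ η, |h x| ≤ M) →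
      |area g φ η s h| ≤ M * C := by
  have hone : ContDiffOn ℝ 1 (fun _ : Space n => (1 : ℝ)) (regSet φ) := contDiffOn_const
  refine ⟨∫ x, |divg (fun y => dens g y • ((1 : ℝ) • cutN g φ η y)) x|,
    integral_nonneg fun x => abs_nonneg _, fun s h M hs hh hM hb => ?_⟩
  have hb' : ∀ x, φ x = s → |h x| ≤ M := fun x hx => hb x (by
    show |φ x| ≤ η / 2
    rw [hx]; exact hs.le)
  have hc : ∀ c : ℝ, area g φ η s (fun _ => c * 1) = c * area g φ η s (fun _ => 1) :=
    fun c => area_smul hg hd hw hone c
  have h1 := area_mono hg hd hw hs hh (h' := fun _ => M * 1) contDiffOn_const fun x hx => by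
    linarith [le_abs_self (h x), hb' x hx]
  have h2 := area_mono hg hd hw hs (h := fun _ => -M * 1) contDiffOn_const hh fun x hx => by
    linarith [neg_abs_le (h x), hb' x hx]
  rw [hc] at h1 h2
  have h4 := (le_abs_self _).trans (abs_area_le hg hd hw hone s)
  have h5 := mul_le_mul_of_nonneg_left h4 hM
  exact abs_le.2 ⟨by linarith, by linarith⟩

theorem tent_translate (τ r s : ℝ) : tent τ r s = tent 0 r (s - τ) := by simp [tent]

theorem tent_symm (τ r s : ℝ) : tent τ r s = tent s r τ := by simp [tent, abs_sub_comm]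

theorem tent_integrable (τ : ℝ) {r : ℝ} (hr : 0 < r) : Integrable (tent τ r) := by
  refine (tent_props τ hr).1.integrable_of_hasCompactSupport
    (HasCompactSupport.intro (isCompact_Icc (a := τ - r) (b := τ + r)) fun s hs => ?_)
  by_contra h
  obtain ⟨h1, h2⟩ := abs_lt.1 ((tent_props τ hr).2.2.1 s h)
  exact hs ⟨by linarith, by linarith⟩

/-- The mass of a tent. -/
def mass (r : ℝ) : ℝ := ∫ s, tent 0 r s

theorem integral_tent (τ r : ℝ) : ∫ s, tent τ r s = mass r := by
  simp only [tent_translate τ r]
  exact integral_sub_right_eq_self (tent 0 r) τ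

theorem mass_pos {r : ℝ} (hr : 0 < r) : 0 < mass r := by
  obtain ⟨h1, h2, -, h4⟩ := tent_props 0 hr
  exact integral_pos_of_integrable_nonneg_nonzero h1 (tent_integrable 0 hr) (fun s => (h2 s).1)
    (x := 0) (by rw [h4]; exact one_ne_zero)

/-- The radii. -/
def rad (m : ℕ) : ℝ := 1 / ((m : ℝ) + 1)

theorem rad_pos (m : ℕ) : 0 < rad m := by unfold rad; positivity

/-- The average of `f` by a tent at `τ`. -/
def avg (f : ℝ → ℝ) (m : ℕ) (τ : ℝ) : ℝ := ∫ s, tent τ (rad m) s / mass (rad m) * f s

theorem avg_near {f : ℝ → ℝ} (hf : Continuous f) (m : ℕ) (τ c e : ℝ)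
    (he : ∀ s, tent τ (rad m) s ≠ 0 → |f s - c| ≤ e) : |avg f m τ - c| ≤ e := by
  obtain ⟨t1, t2, t3, -⟩ := tent_props τ (rad_pos m)
  have hN := mass_pos (rad_pos m)
  have hs : HasCompactSupport fun s => tent τ (rad m) s / mass (rad m) := by
    refine HasCompactSupport.intro (isCompact_Icc (a := τ - rad m) (b := τ + rad m)) fun s hs => ?_
    by_contra h
    obtain ⟨h1, h2⟩ := abs_lt.1 (t3 s fun h0 => h (by simp [h0]))
    exact hs ⟨by linarith, by linarith⟩
  have hwc : Continuous fun s => tent τ (rad m) s / mass (rad m) := t1.div_const _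
  have i1 : Integrable fun s => tent τ (rad m) s / mass (rad m) * f s :=
    (hwc.mul hf).integrable_of_hasCompactSupport hs.mul_right
  have i2 : Integrable fun s => tent τ (rad m) s / mass (rad m) :=
    hwc.integrable_of_hasCompactSupport hs
  have one : ∫ s, tent τ (rad m) s / mass (rad m) = 1 := by
    rw [integral_div, integral_tent, div_self hN.ne']
  have e1 : avg f m τ - c = ∫ s, tent τ (rad m) s / mass (rad m) * (f s - c) := by
    simp only [mul_sub]
    rw [integral_sub i1 (i2.mul_const c), integral_mul_const, one, one_mul, avg]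
  rw [e1]
  refine abs_integral_le_integral_abs.trans ?_
  calc ∫ s, |tent τ (rad m) s / mass (rad m) * (f s - c)|
      ≤ ∫ s, tent τ (rad m) s / mass (rad m) * e := by
        refine integral_mono_of_nonneg (ae_of_all _ fun s => abs_nonneg _) (i2.mul_const e)
          (ae_of_all _ fun s => ?_)
        have hw0 : 0 ≤ tent τ (rad m) s / mass (rad m) := div_nonneg (t2 s).1 hN.le
        simp only
        rw [abs_mul, abs_of_nonneg hw0]
        rcases eq_or_ne (tent τ (rad m) s) 0 with h | h
        · simp [h]
        · exact mul_le_mul_of_nonneg_left (he s h) hw0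
    _ = e := by rw [integral_mul_const, one, one_mul]

theorem avg_tendsto {f : ℝ → ℝ} (hf : Continuous f) (τ : ℝ) :
    Tendsto (fun m => avg f m τ) atTop (𝓝 (f τ)) := by
  rw [Metric.tendsto_atTop]
  intro e he
  obtain ⟨δ, hδ, hδ'⟩ := Metric.continuousAt_iff.1 hf.continuousAt (e / 2) (half_pos he)
  obtain ⟨N, hN⟩ := exists_nat_one_div_lt hδ
  refine ⟨N, fun m hm => ?_⟩
  rw [Real.dist_eq]
  refine lt_of_le_of_lt (avg_near hf m τ (f τ) (e / 2) fun s hs => ?_) (half_lt_self he)
  have h1 : |s - τ| < rad m := (tent_props τ (rad_pos m)).2.2.1 s hs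
  have h2 : rad m < δ := (Nat.one_div_le_one_div hm).trans_lt hN
  have := hδ' (show dist s τ < δ by rw [Real.dist_eq]; linarith)
  rw [Real.dist_eq] at this
  exact this.le

theorem continuous_weighted_area (hg : IsMetric g) (hd : Defining φ) (hw : RegWindow φ η)
    {q : ℝ → ℝ} (hq : Continuous q) (hqs : ∀ s, q s ≠ 0 → |s| < η / 2)
    {h : Space n → ℝ} (hh : ContDiffOn ℝ 1 h (regSet φ)) :
    Continuous fun s => q s * area g φ η s h := by
  refine continuous_iff_continuousAt.2 fun s => ?_
  by_cases hs : |s| < η / 2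
  · exact hq.continuousAt.mul ((area_continuous hg hd hw hh).continuousAt
      (isOpen_Ioo.mem_nhds (abs_lt.1 hs)))
  · have h0 : q s = 0 := by
      by_contra h0
      exact hs (hqs s h0)
    have hb := abs_area_le hg hd hw hh
    rw [ContinuousAt, h0, zero_mul]
    refine squeeze_zero_norm (fun t => ?_) (tendsto_const_nhds.mul
      ((hq.tendsto s).norm.congr' (Eventually.of_forall fun _ => rfl)) |>.trans_eq ?_)
      (a := fun t => (∫ x, |divg (fun y => dens g y • (h y • cutN g φ η y)) x|) * ‖q t‖)
    · rw [norm_mul, mul_comm]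
      exact mul_le_mul_of_nonneg_right (by rw [Real.norm_eq_abs]; exact hb t) (norm_nonneg _)
    · rw [h0, norm_zero, mul_zero]

/-- The surface weight in space. -/
def surfW (g : MetricField n) (φ : Space n → ℝ) (x : Space n) : ℝ := gradLen g φ x * dens g x

theorem continuous_surfW (hg : IsMetric g) (hd : Defining φ) : Continuous (surfW g φ) :=
  (gradLen_continuous hg hd.smooth).mul (contDiff_dens hg).continuous

/-- The double integrand. -/
def pairI (g : MetricField n) (φ : Space n → ℝ) (q : ℝ → ℝ) (K : Space n → Space n → ℝ) (m : ℕ)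
    (y z : Space n) : ℝ :=
  q (φ y) * surfW g φ y * (tent (φ y) (rad m) (φ z) / mass (rad m) * q (φ z) * surfW g φ z) * K y z

theorem pairI_flip (q : ℝ → ℝ) (K : Space n → Space n → ℝ) (m : ℕ) (y z : Space n) :
    pairI g φ q (fun a b => K b a) m y z = pairI g φ q K m z y := by
  simp only [pairI, tent_symm (φ y) (rad m) (φ z)]
  ring

variable {q : ℝ → ℝ} {K : Space n → Space n → ℝ}

theorem pairI_integrable (hg : IsMetric g) (hd : Defining φ) (hw : RegWindow φ η)
    (hq : Continuous q) (hqs : ∀ s, q s ≠ 0 → |s| < η / 2)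
    (hKc : ContinuousOn (Function.uncurry K) (regSet φ ×ˢ regSet φ)) (m : ℕ) :
    Integrable (Function.uncurry (pairI g φ q K m))
      ((volume : Measure (Space n)).prod volume) := by
  have hφ := hd.smooth.continuous
  have hW := continuous_surfW hg hd
  have hsl := slab_compact hd hw
  have hz : ∀ x, x ∉ slab φ η → q (φ x) = 0 := fun x hx => by
    by_contra h
    exact hx (show |φ x| ≤ η / 2 from (hqs _ h).le)
  have hzero : ∀ p : Space n × Space n, (p.1 ∉ slab φ η ∨ p.2 ∉ slab φ η) →
      Function.uncurry (pairI g φ q K m) p = 0 := by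
    rintro ⟨y, z⟩ (h | h) <;> simp [pairI, hz _ h]
  refine Continuous.integrable_of_hasCompactSupport ?_ ?_
  · refine continuous_iff_continuousAt.2 fun p => ?_
    by_cases hp : p.1 ∈ slab φ η ∧ p.2 ∈ slab φ η
    · have ht := (tent_props 0 (rad_pos m)).1
      have hp' : p ∈ regSet φ ×ˢ regSet φ := ⟨slab_reg hw hp.1, slab_reg hw hp.2⟩
      have hpre : Continuous fun p : Space n × Space n => q (φ p.1) * surfW g φ p.1 *
          (tent 0 (rad m) (φ p.2 - φ p.1) / mass (rad m) * q (φ p.2) * surfW g φ p.2) := by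
        fun_prop
      have := hpre.continuousAt.mul (hKc.continuousAt
        (((isOpen_regSet hd.smooth).prod (isOpen_regSet hd.smooth)).mem_nhds hp'))
      refine this.congr (Eventually.of_forall fun p' => ?_)
      simp [Function.uncurry, pairI, tent_translate (φ p'.1) (rad m) (φ p'.2)]
    · rw [not_and_or] at hp
      refine (continuousAt_const (y := (0 : ℝ))).congr ?_
      rcases hp with h | h
      · filter_upwards [(hsl.isClosed.isOpen_compl.preimage continuous_fst).mem_nhds h] with p' hp'
        exact (hzero p' (Or.inl hp')).symm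
      · filter_upwards [(hsl.isClosed.isOpen_compl.preimage continuous_snd).mem_nhds h] with p' hp'
        exact (hzero p' (Or.inr hp')).symm
  · refine HasCompactSupport.intro (hsl.prod hsl) fun p hp => hzero p ?_
    rw [mem_prod, not_and_or] at hp
    exact hp

/-- The diagonal of the double integral is its limit. -/
theorem pairI_limit (hg : IsMetric g) (hd : Defining φ) (hw : RegWindow φ η)
    (hq : Continuous q) (hqs : ∀ s, q s ≠ 0 → |s| < η / 2)
    (hKc : ContinuousOn (Function.uncurry K) (regSet φ ×ˢ regSet φ))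
    (h1 : ∀ y ∈ regSet φ, ContDiffOn ℝ 1 (K y) (regSet φ)) :
    Integrable (fun y => q (φ y) * surfW g φ y * (q (φ y) * area g φ η (φ y) (K y))) ∧
    Tendsto (fun m => ∫ y, ∫ z, pairI g φ q K m y z) atTop
      (𝓝 (∫ y, q (φ y) * surfW g φ y * (q (φ y) * area g φ η (φ y) (K y)))) := by
  have hφ := hd.smooth.continuous
  have hW := continuous_surfW hg hd
  have hsl := slab_compact hd hw
  obtain ⟨C, hC0, hC⟩ := area_bound hg hd hw
  obtain ⟨M, hM⟩ := (hsl.prod hsl).exists_bound_of_continuousOn
    (hKc.mono (prod_mono (slab_reg hw) (slab_reg hw)))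
  have hqc : HasCompactSupport q := HasCompactSupport.intro (isCompact_Icc (a := -η) (b := η))
    fun t ht => by
      by_contra hne
      have := abs_lt.1 (hqs t hne)
      exact ht ⟨by linarith [hw.1], by linarith [hw.1]⟩
  obtain ⟨Q, hQ⟩ := hqc.exists_bound_of_continuous hq
  have hQ0 : 0 ≤ Q := le_trans (norm_nonneg _) (hQ 0)
  set B : ℝ := Q * (max M 0 * C)
  have hB0 : 0 ≤ B := by positivity
  set f : Space n → ℝ → ℝ := fun y s => q s * area g φ η s (K y)
  have hf : ∀ y ∈ slab φ η, ∀ s, |f y s| ≤ B := by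
    intro y hy s
    rcases eq_or_ne (q s) 0 with h | h
    · simp [f, h, hB0]
    · simp only [f, abs_mul]
      refine mul_le_mul (hQ s) (hC s (K y) (max M 0) (hqs s h) (h1 y (slab_reg hw hy))
        (le_max_right _ _) fun x hx => ?_) (abs_nonneg _) hQ0
      exact (le_of_eq (Real.norm_eq_abs _).symm).trans ((hM (y, x) ⟨hy, hx⟩).trans (le_max_left _ _))
  have hy0 : ∀ y, q (φ y) ≠ 0 → y ∈ slab φ η := fun y h => (hqs _ h).le
  have hG : ∀ m y, ∫ z, pairI g φ q K m y z = q (φ y) * surfW g φ y * avg (f y) m (φ y) := by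
    intro m y
    rcases eq_or_ne (q (φ y)) 0 with h | h
    · simp [pairI, h]
    · have hc := coarea hg hd hw (h1 y (slab_reg hw (hy0 y h)))
        (k := fun s => tent (φ y) (rad m) s / mass (rad m) * q s)
        (((tent_props (φ y) (rad_pos m)).1.div_const _).mul hq)
        (fun s hs => hqs s (right_ne_zero_of_mul hs))
      rw [avg, ← integral_const_mul]
      simp only [f, ← mul_assoc (tent _ _ _ / _) (q _)]
      rw [integral_const_mul, hc, ← integral_const_mul]
      refine integral_congr_ae (ae_of_all _ fun z => ?_)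
      simp only [pairI, surfW]
      ring
  set L := fun y => |q (φ y) * surfW g φ y| * B
  have hL : Integrable L := by
    refine (((hq.comp hφ).mul hW).abs.mul continuous_const).integrable_of_hasCompactSupport
      (HasCompactSupport.intro hsl fun y hy => ?_)
    have : q (φ y) = 0 := by
      by_contra h
      exact hy (hy0 y h)
    simp [this]
  have hbd : ∀ m y, ‖q (φ y) * surfW g φ y * avg (f y) m (φ y)‖ ≤ L y := by
    intro m y
    rcases eq_or_ne (q (φ y)) 0 with h | h
    · simp [L, h]
    · rw [Real.norm_eq_abs, abs_mul]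
      refine mul_le_mul_of_nonneg_left ?_ (abs_nonneg _)
      simpa using avg_near (continuous_weighted_area hg hd hw hq hqs
        (h1 y (slab_reg hw (hy0 y h)))) m (φ y) 0 B fun s _ => (le_of_eq (by rw [sub_zero])).trans (hf y (hy0 y h) s)
  have hlim : ∀ y, Tendsto (fun m => q (φ y) * surfW g φ y * avg (f y) m (φ y)) atTop
      (𝓝 (q (φ y) * surfW g φ y * f y (φ y))) := by
    intro y
    rcases eq_or_ne (q (φ y)) 0 with h | h
    · simp [h]
    · exact (avg_tendsto (continuous_weighted_area hg hd hw hq hqs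
        (h1 y (slab_reg hw (hy0 y h)))) (φ y)).const_mul _
  have hmeas : ∀ m, AEStronglyMeasurable (fun y => q (φ y) * surfW g φ y * avg (f y) m (φ y))
      (volume : Measure (Space n)) := fun m =>
    (pairI_integrable hg hd hw hq hqs hKc m).integral_prod_left.aestronglyMeasurable.congr
      (ae_of_all _ fun y => hG m y)
  refine ⟨hL.mono' (aestronglyMeasurable_of_tendsto_ae atTop hmeas (ae_of_all _ hlim))
    (ae_of_all _ fun y => ?_), ?_⟩
  · exact le_of_tendsto (hlim y).norm (Eventually.of_forall fun m => hbd m y)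
  · simp only [hG]
    exact tendsto_integral_of_dominated_convergence L hmeas hL (fun m => ae_of_all _ (hbd m))
      (ae_of_all _ hlim)

/-- The two orders of integration agree. -/
theorem level_swap (hg : IsMetric g) (hd : Defining φ) (hw : RegWindow φ η)
    (hq : Continuous q) (hqs : ∀ s, q s ≠ 0 → |s| < η / 2)
    (hKc : ContinuousOn (Function.uncurry K) (regSet φ ×ˢ regSet φ))
    (h1 : ∀ y ∈ regSet φ, ContDiffOn ℝ 1 (K y) (regSet φ))
    (h2 : ∀ y ∈ regSet φ, ContDiffOn ℝ 1 (fun z => K z y) (regSet φ)) :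
    Integrable (fun y => q (φ y) * surfW g φ y *
        (q (φ y) * area g φ η (φ y) (fun z => K z y))) ∧
    ∫ y, q (φ y) * surfW g φ y * (q (φ y) * area g φ η (φ y) (fun z => K z y)) =
      ∫ y, q (φ y) * surfW g φ y * (q (φ y) * area g φ η (φ y) (K y)) := by
  have hKc' : ContinuousOn (Function.uncurry fun a b => K b a) (regSet φ ×ˢ regSet φ) :=
    hKc.comp continuous_swap.continuousOn fun p hp => ⟨hp.2, hp.1⟩
  obtain ⟨hi, hlim'⟩ := pairI_limit (K := fun a b => K b a) hg hd hw hq hqs hKc' h2
  have hlim := (pairI_limit hg hd hw hq hqs hKc h1).2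
  refine ⟨hi, tendsto_nhds_unique hlim' (hlim.congr fun m => ?_)⟩
  rw [integral_integral_swap (pairI_integrable hg hd hw hq hqs hKc m)]
  simp only [pairI_flip]

end Swap

open Swap

variable {n : ℕ} {g : MetricField n} {φ : Space n → ℝ} {η : ℝ}

/-- If a kernel plus its transpose is nonnegative, the weighted area of that sum is controlled by
the area of the kernel alone. -/
theorem sym_area_le (hg : IsMetric g) (hd : Defining φ) (hw : RegWindow φ η)
    {k : ℝ → ℝ} (hk : Continuous k) (hk0 : ∀ s, 0 ≤ k s) (hks : ∀ s, k s ≠ 0 → |s| < η / 2)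
    {K : Space n → Space n → ℝ}
    (hKc : ContinuousOn (Function.uncurry K) (regSet φ ×ˢ regSet φ))
    (h1 : ∀ y ∈ regSet φ, ContDiffOn ℝ 1 (K y) (regSet φ))
    (h2 : ∀ y ∈ regSet φ, ContDiffOn ℝ 1 (fun z => K z y) (regSet φ))
    (hsym : ∀ y ∈ regSet φ, ∀ z ∈ regSet φ, 0 ≤ K y z + K z y) {B : ℝ} (hB0 : 0 ≤ B)
    (hB : ∀ τ, k τ ≠ 0 → ∀ a, φ a = τ → area g φ η τ (K a) ≤ B) :
    ∫⁻ y, ENNReal.ofReal (k (φ y) * gradLen g φ y) *
        ENNReal.ofReal (area g φ η (φ y) (fun z => K y z + K z y)) * ENNReal.ofReal (dens g y) ≤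
      ∫⁻ y, ENNReal.ofReal (k (φ y) * gradLen g φ y * (2 * B) * dens g y) := by
  set q := fun s => Real.sqrt (k s) with hq'
  have hq : Continuous q := Real.continuous_sqrt.comp hk
  have hqq : ∀ s, q s * q s = k s := fun s => Real.mul_self_sqrt (hk0 s)
  have hqs : ∀ s, q s ≠ 0 → |s| < η / 2 := fun s h =>
    hks s fun h0 => h (by simp [hq', h0])
  obtain ⟨hi1, -⟩ := pairI_limit hg hd hw hq hqs hKc h1
  obtain ⟨hi2, heq⟩ := level_swap hg hd hw hq hqs hKc h1 h2
  have hW0 : ∀ y, 0 ≤ surfW g φ y := fun y =>
    mul_nonneg (gradLen_nonneg g φ y) (dens_pos hg y).le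
  have e : ∀ y (a : ℝ), q (φ y) * surfW g φ y * (q (φ y) * a) =
      k (φ y) * gradLen g φ y * a * dens g y := fun y a => by
    rw [← hqq]; simp only [surfW]; ring
  simp only [e] at hi1 hi2 heq
  have hsum : ∀ y, k (φ y) * gradLen g φ y * area g φ η (φ y) (fun z => K y z + K z y) * dens g y =
      k (φ y) * gradLen g φ y * area g φ η (φ y) (K y) * dens g y +
        k (φ y) * gradLen g φ y * area g φ η (φ y) (fun z => K z y) * dens g y := fun y => by
    rcases eq_or_ne (k (φ y)) 0 with h | h
    · simp [h]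
    · have hy := slab_reg hw (show y ∈ slab φ η from (hks _ h).le)
      rw [area_add hg hd hw (lt_one_of_window hw (hks _ h)).le (h1 y hy) (h2 y hy)]
      ring
  have hnn : ∀ y, 0 ≤ k (φ y) * gradLen g φ y * area g φ η (φ y) (fun z => K y z + K z y) *
      dens g y := fun y => by
    rcases eq_or_ne (k (φ y)) 0 with h | h
    · simp [h]
    · have hy := slab_reg hw (show y ∈ slab φ η from (hks _ h).le)
      refine mul_nonneg (mul_nonneg (mul_nonneg (hk0 _) (gradLen_nonneg g φ y)) ?_) (dens_pos hg y).le
      exact area_nonneg hg hd hw (hks _ h) ((h1 y hy).add (h2 y hy)) fun z hz =>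
        hsym y hy z (slab_reg hw (show |φ z| ≤ η / 2 by rw [hz]; exact (hks _ h).le))
  have hL : Integrable fun y => k (φ y) * gradLen g φ y * (2 * B) * dens g y := by
    refine (((((hk.comp hd.smooth.continuous)).mul (gradLen_continuous hg hd.smooth)).mul
      continuous_const).mul (contDiff_dens hg).continuous).integrable_of_hasCompactSupport
      (HasCompactSupport.intro (slab_compact hd hw) fun y hy => ?_)
    have : k (φ y) = 0 := by
      by_contra h
      exact hy (hks _ h).le
    simp [this]
  have hpos : ∀ y, 0 ≤ k (φ y) * gradLen g φ y * (2 * B) * dens g y := fun y =>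
    mul_nonneg (mul_nonneg (mul_nonneg (hk0 _) (gradLen_nonneg g φ y)) (by linarith))
      (dens_pos hg y).le
  calc ∫⁻ y, ENNReal.ofReal (k (φ y) * gradLen g φ y) *
        ENNReal.ofReal (area g φ η (φ y) (fun z => K y z + K z y)) * ENNReal.ofReal (dens g y)
      = ∫⁻ y, ENNReal.ofReal (k (φ y) * gradLen g φ y *
          area g φ η (φ y) (fun z => K y z + K z y) * dens g y) := lintegral_congr fun y => by
        rw [ENNReal.ofReal_mul' (dens_pos hg y).le,
          ENNReal.ofReal_mul (mul_nonneg (hk0 _) (gradLen_nonneg g φ y))]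
    _ ≤ _ := by
        have hi3 : Integrable fun y => k (φ y) * gradLen g φ y *
            area g φ η (φ y) (fun z => K y z + K z y) * dens g y := by
          simp only [hsum]; exact hi1.add hi2
        rw [← ofReal_integral_eq_lintegral_ofReal hi3 (ae_of_all _ hnn),
          ← ofReal_integral_eq_lintegral_ofReal hL (ae_of_all _ hpos)]
        refine ENNReal.ofReal_le_ofReal ?_
        simp only [hsum]
        rw [integral_add hi1 hi2, heq, ← two_mul, ← integral_const_mul]
        refine integral_mono (hi1.const_mul 2) hL fun y => ?_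
        rcases eq_or_ne (k (φ y)) 0 with h | h
        · simp [h]
        · have := mul_le_mul_of_nonneg_right (mul_le_mul_of_nonneg_left (hB _ h y rfl)
            (mul_nonneg (hk0 (φ y)) (gradLen_nonneg g φ y))) (dens_pos hg y).le
          simp only
          linarith

end

end Vale.Agent.P219.Aff
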